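import Crest.Agent.X261.BT.Part

/-!
# X261 / BT (helper20), DISC part A: the product `ℂ × M`

`dA A` : atlas on `ℂ × M`; `pbd δ H` : the form `pr^* ω + δ i dt ∧ dt̄`; `qp_iff` : dictionary with
joint plurisubharmonicity on `ℂ × Cn n`; slices, lifts, `JC`.
-/

set_option autoImplicit false
set_option linter.unusedSectionVars false

open Set Filter Topology Complex MeasureTheory Metric Function
open scoped ContDiff Matrix ComplexConjugate ComplexOrder

namespace Crest.Agent.X261.BT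

open Crest.Agent.R275.Geo Crest.Agent.R275.EDR890
open Crest.Agent.R273.Hess_333 Crest.Agent.R273.HessB_333
open Crest.Agent.R281.Rich_710 (PshL dav lev_eq_lvE)
open Crest.Agent.R281.Kp_487 (KP pot wt_contDiffAt wt_smooth lev_of_hess_zero)
open Crest.Agent.R257.HoB_843 (lvE lvE_comp)
open Crest.Agent.R257.Glue2_101 (lvE_add lvE_const_mul lvE_sq)
open Crest.Agent.R273.YauCh_635 (two_le_inf)

noncomputable section

variable {n : ℕ}

/-- centre of the unit square -/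
def c0 : ℂ := ⟨1 / 2, 1 / 2⟩

/-- centres of the charts of `ℂ` -/
def qk (k : ℕ) : ℂ := TopologicalSpace.denseSeq ℂ k

theorem exists_qk (t : ℂ) {r : ℝ} (hr : 0 < r) : ∃ k, t ∈ ball (qk k) r := by
  obtain ⟨k, hk⟩ := (TopologicalSpace.denseRange_denseSeq ℂ).exists_dist_lt t hr
  exact ⟨k, hk⟩

/-- the linear identification `ℂ × Cn n = Cn (n + 1)` -/
def jL (s : ℂ) (z : Cn n) : Cn (n + 1) := WithLp.toLp 2 (Fin.cons s z : Fin (n + 1) → ℂ)

/-- the tail -/
def zc (w : Cn (n + 1)) : Cn n := WithLp.toLp 2 fun a => w a.succ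

/-- the `t`-coordinate -/
def tc (q : ℂ) (w : Cn (n + 1)) : ℂ := 4 * (w 0 - c0) + q

/-- the affine identification -/
def jn (q : ℂ) (p : ℂ × Cn n) : Cn (n + 1) := jL ((p.1 - q) / 4 + c0) p.2

@[simp] theorem jL_zero (s : ℂ) (z : Cn n) : jL s z 0 = s := rfl

@[simp] theorem jL_succ (s : ℂ) (z : Cn n) (a : Fin n) : jL s z a.succ = z a := rfl

@[simp] theorem zc_apply (w : Cn (n + 1)) (a : Fin n) : zc w a = w a.succ := rfl

@[simp] theorem zc_jL (s : ℂ) (z : Cn n) : zc (jL s z) = z := rfl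

@[simp] theorem zc_jn (q : ℂ) (p : ℂ × Cn n) : zc (jn q p) = p.2 := rfl

@[simp] theorem tc_jn (q : ℂ) (p : ℂ × Cn n) : tc q (jn q p) = p.1 := by
  simp only [tc, jn, jL_zero]; ring

theorem jL_zc (w : Cn (n + 1)) : jL (w 0) (zc w) = w := by
  ext a; refine Fin.cases rfl (fun _ => rfl) a

@[simp] theorem jn_tc (q : ℂ) (w : Cn (n + 1)) : jn q (tc q w, zc w) = w := by
  have : (tc q w - q) / 4 + c0 = w 0 := by simp only [tc]; ring
  rw [jn, this, jL_zc]

/-- the tail as a linear map -/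
def zcL : Cn (n + 1) →L[ℂ] Cn n :=
  LinearMap.toContinuousLinearMap
    { toFun := zc, map_add' := fun _ _ => rfl, map_smul' := fun _ _ => rfl }

/-- the join as a linear map -/
def jLL : ℂ × Cn n →L[ℂ] Cn (n + 1) :=
  LinearMap.toContinuousLinearMap
    { toFun := fun p => jL p.1 p.2
      map_add' := fun _ _ => by ext a; refine Fin.cases rfl (fun _ => rfl) a
      map_smul' := fun _ _ => by ext a; refine Fin.cases rfl (fun _ => rfl) a }

@[simp] theorem zcL_apply (w : Cn (n + 1)) : zcL w = zc w := rfl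

@[simp] theorem jLL_apply (p : ℂ × Cn n) : jLL p = jL p.1 p.2 := rfl

theorem sm_zc {k : WithTop ℕ∞} : ContDiff ℂ k (zc : Cn (n + 1) → Cn n) := zcL.contDiff

theorem fderiv_zc (w v : Cn (n + 1)) : fderiv ℂ zc w v = zc v := by
  rw [show (zc : Cn (n + 1) → Cn n) = zcL from rfl, ContinuousLinearMap.fderiv]

theorem hasF_tc (q : ℂ) (w : Cn (n + 1)) :
    HasFDerivAt (tc q) ((4 : ℂ) • (EuclideanSpace.proj 0 : Cn (n + 1) →L[ℂ] ℂ)) w :=
  (((EuclideanSpace.proj 0 : Cn (n + 1) →L[ℂ] ℂ).hasFDerivAt.sub_const c0).const_mul 4).add_const q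

theorem sm_tc (q : ℂ) {k : WithTop ℕ∞} : ContDiff ℂ k (tc q : Cn (n + 1) → ℂ) :=
  (contDiff_const.mul ((EuclideanSpace.proj 0 : Cn (n + 1) →L[ℂ] ℂ).contDiff.sub
    contDiff_const)).add contDiff_const

theorem fderiv_tc (q : ℂ) (w v : Cn (n + 1)) : fderiv ℂ (tc q) w v = 4 * v 0 := by
  rw [(hasF_tc q w).fderiv]; rfl

theorem sm_jn (q : ℂ) {k : WithTop ℕ∞} : ContDiff ℂ k (jn q : ℂ × Cn n → Cn (n + 1)) :=
  jLL.contDiff.comp ((((contDiff_fst.sub contDiff_const).div_const 4).add contDiff_const).prodMk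
    contDiff_snd)

/-- the affine identification as a homeomorphism -/
def jH (q : ℂ) : ℂ × Cn n ≃ₜ Cn (n + 1) where
  toFun := jn q
  invFun w := (tc q w, zc w)
  left_inv p := by simp
  right_inv w := jn_tc q w
  continuous_toFun := (sm_jn q (k := 0)).continuous
  continuous_invFun := (sm_tc q (k := 0)).continuous.prodMk (sm_zc (k := 0)).continuous

variable {M : Type} [TopologicalSpace M] {A : Atl n M}

/-- charts of `ℂ × M` -/
def dE (A : Atl n M) (i : A.ι × ℕ) : OpenPartialHomeomorph (ℂ × M) (Cn (n + 1)) :=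
  ((OpenPartialHomeomorph.ofSet (ball (qk i.2) 2) isOpen_ball).prod (A.e i.1)).transHomeomorph
    (jH (qk i.2))


theorem dE_symm (i : A.ι × ℕ) (w : Cn (n + 1)) :
    (dE A i).symm w = (tc (qk i.2) w, (A.e i.1).symm (zc w)) := rfl


theorem mem_dE_target {i : A.ι × ℕ} {w : Cn (n + 1)} :
    w ∈ (dE A i).target ↔ tc (qk i.2) w ∈ ball (qk i.2) 2 ∧ zc w ∈ (A.e i.1).target := Iff.rfl

/-- the atlas on `ℂ × M` -/
@[reducible] def dA (A : Atl n M) : Atl (n + 1) (ℂ × M) where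
  ι := A.ι × ℕ
  e := dE A
  cover p := by
    obtain ⟨i, hi⟩ := A.cover p.2
    obtain ⟨k, hk⟩ := exists_qk p.1 two_pos
    exact ⟨(i, k), hk, hi⟩
  cube i w hw := by
    rintro ⟨a, b⟩
    refine Fin.cases ?_ (fun a => A.cube i.1 (zc w) hw.2 (a, b)) a
    have h1 : ‖w 0 - c0‖ < 1 / 2 := by
      have h2 := hw.1
      change tc (qk i.2) w ∈ ball (qk i.2) 2 at h2
      rw [mem_ball, dist_eq_norm, tc, add_sub_cancel_right, norm_mul] at h2
      simp only [Complex.norm_ofNat] at h2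
      linarith
    have h3 := abs_lt.1 ((abs_re_le_norm _).trans_lt h1)
    have h4 := abs_lt.1 ((abs_im_le_norm _).trans_lt h1)
    simp only [sub_re, sub_im, c0] at h3 h4
    unfold rc
    split_ifs
    · exact ⟨by linarith [h3.1], by linarith [h3.2]⟩
    · exact ⟨by linarith [h4.1], by linarith [h4.2]⟩
  holo i j := by
    have h1 : DifferentiableOn ℂ (fun w : Cn (n + 1) => A.e j.1 ((A.e i.1).symm (zc w)))
        {w | w ∈ (dE A i).target ∧ (dE A i).symm w ∈ (dE A j).source} :=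
      (A.holo i.1 j.1).comp (sm_zc (k := 1)).differentiable_one.differentiableOn
        fun w hw => ⟨hw.1.2, hw.2.2⟩
    exact (sm_jn (qk j.2) (k := 1)).differentiable_one.comp_differentiableOn
      ((sm_tc (qk i.2) (k := 1)).differentiable_one.differentiableOn.prodMk h1)

theorem hess_zero_iff {u : Cn n → ℝ} {z : Cn n} (hu : ContDiffAt ℝ ∞ u z) :
    hess u z = 0 ↔ ∀ v, lvE u z v = 0 := by
  refine ⟨fun h v => ?_, fun h => ?_⟩
  · have := lev_of_hess_zero hu h v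
    rw [lev_eq_lvE] at this
    linarith
  · have h1 := (psd_iff hu).2 fun v => (h v).ge
    have h2 : (-hess u z).PosSemidef := by
      rw [← hess_neg hu]
      refine (psd_iff hu.neg).2 fun v => ?_
      have := lvE_const_mul hu (-1) v
      simp only [neg_mul, one_mul] at this
      rw [this, h v, neg_zero]
    open scoped MatrixOrder in
    exact le_antisymm (neg_nonneg.1 h2.nonneg) h1.nonneg

theorem smR_zc {g : Cn n → ℝ} {w : Cn (n + 1)} (hg : ContDiffAt ℝ ∞ g (zc w)) :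
    ContDiffAt ℝ ∞ (fun w => g (zc w)) w :=
  hg.comp w (sm_zc.contDiffAt.restrict_scalars ℝ)

theorem lvE_zc {g : Cn n → ℝ} {w : Cn (n + 1)} (hg : ContDiffAt ℝ ∞ g (zc w)) (v : Cn (n + 1)) :
    lvE (fun w => g (zc w)) w v = lvE g (zc w) (zc v) := by
  rw [← fderiv_zc w v, ← lvE_comp sm_zc.contDiffAt (hg.of_le two_le_inf)]; rfl

theorem smR_tsq (q : ℂ) : ContDiff ℝ ∞ fun w : Cn (n + 1) => ‖tc q w‖ ^ 2 :=
  (contDiff_norm_sq ℝ).comp ((sm_tc q).restrict_scalars ℝ)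

theorem lvE_tsq (q : ℂ) (w v : Cn (n + 1)) :
    lvE (fun w => ‖tc q w‖ ^ 2) w v = 16 * ‖v 0‖ ^ 2 := by
  rw [lvE_sq (sm_tc q).contDiffAt, fderiv_tc, norm_mul]
  simp only [Complex.norm_ofNat]; ring

/-- the form `pr^* ω + δ i dt ∧ dt̄` -/
def pbd (δ : ℝ) (H : KP A) : KP (dA A) where
  u i p := H.u i.1 p.2 + δ * ‖p.1‖ ^ 2
  sm i := ((H.sm i.1).comp (sm_zc.restrict_scalars ℝ).contDiffOn fun _ hw => hw.2).add
    (contDiff_const.mul (smR_tsq (qk i.2))).contDiffOn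
  tr i j w hw := by
    have h1 : zc w ∈ A.ov i.1 j.1 := ⟨hw.1.2, hw.2.2⟩
    have h2 := kp_diff_smooth H h1
    have h3 : (fun w : Cn (n + 1) => H.u i.1 ((dE A i).symm w).2 + δ * ‖((dE A i).symm w).1‖ ^ 2 -
        (H.u j.1 ((dE A i).symm w).2 + δ * ‖((dE A i).symm w).1‖ ^ 2)) =
        fun w => H.u i.1 ((A.e i.1).symm (zc w)) - H.u j.1 ((A.e i.1).symm (zc w)) := by
      funext w; rw [dE_symm]; ring
    rw [h3, hess_zero_iff (smR_zc h2)]
    intro v
    rw [lvE_zc h2]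
    exact (hess_zero_iff h2).1 (H.tr _ _ _ h1) _

variable {H : KP A} {δ δ' : ℝ} {U : Set (ℂ × M)} {F : ℂ × M → ℝ}

theorem wt_pbd (δ : ℝ) (H : KP A) (i : A.ι × ℕ) (w : Cn (n + 1)) :
    (pbd δ H).wt i w = H.wt i.1 (zc w) + δ * ‖tc (qk i.2) w‖ ^ 2 := rfl

theorem lvE_pbd (δ : ℝ) (H : KP A) (i : A.ι × ℕ) {w : Cn (n + 1)} (hw : w ∈ (dE A i).target)
    (v : Cn (n + 1)) :
    lvE ((pbd δ H).wt i) w v = lvE (H.wt i.1) (zc w) (zc v) + δ * (16 * ‖v 0‖ ^ 2) := by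
  have h1 := wt_contDiffAt H i.1 hw.2
  rw [show (pbd δ H).wt i = fun w => H.wt i.1 (zc w) + δ * ‖tc (qk i.2) w‖ ^ 2 from rfl,
    lvE_add (smR_zc h1) (contDiff_const.mul (smR_tsq _)).contDiffAt, lvE_zc h1,
    lvE_const_mul (smR_tsq _).contDiffAt, lvE_tsq]

theorem pbd_semi (hδ : 0 ≤ δ) (hH : H.Semipos) : (pbd δ H).Semipos := fun i w hw v => by
  rw [lev_eq_lvE, lvE_pbd δ H i hw]
  have := semi_lvE hH i.1 hw.2 (zc v)
  positivity

theorem pbd_pos (hδ : 0 < δ) (hH : H.Pos) : (pbd δ H).Pos := fun i w hw v hv => by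
  rw [lev_eq_lvE, lvE_pbd δ H i hw]
  by_cases h : zc v = 0
  · have h1 : v 0 ≠ 0 := fun h2 => hv (by
      rw [← jL_zc v, h, h2]; ext a; refine Fin.cases rfl (fun _ => rfl) a)
    have := semi_lvE (pos_semi hH) i.1 hw.2 (zc v)
    positivity
  · have := hH i.1 (zc w) hw.2 _ h
    rw [lev_eq_lvE] at this
    have h3 : 0 ≤ δ * (16 * ‖v 0‖ ^ 2) := by positivity
    linarith

theorem sc_pbd (c δ : ℝ) (H : KP A) (i : A.ι × ℕ) (w : Cn (n + 1)) :
    (sc c (pbd δ H)).wt i w = (pbd (c * δ) (sc c H)).wt i w := by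
  rw [wt_sc, wt_pbd, wt_pbd, wt_sc]; ring


/-- the part of `ℂ × (chart i)` over `U` -/
def prU (A : Atl n M) (U : Set (ℂ × M)) (i : A.ι) : Set (ℂ × Cn n) :=
  {p | p.2 ∈ (A.e i).target ∧ (p.1, (A.e i).symm p.2) ∈ U}

/-- the joint potential -/
def jpot (δ : ℝ) (H : KP A) (F : ℂ × M → ℝ) (i : A.ι) (p : ℂ × Cn n) : ℝ :=
  pot H (fun x => F (p.1, x)) i p.2 + δ * ‖p.1‖ ^ 2

theorem jpot_apply (i : A.ι) (p : ℂ × Cn n) :
    jpot δ H F i p = H.wt i p.2 + F (p.1, (A.e i).symm p.2) + δ * ‖p.1‖ ^ 2 := rfl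

theorem pot_pbd (i : A.ι × ℕ) (w : Cn (n + 1)) :
    pot (pbd δ H) F i w = jpot δ H F i.1 (tc (qk i.2) w, zc w) := by
  rw [pot_apply, wt_pbd, jpot_apply]
  change _ + F (tc (qk i.2) w, (A.e i.1).symm (zc w)) = _
  ring

theorem contOn_prs (i : A.ι) : ContinuousOn (fun p : ℂ × Cn n => (p.1, (A.e i).symm p.2))
    (univ ×ˢ (A.e i).target) :=
  continuousOn_fst.prodMk ((A.e i).continuousOn_symm.comp continuousOn_snd fun _ hp => hp.2)

theorem isOpen_prU (hU : IsOpen U) (i : A.ι) : IsOpen (prU A U i) := by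
  convert (contOn_prs (A := A) i).isOpen_inter_preimage (isOpen_univ.prod (A.e i).open_target) hU
    using 1
  ext p; simp [prU]

theorem contOn_jpot (hF : ContinuousOn F U) (i : A.ι) :
    ContinuousOn (jpot δ H F i) (prU A U i) :=
  (((wt_smooth H i).continuousOn.comp continuousOn_snd fun _ hp => hp.1).add
    (hF.comp ((contOn_prs i).mono fun _ hp => ⟨trivial, hp.1⟩) fun _ hp => hp.2)).add
      (by fun_prop)

theorem QP.jpsh (h : QP (pbd δ H) U F) (i : A.ι) : PshL (prU A U i) (jpot δ H F i) := by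
  refine PL.of_local fun p hp => ?_
  obtain ⟨k, hk⟩ := exists_qk p.1 two_pos
  have ho : IsOpen (prU A U i ∩ Prod.fst ⁻¹' ball (qk k) 2) :=
    (isOpen_prU h.op i).inter (isOpen_ball.preimage continuous_fst)
  refine ⟨prU A U i ∩ Prod.fst ⁻¹' ball (qk k) 2, ⟨hp, hk⟩, PL.congr ho (PL.comp (T := jn (qk k)) ho
    (isOpen_chU (A := dA A) h.op (i, k))
    (h.cp (i, k)).1 (h.psh (i, k)) fun y hy => ⟨(sm_jn _).contDiffAt, ?_, ?_⟩) fun y _ => ?_⟩
  · refine mem_dE_target.2 ⟨?_, hy.1.1⟩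
    rw [tc_jn]; exact hy.2
  · change (tc (qk k) (jn (qk k) y), (A.e i).symm (zc (jn (qk k) y))) ∈ U
    rw [tc_jn]; exact hy.1.2
  · rw [pot_pbd, tc_jn, zc_jn]

theorem QP.of_jpsh (hU : IsOpen U) (hF : ContinuousOn F U)
    (h : ∀ i, PshL (prU A U i) (jpot δ H F i)) : QP (pbd δ H) U F :=
  ⟨hU, hF, fun i => PL.congr (isOpen_chU hU i) (PL.comp (T := fun w => (tc (qk i.2) w, zc w))
    (isOpen_chU hU i) (isOpen_prU hU i.1) (contOn_jpot hF i.1) (h i.1) fun _ hw =>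
      ⟨((sm_tc _).prodMk sm_zc).contDiffAt, hw.1.2, hw.2⟩) fun w _ => pot_pbd i w⟩


/-- slices in the direction of `M` -/
theorem QP.slice (h : QP (pbd δ H) U F) (t : ℂ) :
    QP H {x | (t, x) ∈ U} fun x => F (t, x) := by
  have ho : IsOpen {x | (t, x) ∈ U} := h.op.preimage (Continuous.prodMk_right t)
  refine ⟨ho, h.cont.comp (Continuous.prodMk_right t).continuousOn fun _ hx => hx, fun i => ?_⟩
  have h1 := PL.comp (T := fun z : Cn n => (t, z)) (isOpen_chU ho i) (isOpen_prU h.op i)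
    (contOn_jpot h.cont i) (h.jpsh i) fun _ hz =>
      ⟨(contDiff_const.prodMk contDiff_id).contDiffAt, hz⟩
  refine PL.congr (isOpen_chU ho i) (PL.add (isOpen_chU ho i)
    ((contOn_jpot h.cont i).comp (Continuous.prodMk_right t).continuousOn fun _ hz => hz)
    continuousOn_const h1 (PL.const (-(δ * ‖t‖ ^ 2)))) fun z _ => ?_
  simp [jpot]

theorem QP.slice' {D : Set ℂ} {W : Set M} (h : QP (pbd δ H) (D ×ˢ W) F) {t : ℂ} (ht : t ∈ D) :
    QP H W fun x => F (t, x) := by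
  convert h.slice t using 1
  ext x; simp [ht]

/-- holomorphic discs -/
theorem QP.disc (h : QP (pbd δ H) U F) (i : A.ι) {O : Set ℂ} (hO : IsOpen O) {τ : ℂ → ℂ}
    {κ : ℂ → Cn n} (hτ : ∀ s ∈ O, ContDiffAt ℂ 2 τ s) (hκ : ∀ s ∈ O, ContDiffAt ℂ 2 κ s)
    (hm : ∀ s ∈ O, (τ s, κ s) ∈ prU A U i) : PshL O fun s => jpot δ H F i (τ s, κ s) :=
  PL.comp (T := fun s => (τ s, κ s)) hO (isOpen_prU h.op i) (contOn_jpot h.cont i) (h.jpsh i)
    fun s hs => ⟨(hτ s hs).prodMk (hκ s hs), hm s hs⟩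

/-- slices in the direction of `ℂ` -/
theorem QP.tslice (h : QP (pbd δ H) U F) (x : M) :
    PshL {t | (t, x) ∈ U} fun t => F (t, x) + δ * ‖t‖ ^ 2 := by
  obtain ⟨i, hi⟩ := A.cover x
  have ho : IsOpen {t | (t, x) ∈ U} := h.op.preimage (Continuous.prodMk_left x)
  have hm : ∀ t ∈ {t | (t, x) ∈ U}, (t, A.e i x) ∈ prU A U i := fun t ht =>
    ⟨(A.e i).map_source hi, by rw [(A.e i).left_inv hi]; exact ht⟩
  have h1 := h.disc i ho (τ := fun t => t) (κ := fun _ => A.e i x) (fun _ _ => contDiffAt_id)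
    (fun _ _ => contDiffAt_const) hm
  refine PL.congr ho (PL.add ho ((contOn_jpot h.cont i).comp
    (Continuous.prodMk_left _).continuousOn hm) continuousOn_const h1
    (PL.const (-H.wt i (A.e i x)))) fun t _ => ?_
  change _ = jpot δ H F i (t, A.e i x) + _
  rw [jpot_apply]
  simp only [(A.e i).left_inv hi]
  ring

theorem psh_nsq {D : Set ℂ} (hD : IsOpen D) (t₀ : ℂ) : PshL D fun t => ‖t - t₀‖ ^ 2 :=
  PL.of_lvE hD fun t _ => ⟨((contDiff_norm_sq ℝ).comp (contDiff_id.sub contDiff_const)).contDiffAt,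
    fun v => by
      rw [lvE_sq (F := fun t => t - t₀) (contDiffAt_id.sub contDiffAt_const)]; positivity⟩

/-- adding a subharmonic function of `t` -/
theorem QP.add_t (h : QP (pbd δ H) U F) {D : Set ℂ} (hD : IsOpen D) (hU : ∀ p ∈ U, p.1 ∈ D)
    {τ : ℂ → ℝ} (hc : ContinuousOn τ D) (hp : PshL D τ) :
    QP (pbd δ H) U fun p => F p + τ p.1 := by
  refine QP.of_jpsh h.op (h.cont.add (hc.comp continuousOn_fst hU)) fun i => ?_
  have ho := isOpen_prU (A := A) h.op i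
  have hm : ∀ p ∈ prU A U i, p.1 ∈ D := fun p hp => hU _ hp.2
  refine PL.congr ho (PL.add ho (contOn_jpot h.cont i) (hc.comp continuousOn_fst hm) (h.jpsh i)
    (PL.comp (T := Prod.fst) ho hD hc hp fun p hp => ⟨contDiffAt_fst, hm p hp⟩)) fun p _ => ?_
  simp only [jpot_apply, comp_apply]; ring

theorem pot_shift (δ δ' : ℝ) (H : KP A) (F : ℂ × M → ℝ) (i : A.ι × ℕ) :
    pot (pbd δ' H) (fun p => F p + (δ - δ') * ‖p.1‖ ^ 2) i = pot (pbd δ H) F i := by
  funext w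
  rw [pot_pbd, pot_pbd, jpot_apply, jpot_apply]; ring

theorem QP.shift (h : QP (pbd δ H) U F) (δ' : ℝ) :
    QP (pbd δ' H) U fun p => F p + (δ - δ') * ‖p.1‖ ^ 2 :=
  ⟨h.op, h.cont.add (by fun_prop), fun i => by rw [pot_shift]; exact h.psh i⟩

theorem QP.le_pbd (h : QP (pbd δ H) U F) (hδ : δ ≤ δ') : QP (pbd δ' H) U F := by
  have h1 := (h.add_t isOpen_univ (fun _ _ => trivial) (τ := fun t => (δ' - δ) * ‖t - 0‖ ^ 2)
    (by fun_prop) (PL.mul (sub_nonneg.2 hδ) (psh_nsq isOpen_univ 0))).shift δ'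
  exact h1.congr fun p _ => by rw [sub_zero]; ring

/-- functions which do not depend on `t` -/
theorem QP.lift {W : Set M} {f : M → ℝ} (h : QP H W f) (hδ : 0 ≤ δ) :
    QP (pbd δ H) (univ ×ˢ W) fun p => f p.2 := by
  refine QP.le_pbd (δ := 0) (QP.of_jpsh (isOpen_univ.prod h.op)
    (h.cont.comp continuousOn_snd fun _ hp => hp.2) fun i => ?_) hδ
  have ho := isOpen_prU (A := A) (isOpen_univ.prod h.op : IsOpen ((univ : Set ℂ) ×ˢ W)) i
  refine PL.congr ho (PL.comp (T := Prod.snd) ho (isOpen_chU h.op i) (h.cp i).1 (h.psh i)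
    fun p hp => ⟨contDiffAt_snd, hp.1, hp.2.2⟩) fun p _ => ?_
  simp [jpot]

theorem QP.lift' {f : M → ℝ} (h : QP H univ f) (hδ : 0 ≤ δ) :
    QP (pbd δ H) univ fun p => f p.2 := by
  simpa only [univ_prod_univ] using h.lift hδ

theorem prU_prod (D : Set ℂ) (i : A.ι) : prU A (D ×ˢ univ) i = D ×ˢ (A.e i).target := by
  ext p; simp [prU, and_comm]


theorem JP.qp {D : Set ℂ} {Φ : ℂ → M → ℝ} (h : JP H D Φ) :
    QP (pbd 0 H) (D ×ˢ univ) fun p => Φ p.1 p.2 :=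
  QP.of_jpsh (h.op.prod isOpen_univ) h.cont fun i => by
    rw [prU_prod]
    exact PL.congr (h.op.prod (A.e i).open_target) (h.psh i) fun p _ => by simp [jpot]

theorem JP.of_qp {D : Set ℂ} {Φ : ℂ → M → ℝ} (hD : IsOpen D)
    (h : QP (pbd 0 H) (D ×ˢ univ) fun p => Φ p.1 p.2) {K : Set M} (hK : IsCompact K)
    (h0 : ∀ t ∈ D, ∀ x ∉ K, Φ t x = 0) : JP H D Φ :=
  ⟨hD, h.cont, fun i => by
    have := h.jpsh i
    rw [prU_prod] at this
    exact PL.congr (hD.prod (A.e i).open_target) this fun p _ => by simp [jpot], K, hK, h0⟩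

/-- families over the closed unit disc -/
structure JC (H : KP A) (V : ℂ → M → ℝ) : Prop where
  jp : JP H (ball 0 1) V
  cont : ContinuousOn (fun p : ℂ × M => V p.1 p.2) (closedBall 0 1 ×ˢ univ)
  mem : ∀ w : ℂ, ‖w‖ ≤ 1 → PP H (V w) ∧ V w ≤ 0

end

end Crest.Agent.X261.BT
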