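import Crest.Agent.X261.BT.GlobB
import Crest.Agent.X261.BT.EnA

/-!
# X261 / BT (helper21): the Monge-Ampere energy

`Er H a b` : the relative energy `E a - E b` (for `a = b` off a compact set); `En H a = Er H a 0`.
-/

set_option autoImplicit false
set_option linter.unusedSectionVars false

open Set Filter Topology MeasureTheory Metric Function
open scoped ContDiff

namespace Crest.Agent.X261.BT

open Crest.Agent.R275.Geo
open Crest.Agent.R281.Kp_487 (KP pot)

noncomputable section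

variable {n : ℕ} {M : Type} [TopologicalSpace M] {A : Atl n M} [MeasurableSpace M] [BorelSpace M]
  [Countable A.ι] [T2Space M]

/-- the relative energy `E a - E b` -/
def Er (H : KP A) (a b : M → ℝ) : ℝ := ErA (MX univ fun _ => H) a b

/-- the energy of a compactly supported function -/
def En (H : KP A) (a : M → ℝ) : ℝ := Er H a 0

variable {H H' : KP A} {a b c d a' b' : M → ℝ} {U W K : Set M}

theorem Er_def (H : KP A) (a b : M → ℝ) : Er H a b = (1 / (n + 1 : ℝ)) *
    ∑ j ∈ Finset.range (n + 1), ∫ x, (a x - b x) ∂MX univ (fun _ => H) (mx n j a b) := rfl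


theorem Er_self (H : KP A) (a : M → ℝ) : Er H a a = 0 := ErA_self _ a

theorem En_zero (H : KP A) : En H 0 = 0 := Er_self H 0

theorem mxs_MX' {H₀ : KP A} (h₀ : H₀.Pos) (hH : H.Semipos) :
    MXS (QP H univ) (MX univ fun _ => H) :=
  ⟨fun _ h => h.continuous, fun _ h σ => MX_perm (H := fun _ => H) isOpen_univ h σ,
    fun _ h _ hK => MX_lt_top isOpen_univ h hK (subset_univ _),
    fun _ h k _ _ _ _ => MX_stokes h₀ (fun _ => hH) h k, fun _ h k _ _ => MX_neg h₀ h k⟩

theorem mxs_MX (hH : H.Pos) : MXS (QP H univ) (MX univ fun _ => H) := mxs_MX' hH (pos_semi hH)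

/-! ### Monge-Ampere measures -/


theorem MA_lt_top (ha : QP H univ a) (hK : IsCompact K) : MA H a K < ⊤ :=
  MX_lt_top isOpen_univ (fun _ => ha) hK (subset_univ _)




theorem MA_const (ha : QP H univ a) (t : ℝ) : MA H (fun x => a x + t) = MA H a :=
  MX_const isOpen_univ (fun _ => ha) fun _ => t


theorem MA_restrict_eq (ha : QP H univ a) (hb : QP H univ b) (hW : IsOpen W) (t : ℝ)
    (he : ∀ x ∈ W, b x = a x + t) : (MA H b).restrict W = (MA H a).restrict W :=
  MX_restrict_eq isOpen_univ (fun _ => ha) isOpen_univ (fun _ => hb) hW (subset_univ _)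
    (subset_univ _) (fun _ => t) fun _ => he

/-- conservation of mass -/
theorem MA_mass (hH : H.Pos) (ha : QP H univ a) (hb : QP H univ b) (hK : IsCompact K)
    (he : ∀ x, x ∉ K → a x = b x) : MA H a K = MA H b K :=
  MX_mass hH (fun _ => pos_semi hH) (fun _ => hb) (fun _ => ha) hK fun _ => he

theorem MA_contact (ha : QP H univ a) (hb : QP H univ b) (hle : ∀ x, a x ≤ b x) {S : Set M}
    (hS : MeasurableSet S) (hge : ∀ x ∈ S, b x ≤ a x) : (MA H a).restrict S ≤ MA H b :=
  MX_contact isOpen_univ (fun _ => ha) (fun _ => hb) (fun _ x _ => hle x) hS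
    fun _ x hx _ => hge x hx






theorem MA_iso {γ : M ≃ₜ M} (hγ : Iso H γ) (ha : QP H univ a) :
    (MA H fun x => a (γ x)).map γ = MA H a := MX_iso hγ fun _ => ha

theorem Iso.qp' {γ : M ≃ₜ M} (hγ : Iso H γ) (ha : QP H univ a) : QP H univ fun x => a (γ x) :=
  hγ.qp ha

theorem Iso.pp {γ : M ≃ₜ M} (hγ : Iso H γ) (ha : PP H a) : PP H fun x => a (γ x) :=
  ⟨hγ.qp' ha.qp, ha.cpt.comp_homeomorph γ⟩

/-! ### the relative energy -/

section er

variable (hH : H.Pos) (ha : QP H univ a) (hb : QP H univ b)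
include hH ha hb

theorem Er_add (hc : QP H univ c) (hab : CE a b) (hbc : CE b c) :
    Er H a b + Er H b c = Er H a c := (mxs_MX hH).er_add ha hb hc hab hbc


theorem Er_sub (hc : QP H univ c) (hac : CE a c) (hbc : CE b c) :
    Er H a c - Er H b c = Er H a b := (mxs_MX hH).er_sub ha hb hc hac hbc

theorem le_Er (hab : CE a b) : ∫ x, (a x - b x) ∂MA H a ≤ Er H a b :=
  (mxs_MX hH).le_er ha hb hab

theorem Er_le (hab : CE a b) : Er H a b ≤ ∫ x, (a x - b x) ∂MA H b :=
  (mxs_MX hH).er_le ha hb hab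





theorem Er_mono (hc : QP H univ c) (hac : CE a c) (hbc : CE b c) (hab : ∀ x, a x ≤ b x) :
    Er H a c ≤ Er H b c := (mxs_MX hH).er_mono ha hb hc hac hbc hab



theorem Er_concave (hc : QP H univ c) (hac : CE a c) (hbc : CE b c) {s t : ℝ} (hs : 0 ≤ s)
    (ht : 0 ≤ t) (hst : s + t = 1) :
    s * Er H a c + t * Er H b c ≤ Er H (fun x => s * a x + t * b x) c :=
  (mxs_MX hH).er_concave ha hb hc hac hbc hs ht hst
    ((ha.convex hb ht (by linarith)).congr fun x _ => by rw [show 1 - t = s by linarith])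

theorem Er_le_mass (hK : IsCompact K) (h0 : ∀ x, x ∉ K → a x = b x) {S : ℝ}
    (hS : ∀ x ∈ K, a x - b x ≤ S) : Er H a b ≤ S * (MA H b).real K :=
  (mxs_MX hH).er_le_mass ha hb hK h0 hS


omit hH

theorem Er_shift (t : ℝ) : Er H (fun x => a x + t) (fun x => b x + t) = Er H a b :=
  ErA_shift fun j => MX_const isOpen_univ (mx_prop (P := QP H univ) ha hb j) fun _ => t

/-- the energy computed on an open set -/
theorem Er_eq_loc (hW : IsOpen W) (h0 : ∀ x, x ∉ W → a x = b x) :
    Er H a b = ErA (MX W fun _ => H) a b :=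
  ErA_congr h0 (fun _ => rfl) fun j => by
    have h := mx_prop (n := n) (P := QP H univ) ha hb j
    rw [MX_restrict isOpen_univ h hW (subset_univ _) fun _ _ _ => rfl,
      MX_self hW fun k => (h k).mono hW (subset_univ _)]





theorem Er_iso {γ : M ≃ₜ M} (hγ : Iso H γ) :
    Er H (fun x => a (γ x)) (fun x => b (γ x)) = Er H a b :=
  ErA_map γ fun j => by
    rw [← MX_iso hγ (mx_prop (P := QP H univ) ha hb j),
      Measure.map_map γ.symm.continuous.measurable γ.continuous.measurable]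
    simp

/-- continuity under locally uniform convergence, with supports in a fixed compact set -/
theorem Er_tendsto {ι : Type*} {l : Filter ι} {as bs : ι → M → ℝ} (hK : IsCompact K)
    (hq : ∀ᶠ j in l, QP H univ (as j) ∧ QP H univ (bs j) ∧ ∀ x, x ∉ K → as j x = bs j x)
    (h0 : ∀ x, x ∉ K → a x = b x) (hla : TendstoLocallyUniformly as a l)
    (hlb : TendstoLocallyUniformly bs b l) :
    Tendsto (fun j => Er H (as j) (bs j)) l (𝓝 (Er H a b)) := by
  simp only [Er_def]
  refine (tendsto_finsetSum _ fun j _ => ?_).const_mul _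
  have := lcs A
  refine MX_tendsto' isOpen_univ (mx_prop (P := QP H univ) ha hb j)
    (hq.mono fun m hm => mx_prop (P := QP H univ) hm.1 hm.2.1 j) (fun k => ?_) hK (subset_univ _)
    (hq.mono fun m hm => ⟨hm.1.cont.sub hm.2.1.cont, fun x hx => sub_eq_zero.2 (hm.2.2 x hx)⟩)
    (ha.cont.sub hb.cont) (fun x hx => sub_eq_zero.2 (h0 x hx)) ?_
  · rw [tendstoLocallyUniformlyOn_univ]
    unfold mx
    split_ifs
    exacts [hla, hlb]
  · exact (tendstoLocallyUniformly_iff_forall_isCompact.1 hla K hK).sub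
      (tendstoLocallyUniformly_iff_forall_isCompact.1 hlb K hK)

end er

/-! ### the energy of compactly supported functions -/

section en

theorem qp_zero (hH : H.Semipos) : QP H univ 0 := QP.const hH isOpen_univ 0

theorem PP.ce0 (ha : PP H a) : CE a 0 := ha.ce

theorem PP.ce2 (ha : PP H a) (hb : PP H b) : CE a b := ha.ce.trans hb.ce.symm

theorem PP.exists_cpt (ha : PP H a) : ∃ K : Set M, IsCompact K ∧ ∀ x, x ∉ K → a x = 0 :=
  ⟨_, ha.cpt, fun _ hx => image_eq_zero_of_notMem_tsupport hx⟩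

theorem PP.of_cpt (ha : QP H univ a) (hK : IsCompact K) (h : ∀ x, x ∉ K → a x = 0) : PP H a :=
  ⟨ha, HasCompactSupport.intro hK h⟩

theorem PP.of_ce (ha : QP H univ a) (hb : PP H b) (h : CE a b) : PP H a :=
  ⟨ha, CE.zero_iff.1 (h.trans hb.ce)⟩

theorem PP.max (ha : PP H a) (hb : PP H b) : PP H fun x => max (a x) (b x) :=
  PP.of_ce (ha.qp.max hb.qp) ha (ha.ce2 hb).max_left.symm

theorem PP.cvx (ha : PP H a) (hb : PP H b) {s t : ℝ} (hs : 0 ≤ s) (ht : 0 ≤ t) (hst : s + t = 1) :
    PP H fun x => s * a x + t * b x :=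
  PP.of_ce ((ha.qp.convex hb.qp ht (by linarith)).congr fun x _ => by
    rw [show 1 - t = s by linarith]) ha ((ha.ce2 hb).cvx hst).symm

/-- `max b (a - s)` -/
theorem PP.maxs (ha : PP H a) (hb : PP H b) {s : ℝ} (hs : 0 ≤ s) :
    PP H fun x => Max.max (b x) (a x - s) := by
  obtain ⟨K, hK, h1⟩ := ha.exists_cpt
  obtain ⟨L, hL, h2⟩ := hb.exists_cpt
  refine PP.of_cpt (hb.qp.max (ha.qp.sub_const s)) (hK.union hL) fun x hx => ?_
  rw [h1 x fun h => hx (Or.inl h), h2 x fun h => hx (Or.inr h)]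
  exact max_eq_left (by linarith)

variable (hH : H.Pos) (ha : PP H a)
include hH ha

theorem En_sub (hb : PP H b) : En H a - En H b = Er H a b :=
  Er_sub hH ha.qp hb.qp (qp_zero (pos_semi hH)) ha.ce0 hb.ce0

theorem En_mono (hb : PP H b) (hab : ∀ x, a x ≤ b x) : En H a ≤ En H b :=
  Er_mono hH ha.qp hb.qp (qp_zero (pos_semi hH)) ha.ce0 hb.ce0 hab


theorem En_concave (hb : PP H b) {s t : ℝ} (hs : 0 ≤ s) (ht : 0 ≤ t) (hst : s + t = 1) :
    s * En H a + t * En H b ≤ En H fun x => s * a x + t * b x :=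
  Er_concave hH ha.qp hb.qp (qp_zero (pos_semi hH)) ha.ce0 hb.ce0 hs ht hst





theorem MA_mass0 (hK : IsCompact K) (h : ∀ x, x ∉ K → a x = 0) : MA H a K = MA H 0 K :=
  MA_mass hH ha.qp (qp_zero (pos_semi hH)) hK h

/-- the energy is Lipschitz on functions supported in a fixed compact set -/
theorem En_lip (hb : PP H b) (hK : IsCompact K) (h : ∀ x, x ∉ K → a x = 0)
    (h' : ∀ x, x ∉ K → b x = 0) {ε : ℝ} (hε : ∀ x ∈ K, a x ≤ b x + ε) :
    En H a ≤ En H b + (MA H 0).real K * ε := by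
  have h1 := Er_le_mass hH ha.qp hb.qp hK (fun x hx => (h x hx).trans (h' x hx).symm) (S := ε)
    fun x hx => by linarith [hε x hx]
  rw [← En_sub hH ha hb, measureReal_def, MA_mass0 hH hb hK h', ← measureReal_def] at h1
  linarith

theorem abs_En_sub (hb : PP H b) (hK : IsCompact K) (h : ∀ x, x ∉ K → a x = 0)
    (h' : ∀ x, x ∉ K → b x = 0) {ε : ℝ} (hε : ∀ x ∈ K, |a x - b x| ≤ ε) :
    |En H a - En H b| ≤ (MA H 0).real K * ε := by
  have h1 := En_lip hH ha hb hK h h' (ε := ε) fun x hx => by linarith [(abs_le.1 (hε x hx)).2]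
  have h2 := En_lip hH hb ha hK h' h (ε := ε) fun x hx => by linarith [(abs_le.1 (hε x hx)).1]
  exact abs_le.2 ⟨by linarith, by linarith⟩

theorem abs_En_le (hK : IsCompact K) (h : ∀ x, x ∉ K → a x = 0) {T : ℝ}
    (hT : ∀ x ∈ K, |a x| ≤ T) : |En H a| ≤ (MA H 0).real K * T := by
  have := abs_En_sub hH ha (PP.zero (pos_semi hH)) hK h (fun _ _ => rfl) (ε := T) (by simpa using hT)
  rwa [show En H (fun _ => 0) = 0 from En_zero H, sub_zero] at this

theorem En_iso {γ : M ≃ₜ M} (hγ : Iso H γ) : En H (fun x => a (γ x)) = En H a :=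
  Er_iso ha.qp (qp_zero (pos_semi hH)) hγ


theorem En_tendsto {ι : Type*} {l : Filter ι} {as : ι → M → ℝ} (hK : IsCompact K)
    (hq : ∀ᶠ j in l, QP H univ (as j) ∧ ∀ x, x ∉ K → as j x = 0) (h0 : ∀ x, x ∉ K → a x = 0)
    (hl : TendstoUniformlyOn as a l K) : Tendsto (fun j => En H (as j)) l (𝓝 (En H a)) := by
  refine Metric.tendsto_nhds.2 fun ε hε => ?_
  have hC : 0 ≤ (MA H 0).real K := measureReal_nonneg
  filter_upwards [hq, Metric.tendstoUniformlyOn_iff.1 hl (ε / ((MA H 0).real K + 1))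
    (by positivity)] with j h1 h2
  refine (abs_En_sub hH (PP.of_cpt h1.1 hK h1.2) ha hK h1.2 h0
    (ε := ε / ((MA H 0).real K + 1)) fun x hx => ?_).trans_lt ?_
  · rw [abs_sub_comm]; exact (h2 x hx).le
  · rw [← mul_div_assoc, div_lt_iff₀ (by positivity)]
    nlinarith

end en

end

end Crest.Agent.X261.BT
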