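import Crest.Agent.X261.BT.MxB

/-!
# X261, BT (helper9), part R: Radon measures on an open set

* `Rad O μ` : `μ` lives on the open set `O` and is finite on its compact subsets;
* `Rad.le_of_tst`, `Rad.ext` : comparison through test functions; `exists_rad` : Riesz;
* `Rad.open_le_of_lim`, `Rad.le_cpt_of_lim`, `Rad.le_of_lim`, `Rad.lim_le` : portmanteau.
-/

set_option autoImplicit false
set_option linter.unusedSectionVars false

open Set Filter Topology MeasureTheory Function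
open scoped ENNReal CompactlySupported

namespace Crest.Agent.X261.BT

noncomputable section

/-- Radon measures on the open set `O` -/
structure Rad {X : Type*} [TopologicalSpace X] [MeasurableSpace X] (O : Set X) (μ : Measure X) :
    Prop where
  off : μ Oᶜ = 0
  fin : ∀ K, IsCompact K → K ⊆ O → μ K < ∞

variable {X : Type*} [TopologicalSpace X] [T2Space X] [MeasurableSpace X] [BorelSpace X]
  {O O' : Set X} {μ ν : Measure X} {φ ψ : X → ℝ}

theorem Tst.zero (O : Set X) : Tst O fun _ => 0 :=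
  Tst.of_cpt continuous_const isCompact_empty (empty_subset _) fun _ _ => rfl

theorem Tst.bdd (h : Tst O φ) : ∃ C, 0 ≤ C ∧ ∀ x, |φ x| ≤ C := by
  obtain ⟨C, hC⟩ := h.cont.bounded_above_of_compact_support h.cpt
  exact ⟨max C 0, le_max_right _ _, fun x => (hC x).trans (le_max_left _ _)⟩

theorem Tst.inter (h : Tst O φ) (h' : tsupport φ ⊆ O') : Tst (O ∩ O') φ :=
  ⟨h.cont, h.cpt, subset_inter h.sub h'⟩

theorem Tst.abs (h : Tst O φ) : Tst O fun x => |φ x| :=
  Tst.of_cpt h.cont.abs h.cpt h.sub fun x hx => by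
    rw [image_eq_zero_of_notMem_tsupport hx, abs_zero]


namespace Rad

theorem zero (O : Set X) : Rad O (0 : Measure X) := ⟨rfl, fun _ _ _ => ENNReal.zero_lt_top⟩

theorem of_le (h : Rad O ν) (hμ : μ ≤ ν) : Rad O μ :=
  ⟨le_antisymm ((hμ _).trans h.off.le) zero_le, fun K hK hKO => (hμ K).trans_lt (h.fin K hK hKO)⟩

theorem add (h : Rad O μ) (h' : Rad O ν) : Rad O (μ + ν) :=
  ⟨by rw [Measure.add_apply, h.off, h'.off, add_zero], fun K hK hKO => by
    rw [Measure.add_apply]; exact ENNReal.add_lt_top.2 ⟨h.fin K hK hKO, h'.fin K hK hKO⟩⟩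

theorem smul (h : Rad O μ) {c : ℝ≥0∞} (hc : c ≠ ∞) : Rad O (c • μ) :=
  ⟨by rw [Measure.smul_apply, h.off, smul_zero], fun K hK hKO => by
    rw [Measure.smul_apply, smul_eq_mul]; exact ENNReal.mul_lt_top hc.lt_top (h.fin K hK hKO)⟩

theorem restrict (h : Rad O μ) (A : Set X) : Rad O (μ.restrict A) := h.of_le Measure.restrict_le_self

theorem restrict_open (h : Rad O μ) (hO' : IsOpen O') (h1 : O' ⊆ O) : Rad O' (μ.restrict O') :=
  ⟨by rw [Measure.restrict_apply hO'.measurableSet.compl, compl_inter_self, measure_empty],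
    fun K hK hKO => (Measure.restrict_le_self K).trans_lt (h.fin K hK (hKO.trans h1))⟩

theorem ae_mem (h : Rad O μ) : ∀ᵐ x ∂μ, x ∈ O := h.off

theorem restrict_self (h : Rad O μ) : μ.restrict O = μ := Measure.restrict_eq_self_of_ae_mem h.ae_mem

theorem int_on (h : Rad O μ) {K : Set X} (hK : IsCompact K) (hKO : K ⊆ O)
    (hφ : ContinuousOn φ K) : IntegrableOn φ K μ := by
  obtain ⟨C, hC⟩ := hK.exists_bound_of_continuousOn hφ
  have : IsFiniteMeasure (μ.restrict K) := ⟨by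
    rw [Measure.restrict_apply_univ]; exact h.fin K hK hKO⟩
  exact Integrable.of_bound (hφ.aestronglyMeasurable_of_isCompact hK hK.measurableSet) C
    (ae_restrict_of_forall_mem hK.measurableSet hC)

theorem int (h : Rad O μ) (hφ : Tst O φ) : Integrable φ μ :=
  (integrableOn_iff_integrable_of_support_subset (subset_tsupport φ)).1
    (h.int_on hφ.cpt hφ.sub hφ.cont.continuousOn)

theorem abs_int_le (h : Rad O μ) {K : Set X} (hK : IsCompact K) (hKO : K ⊆ O) {ε : ℝ}
    (h1 : ∀ x ∈ K, |φ x| ≤ ε) (h2 : ∀ x, x ∉ K → φ x = 0) : |∫ x, φ x ∂μ| ≤ ε * μ.real K := by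
  rw [← setIntegral_eq_integral_of_forall_compl_eq_zero h2, ← Real.norm_eq_abs]
  exact norm_setIntegral_le_of_norm_le_const (h.fin K hK hKO) h1

theorem le_int (h : Rad O μ) (hφ : Tst O φ) (h0 : ∀ x, 0 ≤ φ x) {K : Set X} (hK : MeasurableSet K)
    (h1 : ∀ x ∈ K, 1 ≤ φ x) : μ K ≤ ENNReal.ofReal (∫ x, φ x ∂μ) := by
  rw [ofReal_integral_eq_lintegral_ofReal (h.int hφ) (Eventually.of_forall h0),
    ← lintegral_indicator_one hK]
  refine lintegral_mono fun x => ?_
  by_cases hx : x ∈ K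
  · rw [indicator_of_mem hx]
    exact ENNReal.one_le_ofReal.2 (h1 x hx)
  · rw [indicator_of_notMem hx]
    exact zero_le

theorem int_le (h : Rad O μ) (hφ : Tst O φ) (h0 : ∀ x, 0 ≤ φ x) {V : Set X} (hV : MeasurableSet V)
    (h1 : ∀ x, φ x ≤ 1) (h2 : ∀ x, x ∉ V → φ x = 0) : ENNReal.ofReal (∫ x, φ x ∂μ) ≤ μ V := by
  rw [ofReal_integral_eq_lintegral_ofReal (h.int hφ) (Eventually.of_forall h0),
    ← lintegral_indicator_one hV]
  refine lintegral_mono fun x => ?_
  by_cases hx : x ∈ V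
  · rw [indicator_of_mem hx]
    exact ENNReal.ofReal_le_one.2 (h1 x)
  · rw [indicator_of_notMem hx, h2 x hx, ENNReal.ofReal_zero]

end Rad

variable [LocallyCompactSpace X] [SecondCountableTopology X]

theorem exists_tst {K V : Set X} (hK : IsCompact K) (hV : IsOpen V) (hKV : K ⊆ V) :
    ∃ χ, Tst V χ ∧ (∀ x ∈ K, χ x = 1) ∧ (∀ x, 0 ≤ χ x) ∧ ∀ x, χ x ≤ 1 := by
  obtain ⟨f, h1, h2, h3, h4⟩ := exists_continuousMap_one_of_isCompact_subset_isOpen hK hV hKV
  exact ⟨f, ⟨f.continuous, h2, h3⟩, h1, fun x => (h4 x).1, fun x => (h4 x).2⟩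

/-- exhaustion of an open set -/
theorem exists_exh {V : Set X} (hV : IsOpen V) : ∃ K : ℕ → Set X, Monotone K ∧
    (∀ j, IsCompact (K j)) ∧ ⋃ j, K j = V := by
  have := hV.locallyCompactSpace
  refine ⟨fun j => (↑) '' compactCovering V j, fun i j h => image_mono (compactCovering_subset V h),
    fun j => (isCompact_compactCovering V j).image continuous_subtype_val, ?_⟩
  rw [← image_iUnion, iUnion_compactCovering, Subtype.coe_image_univ]

theorem le_of_cpt {V : Set X} (hV : IsOpen V) {c : ℝ≥0∞}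
    (h : ∀ K, IsCompact K → K ⊆ V → μ K ≤ c) : μ V ≤ c := by
  obtain ⟨K, h1, h2, h3⟩ := exists_exh hV
  rw [← h3, h1.measure_iUnion]
  exact iSup_le fun j => h _ (h2 j) (h3 ▸ subset_iUnion K j)

namespace Rad

theorem regular (h : Rad O μ) (hO : IsOpen O) : (μ.comap ((↑) : O → X)).Regular := by
  have := hO.locallyCompactSpace
  have : IsFiniteMeasureOnCompacts (μ.comap ((↑) : O → X)) := ⟨fun K hK => by
    rw [(MeasurableEmbedding.subtype_coe hO.measurableSet).comap_apply]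
    exact h.fin _ (hK.image continuous_subtype_val) (Subtype.coe_image_subset _ _)⟩
  infer_instance

/-- outer regularity -/
theorem exists_open (h : Rad O μ) (hO : IsOpen O) {A : Set X} (hA : A ⊆ O) {r : ℝ≥0∞}
    (hr : μ A < r) : ∃ V, IsOpen V ∧ A ⊆ V ∧ V ⊆ O ∧ μ V < r := by
  have := h.regular hO
  have e := (MeasurableEmbedding.subtype_coe hO.measurableSet).comap_apply μ
  obtain ⟨V, h1, h2, h3⟩ := ((↑) ⁻¹' A : Set O).exists_isOpen_lt_of_lt
    (μ := μ.comap ((↑) : O → X)) r (by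
      rwa [e, Subtype.image_preimage_coe, inter_eq_self_of_subset_right hA])
  refine ⟨(↑) '' V, hO.isOpenMap_subtype_val _ h2, fun x hx => ⟨⟨x, hA hx⟩, h1 hx, rfl⟩,
    Subtype.coe_image_subset _ _, by rwa [← e]⟩

theorem le_of_open (hO : IsOpen O) (h : μ Oᶜ = 0) (h' : Rad O ν)
    (H : ∀ V, IsOpen V → V ⊆ O → μ V ≤ ν V) : μ ≤ ν := by
  refine Measure.le_iff'.2 fun A => le_of_forall_gt_imp_ge_of_dense fun r hr => ?_
  obtain ⟨V, h1, h2, h3, h4⟩ := h'.exists_open hO (A := A ∩ O) inter_subset_right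
    ((measure_mono inter_subset_left).trans_lt hr)
  calc μ A ≤ μ (V ∪ Oᶜ) := measure_mono fun x hx => by
        by_cases hxO : x ∈ O
        exacts [Or.inl (h2 ⟨hx, hxO⟩), Or.inr hxO]
    _ ≤ μ V + μ Oᶜ := measure_union_le _ _
    _ ≤ r := by rw [h, add_zero]; exact (H V h1 h3).trans h4.le

theorem le_of_cpt_open (hO : IsOpen O) (h : μ Oᶜ = 0) (h' : Rad O ν)
    (H : ∀ K V, IsCompact K → IsOpen V → K ⊆ V → V ⊆ O → μ K ≤ ν V) : μ ≤ ν :=
  le_of_open hO h h' fun V hV hVO => le_of_cpt hV fun K hK hKV => H K V hK hV hKV hVO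

theorem le_of_tst (hO : IsOpen O) (h : Rad O μ) (h' : Rad O ν)
    (H : ∀ φ, Tst O φ → (∀ x, 0 ≤ φ x) → ∫ x, φ x ∂μ ≤ ∫ x, φ x ∂ν) : μ ≤ ν := by
  refine le_of_cpt_open hO h.off h' fun K V hK hV hKV hVO => ?_
  obtain ⟨χ, t, h1, h2, h3⟩ := exists_tst hK hV hKV
  exact (h.le_int (t.mono hVO) h2 hK.measurableSet fun x hx => (h1 x hx).ge).trans
    ((ENNReal.ofReal_le_ofReal (H χ (t.mono hVO) h2)).trans
      (h'.int_le (t.mono hVO) h2 hV.measurableSet h3 fun x hx => t.zero_off hx))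

theorem ext (hO : IsOpen O) (h : Rad O μ) (h' : Rad O ν)
    (H : ∀ φ, Tst O φ → ∫ x, φ x ∂μ = ∫ x, φ x ∂ν) : μ = ν :=
  le_antisymm (le_of_tst hO h h' fun φ t _ => (H φ t).le) (le_of_tst hO h' h fun φ t _ => (H φ t).ge)

/-- measures which are locally smaller are smaller -/
theorem le_of_loc (h : μ Oᶜ = 0)
    (H : ∀ x ∈ O, ∃ V, IsOpen V ∧ x ∈ V ∧ μ.restrict V ≤ ν) : μ ≤ ν := by
  choose! V h1 h2 h3 using H
  obtain ⟨T, hTO, hT, hc⟩ := TopologicalSpace.countable_cover_nhdsWithin (s := O) (f := V)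
    fun x hx => mem_nhdsWithin_of_mem_nhds ((h1 x hx).mem_nhds (h2 x hx))
  rcases T.eq_empty_or_nonempty with rfl | hne
  · have : O = ∅ := by simpa using hc
    rw [this, compl_empty, Measure.measure_univ_eq_zero] at h
    rw [h]
    exact Measure.zero_le _
  obtain ⟨f, rfl⟩ := hT.exists_eq_range hne
  have hm : ∀ j, MeasurableSet (disjointed (fun j => V (f j)) j) :=
    MeasurableSet.disjointed fun j => (h1 _ (hTO (mem_range_self j))).measurableSet
  refine Measure.le_iff.2 fun A hA => ?_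
  calc μ A ≤ μ ((⋃ j, A ∩ disjointed (fun j => V (f j)) j) ∪ Oᶜ) := measure_mono fun x hx => by
        by_cases hxO : x ∈ O
        · left
          rw [← inter_iUnion, iUnion_disjointed]
          have h4 := hc hxO
          rw [biUnion_range] at h4
          exact ⟨hx, h4⟩
        · exact Or.inr hxO
    _ ≤ μ (⋃ j, A ∩ disjointed (fun j => V (f j)) j) + μ Oᶜ := measure_union_le _ _
    _ ≤ ∑' j, μ (A ∩ disjointed (fun j => V (f j)) j) := by
        rw [h, add_zero]; exact measure_iUnion_le _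
    _ ≤ ∑' j, ν (A ∩ disjointed (fun j => V (f j)) j) := ENNReal.tsum_le_tsum fun j => by
        have h4 := h3 _ (hTO (mem_range_self j)) (A ∩ disjointed (fun j => V (f j)) j)
        rwa [Measure.restrict_apply (hA.inter (hm j)), inter_assoc,
          inter_eq_self_of_subset_left (disjointed_subset _ j)] at h4
    _ = ν (⋃ j, A ∩ disjointed (fun j => V (f j)) j) := (measure_iUnion
        (fun i j hij => (disjoint_disjointed _ hij).mono inter_subset_right inter_subset_right)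
          fun j => hA.inter (hm j)).symm
    _ ≤ ν A := measure_mono (iUnion_subset fun j => inter_subset_left)

end Rad

/-- **Riesz** on an open set -/
theorem exists_rad (hO : IsOpen O) {Λ : (X → ℝ) → ℝ}
    (h1 : ∀ φ ψ, Tst O φ → Tst O ψ → Λ (fun x => φ x + ψ x) = Λ φ + Λ ψ)
    (h2 : ∀ (c : ℝ) φ, Tst O φ → Λ (fun x => c * φ x) = c * Λ φ)
    (h3 : ∀ φ, Tst O φ → (∀ x, 0 ≤ φ x) → 0 ≤ Λ φ) :
    ∃ μ, Rad O μ ∧ ∀ φ, Tst O φ → ∫ x, φ x ∂μ = Λ φ := by
  have := hO.locallyCompactSpace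
  have hm := MeasurableEmbedding.subtype_coe hO.measurableSet
  let E : C_c(O, ℝ) → X → ℝ := fun f => Subtype.val.extend f 0
  have hE : ∀ f, Tst O (E f) := fun f =>
    ⟨f.hasCompactSupport.continuous_extend_zero hO f.continuous,
      f.hasCompactSupport.extend_zero continuous_subtype_val,
      (f.hasCompactSupport.tsupport_extend_zero_subset continuous_subtype_val).trans
        (Subtype.coe_image_subset _ _)⟩
  have e1 : ∀ f (x : O), E f x = f x := fun f x => Subtype.val_injective.extend_apply _ _ x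
  have e2 : ∀ {f : C_c(O, ℝ)} {g : X → ℝ}, (∀ x : O, g x = f x) → (∀ x, x ∉ O → g x = 0) →
      E f = g := fun hg h0 => funext fun x => by
    by_cases hx : x ∈ O
    · exact (e1 _ ⟨x, hx⟩).trans (hg ⟨x, hx⟩).symm
    · rw [(hE _).zero_off hx, h0 x hx]
  let L : C_c(O, ℝ) →ₗ[ℝ] ℝ :=
    { toFun := fun f => Λ (E f)
      map_add' := fun f g => by
        rw [← h1 _ _ (hE f) (hE g), e2 (g := fun x => E f x + E g x)
          (fun x => by rw [e1, e1]; rfl) fun x hx => by
          rw [(hE f).zero_off hx, (hE g).zero_off hx, add_zero]]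
      map_smul' := fun c f => by
        rw [RingHom.id_apply, smul_eq_mul, ← h2 _ _ (hE f), e2 (g := fun x => c * E f x)
          (fun x => by rw [e1]; rfl)
          fun x hx => by rw [(hE f).zero_off hx, mul_zero]] }
  let P : C_c(O, ℝ) →ₚ[ℝ] ℝ := PositiveLinearMap.mk₀ L fun f hf => h3 _ (hE f) fun x => by
    by_cases hx : x ∈ O
    · exact (hf ⟨x, hx⟩).trans_eq (e1 f ⟨x, hx⟩).symm
    · rw [(hE f).zero_off hx]
  refine ⟨(RealRMK.rieszMeasure P).map (↑), ⟨?_, fun K hK hKO => ?_⟩, fun φ hφ => ?_⟩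
  · rw [hm.map_apply, preimage_compl, Subtype.coe_preimage_self, compl_univ, measure_empty]
  · rw [hm.map_apply]
    exact (Topology.IsInducing.subtypeVal.isCompact_preimage' hK
      (by rwa [Subtype.range_coe])).measure_lt_top
  · have hc : HasCompactSupport fun x : O => φ x := HasCompactSupport.intro
      (Topology.IsInducing.subtypeVal.isCompact_preimage' hφ.cpt
        (by rw [Subtype.range_coe]; exact hφ.sub))
      fun x hx => image_eq_zero_of_notMem_tsupport hx
    let f : C_c(O, ℝ) := ⟨⟨fun x => φ x, hφ.cont.comp continuous_subtype_val⟩, hc⟩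
    rw [hm.integral_map, ← e2 (f := f) (fun _ => rfl) fun x hx => hφ.zero_off hx]
    refine Eq.trans ?_ (RealRMK.integral_rieszMeasure P f)
    exact integral_congr_ae (Eventually.of_forall fun x => e1 f x)

section lim

variable {ι : Type*} {l : Filter ι} [l.NeBot] {μs : ι → Measure X}

/-- portmanteau, open sets -/
theorem Rad.open_le_of_lim (h : Rad O μ) (hs : ∀ᶠ i in l, Rad O (μs i))
    (H : ∀ φ, Tst O φ → Tendsto (fun i => ∫ x, φ x ∂μs i) l (𝓝 (∫ x, φ x ∂μ))) {V : Set X}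
    (hV : IsOpen V) (hVO : V ⊆ O) {c : ℝ≥0∞} (hc : ∀ᶠ i in l, μs i V ≤ c) : μ V ≤ c := by
  refine le_of_cpt hV fun K hK hKV => ?_
  obtain ⟨χ, t, h1, h2, h3⟩ := exists_tst hK hV hKV
  refine (h.le_int (t.mono hVO) h2 hK.measurableSet fun x hx => (h1 x hx).ge).trans
    (le_of_tendsto (ENNReal.tendsto_ofReal (H χ (t.mono hVO))) ?_)
  filter_upwards [hs, hc] with i hi hi'
  exact (hi.int_le (t.mono hVO) h2 hV.measurableSet h3 fun x hx => t.zero_off hx).trans hi'

/-- portmanteau, compact sets -/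
theorem Rad.le_cpt_of_lim (hO : IsOpen O) (h : Rad O μ) (hs : ∀ᶠ i in l, Rad O (μs i))
    (H : ∀ φ, Tst O φ → Tendsto (fun i => ∫ x, φ x ∂μs i) l (𝓝 (∫ x, φ x ∂μ))) {K : Set X}
    (hK : IsCompact K) (hKO : K ⊆ O) {c : ℝ≥0∞} (hc : ∀ᶠ i in l, c ≤ μs i K) : c ≤ μ K := by
  refine le_of_forall_gt_imp_ge_of_dense fun r hr => ?_
  obtain ⟨V, hV, hKV, hVO, h4⟩ := h.exists_open hO hKO hr
  obtain ⟨χ, t, h1, h2, h3⟩ := exists_tst hK hV hKV
  refine le_trans (ge_of_tendsto (ENNReal.tendsto_ofReal (H χ (t.mono hVO))) ?_)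
    ((h.int_le (t.mono hVO) h2 hV.measurableSet h3 fun x hx => t.zero_off hx).trans h4.le)
  filter_upwards [hs, hc] with i hi hi'
  exact hi'.trans (hi.le_int (t.mono hVO) h2 hK.measurableSet fun x hx => (h1 x hx).ge)

theorem Rad.le_of_lim (hO : IsOpen O) (h : Rad O μ) (hs : ∀ᶠ i in l, Rad O (μs i))
    (H : ∀ φ, Tst O φ → Tendsto (fun i => ∫ x, φ x ∂μs i) l (𝓝 (∫ x, φ x ∂μ))) (hν : ν Oᶜ = 0)
    (hc : ∀ K, IsCompact K → K ⊆ O → ∀ᶠ i in l, ν K ≤ μs i K) : ν ≤ μ :=
  Rad.le_of_cpt_open hO hν h fun K _ hK _ hKV hVO =>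
    (h.le_cpt_of_lim hO hs H hK (hKV.trans hVO) (hc K hK (hKV.trans hVO))).trans (measure_mono hKV)

theorem Rad.lim_le (hO : IsOpen O) (h : Rad O μ) (hs : ∀ᶠ i in l, Rad O (μs i))
    (H : ∀ φ, Tst O φ → Tendsto (fun i => ∫ x, φ x ∂μs i) l (𝓝 (∫ x, φ x ∂μ))) (hν : Rad O ν)
    (hc : ∀ᶠ i in l, μs i ≤ ν) : μ ≤ ν :=
  Rad.le_of_open hO h.off hν fun V hV hVO =>
    h.open_le_of_lim hs H hV hVO (hc.mono fun _ hi => hi V)

end lim

/-- measures with a density continuous on `O` -/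
theorem Rad.dens (hO : IsOpen O) (h : ∀ K, IsCompact K → K ⊆ O → μ K < ∞) {g : X → ℝ}
    (hg : ContinuousOn g O) :
    Rad O ((μ.restrict O).withDensity fun x => ENNReal.ofReal (g x)) := by
  refine ⟨withDensity_absolutelyContinuous _ _ (by
    rw [Measure.restrict_apply hO.measurableSet.compl, compl_inter_self, measure_empty]),
    fun K hK hKO => ?_⟩
  have h1 : Rad O (μ.restrict O) := ⟨by
    rw [Measure.restrict_apply hO.measurableSet.compl, compl_inter_self, measure_empty],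
    fun K hK hKO => (Measure.restrict_le_self K).trans_lt (h K hK hKO)⟩
  rw [withDensity_apply _ hK.measurableSet]
  exact (h1.int_on hK hKO (hg.mono hKO)).lintegral_lt_top

theorem int_dens (hO : IsOpen O) {g : X → ℝ} (hg : ContinuousOn g O) (h0 : ∀ x ∈ O, 0 ≤ g x)
    (hφ : ∀ x, x ∉ O → φ x = 0) :
    ∫ x, φ x ∂((μ.restrict O).withDensity fun x => ENNReal.ofReal (g x)) = ∫ x, φ x * g x ∂μ := by
  rw [integral_withDensity_eq_integral_toReal_smul₀
    ((hg.aemeasurable hO.measurableSet).ennreal_ofReal) (by simp),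
    ← setIntegral_eq_integral_of_forall_compl_eq_zero (s := O) (f := fun x => φ x * g x)
      fun x hx => by rw [hφ x hx, zero_mul]]
  refine setIntegral_congr_fun hO.measurableSet fun x hx => ?_
  simp only [ENNReal.toReal_ofReal (h0 x hx), smul_eq_mul, mul_comm]

end

end Crest.Agent.X261.BT
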