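import Crest.Agent.X261.BT.Part
import Crest.Agent.X261.BT.MxR
import Crest.Agent.X261.BT.MxD

-- ▼ part X261/BT/GlobM
section

/-!
# X261 / BT (helper21): gluing measures given in the charts of an atlas

* `rd A i χ` : a function read in a chart (zero off the target);
* `pm A i m` : push-forward of a measure of the chart `i`;  `gm A m` : the glued measure;
* `Cmp U m`  : compatible Radon measures over `U`; `Cmp.chart`, `Cmp.rad`, `Cmp.int_chart`,
  `Cmp.int_part`.
-/

set_option autoImplicit false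
set_option linter.unusedSectionVars false

open Set Filter Topology MeasureTheory Metric
open scoped ContDiff

namespace Crest.Agent.X261.BT

open Crest.Agent.R275.Geo
open Crest.Agent.R273.Vm_333 (Dj exists_Dj Dj_disjoint iUnion_Dj meas_Dj)
open Crest.Agent.R273.YauDefs_635 (inC)

noncomputable section

variable {n : ℕ} {M : Type} [TopologicalSpace M] {A : Atl n M} {U : Set M}

theorem lcs (A : Atl n M) : LocallyCompactSpace M := R275.QN2b734.locallyCompact A

theorem sct (A : Atl n M) [Countable A.ι] : SecondCountableTopology M := by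
  have : ∀ i, SecondCountableTopology (A.e i).source := fun i =>
    (A.e i).toHomeomorphSourceTarget.secondCountableTopology
  exact TopologicalSpace.secondCountableTopology_of_countable_cover
    (fun i => (A.e i).open_source) (eq_univ_of_forall fun x => mem_iUnion.2 (A.cover x))

/-- a function read in the chart `i`, extended by zero -/
def rd (A : Atl n M) (i : A.ι) (χ : M → ℝ) : Cn n → ℝ := (A.e i).target.indicator (inC A i χ)

theorem rd_of_mem {i : A.ι} {χ : M → ℝ} {z : Cn n} (hz : z ∈ (A.e i).target) :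
    rd A i χ z = χ ((A.e i).symm z) := indicator_of_mem hz _

theorem rd_of_not {i : A.ι} {χ : M → ℝ} {z : Cn n} (hz : z ∉ (A.e i).target) :
    rd A i χ z = 0 := indicator_of_notMem hz _

theorem rd_ev {i : A.ι} (χ : M → ℝ) {z : Cn n} (hz : z ∈ (A.e i).target) :
    rd A i χ =ᶠ[𝓝 z] inC A i χ :=
  eventually_of_mem ((A.e i).open_target.mem_nhds hz) fun _ hw => rd_of_mem hw

theorem cpt_img {i : A.ι} {K : Set M} (hK : IsCompact K) (h : K ⊆ (A.e i).source) :
    IsCompact (A.e i '' K) := hK.image_of_continuousOn ((A.e i).continuousOn.mono h)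

theorem img_sub {i : A.ι} {K : Set M} (h : K ⊆ U ∩ (A.e i).source) : A.e i '' K ⊆ chU A U i := by
  rintro _ ⟨x, hx, rfl⟩
  exact mem_chU (h hx).2 (h hx).1

theorem rd_zero {i : A.ι} {χ : M → ℝ} {K : Set M} (h0 : ∀ x ∉ K, χ x = 0) {z : Cn n}
    (hz : z ∉ A.e i '' K) : rd A i χ z = 0 := by
  by_cases h1 : z ∈ (A.e i).target
  · rw [rd_of_mem h1]
    exact h0 _ fun h2 => hz ⟨_, h2, (A.e i).right_inv h1⟩
  · exact rd_of_not h1

theorem rd_ev_zero {i : A.ι} {χ : M → ℝ} (h : Tst (U ∩ (A.e i).source) χ) {z : Cn n}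
    (hz : z ∉ A.e i '' tsupport χ) : rd A i χ =ᶠ[𝓝 z] fun _ => 0 := by
  have hK := cpt_img h.cpt fun x hx => (h.sub hx).2
  filter_upwards [hK.isClosed.isOpen_compl.mem_nhds hz] with w hw
  exact rd_zero (fun x hx => image_eq_zero_of_notMem_tsupport hx) hw

theorem Tst.rd {i : A.ι} {χ : M → ℝ} (h : Tst (U ∩ (A.e i).source) χ) :
    Tst (chU A U i) (rd A i χ) := by
  refine Tst.of_cpt (continuous_iff_continuousAt.2 fun z => ?_)
    (cpt_img h.cpt fun x hx => (h.sub hx).2) (img_sub h.sub)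
    fun z hz => rd_zero (fun x hx => image_eq_zero_of_notMem_tsupport hx) hz
  by_cases hz : z ∈ (A.e i).target
  · exact (h.cont.continuousAt.comp ((A.e i).continuousAt_symm hz)).congr (rd_ev χ hz).symm
  · exact continuousAt_const.congr (rd_ev_zero h fun h1 => hz (img_sub h.sub h1).1).symm


theorem rd_smooth {i : A.ι} {χ : M → ℝ} (h : Tst (U ∩ (A.e i).source) χ) (hs : A.Sm χ) :
    ContDiff ℝ ∞ (rd A i χ) := by
  refine contDiff_iff_contDiffAt.2 fun z => ?_
  by_cases hz : z ∈ (A.e i).target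
  · exact (sm_at hs i hz).congr_of_eventuallyEq (rd_ev χ hz)
  · exact contDiffAt_const.congr_of_eventuallyEq
      (rd_ev_zero h fun h1 => hz (img_sub h.sub h1).1)

variable [MeasurableSpace M] [BorelSpace M]

/-- push-forward of a measure of the chart `i` -/
def pm (A : Atl n M) (i : A.ι) (m : Measure (Cn n)) : Measure M := m.map (A.e i).symm

theorem aem_symm {i : A.ι} {m : Measure (Cn n)} (h : m ((A.e i).target)ᶜ = 0) :
    AEMeasurable (A.e i).symm m := by
  rw [← Measure.restrict_eq_self_of_ae_mem (μ := m) (s := (A.e i).target) h]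
  exact (A.e i).continuousOn_symm.aemeasurable (A.e i).open_target.measurableSet

theorem off_target {i : A.ι} {m : Measure (Cn n)} (h : Rad (chU A U i) m) :
    m ((A.e i).target)ᶜ = 0 :=
  measure_mono_null (compl_subset_compl.2 inter_subset_left) h.off

theorem pm_apply {i : A.ι} {m : Measure (Cn n)} (h : m ((A.e i).target)ᶜ = 0) {E : Set M}
    (hE : MeasurableSet E) : pm A i m E = m (chU A E i) := by
  rw [pm, Measure.map_apply_of_aemeasurable (aem_symm h) hE, chU, inter_comm,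
    measure_inter_conull h]

theorem meas_chU (i : A.ι) {E : Set M} (hE : MeasurableSet E) : MeasurableSet (chU A E i) := by
  have h1 : Measurable ((A.e i).target.domRestrict (A.e i).symm) :=
    (continuousOn_iff_continuous_domRestrict.1 (A.e i).continuousOn_symm).measurable
  have h2 := (A.e i).open_target.measurableSet.subtype_image (h1 hE)
  convert h2 using 1
  ext y
  constructor
  · rintro ⟨hy, hyE⟩
    exact ⟨⟨y, hy⟩, hyE, rfl⟩
  · rintro ⟨⟨y, hy⟩, hyE, rfl⟩
    exact ⟨hy, hyE⟩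

theorem chU_inter (i : A.ι) (E F : Set M) : chU A (E ∩ F) i = chU A E i ∩ chU A F i := by
  ext z; simp only [chU, mem_inter_iff, mem_preimage]; tauto

theorem chU_source (i : A.ι) (E : Set M) : chU A (E ∩ (A.e i).source) i = chU A E i := by
  ext z
  exact ⟨fun h => ⟨h.1, h.2.1⟩, fun h => ⟨h.1, h.2, (A.e i).map_target h.1⟩⟩

theorem int_pm {i : A.ι} {m : Measure (Cn n)} (h : m ((A.e i).target)ᶜ = 0) {f : M → ℝ}
    (hf : AEStronglyMeasurable f (pm A i m)) : ∫ x, f x ∂pm A i m = ∫ z, rd A i f z ∂m := by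
  rw [pm, integral_map (aem_symm h) hf]
  refine integral_congr_ae ?_
  filter_upwards [show ∀ᵐ z ∂m, z ∈ (A.e i).target from h] with z hz
  rw [rd_of_mem hz]

variable [Countable A.ι]

/-- the glued measure -/
def gm (A : Atl n M) [Countable A.ι] (m : A.ι → Measure (Cn n)) : Measure M :=
  Measure.sum fun i => (pm A i (m i)).restrict (Dj A i)

theorem meas_sum_Dj (ν : Measure M) {E : Set M} (hE : MeasurableSet E) :
    ν E = ∑' j, ν (E ∩ Dj A j) := by
  rw [← measure_iUnion]
  · rw [← inter_iUnion, iUnion_Dj, inter_univ]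
  · exact fun i j hij => (Dj_disjoint hij).mono inter_subset_right inter_subset_right
  · exact fun j => hE.inter (meas_Dj j)

theorem le_of_charts {μ ν : Measure M}
    (h : ∀ i, ∀ E, MeasurableSet E → E ⊆ (A.e i).source → μ E ≤ ν E) : μ ≤ ν := by
  refine Measure.le_iff.2 fun E hE => ?_
  rw [meas_sum_Dj (A := A) μ hE, meas_sum_Dj (A := A) ν hE]
  exact ENNReal.tsum_le_tsum fun j => h j _ (hE.inter (meas_Dj j)) fun x hx => hx.2.1

theorem ext_of_charts {μ ν : Measure M}
    (h : ∀ i, ∀ E, MeasurableSet E → E ⊆ (A.e i).source → μ E = ν E) : μ = ν :=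
  le_antisymm (le_of_charts (A := A) fun i E h1 h2 => (h i E h1 h2).le)
    (le_of_charts (A := A) fun i E h1 h2 => (h i E h1 h2).ge)

/-- compatible Radon measures in the charts, over `U` -/
structure Cmp (U : Set M) (m : A.ι → Measure (Cn n)) : Prop where
  op : IsOpen U
  rad : ∀ i, Rad (chU A U i) (m i)
  tr : ∀ i j E, MeasurableSet E → E ⊆ U ∩ ((A.e i).source ∩ (A.e j).source) →
    m i (chU A E i) = m j (chU A E j)

namespace Cmp

variable {m m' : A.ι → Measure (Cn n)}

theorem inter (h : Cmp U m) (i : A.ι) (E : Set M) : m i (chU A (E ∩ U) i) = m i (chU A E i) := by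
  rw [chU_inter, measure_inter_conull (h.rad i).off]

theorem apply (h : Cmp U m) (i : A.ι) {E : Set M} (hE : MeasurableSet E)
    (hs : E ⊆ (A.e i).source) : gm A m E = m i (chU A E i) := by
  have h1 : ∀ j, (pm A j (m j)).restrict (Dj A j) E = pm A i (m i) (E ∩ Dj A j) := by
    intro j
    have h2 := hE.inter (meas_Dj (A := A) j)
    rw [Measure.restrict_apply hE, pm_apply (off_target (h.rad j)) h2,
      pm_apply (off_target (h.rad i)) h2, ← h.inter j, ← h.inter i]
    exact h.tr j i _ (h2.inter h.op.measurableSet) fun x hx => ⟨hx.2, hx.1.2.1, hs hx.1.1⟩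
  rw [gm, Measure.sum_apply _ hE]
  simp only [h1]
  rw [← meas_sum_Dj _ hE, pm_apply (off_target (h.rad i)) hE]

theorem chart (h : Cmp U m) (i : A.ι) : (gm A m).restrict (A.e i).source = pm A i (m i) := by
  ext E hE
  rw [Measure.restrict_apply hE, h.apply i (hE.inter (A.e i).open_source.measurableSet)
    inter_subset_right, chU_source, pm_apply (off_target (h.rad i)) hE]

theorem off (h : Cmp U m) : gm A m Uᶜ = 0 := by
  rw [meas_sum_Dj (A := A) _ h.op.measurableSet.compl, ENNReal.tsum_eq_zero]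
  intro j
  rw [h.apply j (h.op.measurableSet.compl.inter (meas_Dj j)) fun x hx => hx.2.1]
  refine measure_mono_null (fun z hz => ?_) (h.rad j).off
  exact fun h1 => hz.2.1 h1.2

theorem radM [T2Space M] (h : Cmp U m) : Rad U (gm A m) := by
  refine ⟨h.off, fun K hK hKU => ?_⟩
  have := lcs A
  refine hK.induction_on (p := fun K => gm A m K < ⊤) (by simp)
    (fun s t hst ht => (measure_mono hst).trans_lt ht)
    (fun s t hs ht => (measure_union_le _ _).trans_lt (ENNReal.add_lt_top.2 ⟨hs, ht⟩)) ?_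
  intro x hx
  obtain ⟨i, hi⟩ := A.cover x
  obtain ⟨L, h1, h2, h3⟩ := local_compact_nhds
    ((h.op.inter (A.e i).open_source).mem_nhds ⟨hKU hx, hi⟩)
  refine ⟨L, mem_nhdsWithin_of_mem_nhds h1, ?_⟩
  rw [h.apply i h3.measurableSet fun y hy => (h2 hy).2]
  refine (measure_mono ?_).trans_lt ((h.rad i).fin _ (cpt_img h3 fun y hy => (h2 hy).2)
    (img_sub h2))
  exact fun z hz => ⟨_, hz.2, (A.e i).right_inv hz.1⟩

/-- integral of a function supported in one chart -/
theorem int_chart (h : Cmp U m) (i : A.ι) {f : M → ℝ} (hf : AEStronglyMeasurable f (gm A m))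
    (h0 : ∀ x ∉ (A.e i).source, f x = 0) : ∫ x, f x ∂gm A m = ∫ z, rd A i f z ∂m i := by
  rw [← setIntegral_eq_integral_of_forall_compl_eq_zero h0, h.chart i,
    int_pm (off_target (h.rad i))]
  rw [← h.chart i]
  exact hf.restrict

theorem int_tst (h : Cmp U m) {i : A.ι} {W : Set M} {f : M → ℝ}
    (hf : Tst (W ∩ (A.e i).source) f) : ∫ x, f x ∂gm A m = ∫ z, rd A i f z ∂m i :=
  h.int_chart i hf.cont.aestronglyMeasurable fun _ hx => hf.zero_off fun h1 => hx h1.2

/-- integral through a finite partition of unity -/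
theorem int_part [T2Space M] (h : Cmp U m) {t : Finset A.ι} {ψ : A.ι → M → ℝ}
    (hψ : ∀ i, Tst (U ∩ (A.e i).source) (ψ i)) {f : M → ℝ} (hf : ContinuousOn f U)
    (h1 : ∀ x, f x ≠ 0 → ∑ i ∈ t, ψ i x = 1) :
    ∫ x, f x ∂gm A m = ∑ i ∈ t, ∫ z, rd A i (fun x => ψ i x * f x) z ∂m i := by
  have ht : ∀ i, Tst (U ∩ (A.e i).source) fun x => ψ i x * f x := fun i =>
    (hψ i).mul_on (h.op.inter (A.e i).open_source) (hf.mono inter_subset_left)
  have h2 : ∀ x, f x = ∑ i ∈ t, ψ i x * f x := fun x => by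
    rw [← Finset.sum_mul]
    by_cases hx : f x = 0
    · rw [hx, mul_zero]
    · rw [h1 x hx, one_mul]
  rw [integral_congr_ae (Eventually.of_forall h2), integral_finsetSum _ fun i _ =>
    h.radM.int ((ht i).mono inter_subset_left)]
  exact Finset.sum_congr rfl fun i _ => h.int_tst (ht i)

theorem le (h : Cmp U m) {U' : Set M} (h' : Cmp U' m') {c : ENNReal} {S : Set M}
    (hS : MeasurableSet S)
    (H : ∀ i, (m i).restrict (chU A S i) ≤ c • m' i) : (gm A m).restrict S ≤ c • gm A m' := by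
  refine le_of_charts (A := A) fun i E hE hs => ?_
  rw [Measure.restrict_apply hE, h.apply i (hE.inter hS) fun x hx => hs hx.1,
    Measure.smul_apply, h'.apply i hE hs, chU_inter, ← Measure.restrict_apply (meas_chU i hE)]
  exact H i _

theorem mono (h : Cmp U m) {U' : Set M} (h' : Cmp U' m') (H : ∀ i, m i ≤ m' i) :
    gm A m ≤ gm A m' :=
  le_of_charts (A := A) fun i E hE hs => by
    rw [h.apply i hE hs, h'.apply i hE hs]; exact H i _

theorem restrict_eq (h : Cmp U m) {U' : Set M} (h' : Cmp U' m') {S : Set M}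
    (hS : MeasurableSet S) (H : ∀ i, (m i).restrict (chU A S i) = m' i) :
    (gm A m).restrict S = gm A m' :=
  ext_of_charts (A := A) fun i E hE hs => by
    rw [Measure.restrict_apply hE, h.apply i (hE.inter hS) fun x hx => hs hx.1,
      h'.apply i hE hs, chU_inter, ← Measure.restrict_apply (meas_chU i hE), H i]

theorem add_eq {m'' : A.ι → Measure (Cn n)} (h : Cmp U m) (h' : Cmp U m') (h'' : Cmp U m'')
    (H : ∀ i, m i = m' i + m'' i) : gm A m = gm A m' + gm A m'' :=
  ext_of_charts (A := A) fun i E hE hs => by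
    rw [Measure.add_apply, h.apply i hE hs, h'.apply i hE hs, h''.apply i hE hs, H i,
      Measure.add_apply]

theorem smul_eq (h : Cmp U m) (h' : Cmp U m') {c : ENNReal} (H : ∀ i, m i = c • m' i) :
    gm A m = c • gm A m' :=
  ext_of_charts (A := A) fun i E hE hs => by
    rw [Measure.smul_apply, h.apply i hE hs, h'.apply i hE hs, H i, Measure.smul_apply]

end Cmp

end

end Crest.Agent.X261.BT
end

-- ▼ part X261/BT/GlobA

/-!
# X261 / BT (helper21): the global mixed Monge-Ampere measure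

`MX U H φ`, `MAo H U φ`, `MA H φ`; chart formula, locality, multilinearity, continuity, mass bounds.
-/

set_option autoImplicit false
set_option linter.unusedSectionVars false

open Set Filter Topology MeasureTheory Metric Function
open scoped ContDiff

namespace Crest.Agent.X261.BT

open Crest.Agent.R275.Geo
open Crest.Agent.R273.Hess_333 Crest.Agent.R273.HessB_333
open Crest.Agent.R273.Vm_333 (Dj)
open Crest.Agent.R273.YauDefs_635 (inC)
open Crest.Agent.R273.YauCh_635 (Tm)
open Crest.Agent.R281.Kp_487 (KP pot wt_contDiffAt wt_smooth)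

noncomputable section

variable {n : ℕ}

section loc

variable {O O' : Set (Cn n)} {u v w : Fin n → Cn n → ℝ}

theorem ma_tr (hO : IsOpen O) (hO' : IsOpen O') {F G : Cn n → Cn n} (hF : DifferentiableOn ℂ F O)
    (hG : ContinuousOn G O') (hm : MapsTo F O O') (hm' : MapsTo G O' O)
    (hGF : ∀ z ∈ O, G (F z) = z) (hFG : ∀ z ∈ O', F (G z) = z) (hu : ∀ k, CP O' (u k))
    {E : Set (Cn n)} (hE : MeasurableSet E) :
    ma O (fun k z => u k (F z)) (O ∩ F ⁻¹' E) = ma O' u E := by
  have h1 : AEMeasurable F (ma O fun k z => u k (F z)) := by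
    rw [← (ma_rad O _).restrict_self]
    exact hF.continuousOn.aemeasurable hO.measurableSet
  rw [← ma_comp hO hO' hF hG hm hm' hGF hFG hu, Measure.map_apply_of_aemeasurable h1 hE,
    inter_comm, measure_inter_conull (ma_compl _ _)]

theorem ma_ph_sub (hO : IsOpen O) (hu : ∀ k, CP O (u k))
    (h : ∀ k, Ph O fun z => v k z - u k z) : ma O v = ma O u := by
  rw [← ma_ph_all hO hu h]
  congr 1
  funext k z
  ring

theorem cp_of_ph (hO : IsOpen O) {a b : Cn n → ℝ} (ha : CP O a) (h : Ph O fun z => b z - a z) :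
    CP O b := (ha.add (h.cp hO) hO).congr hO fun z _ => by simp

end loc

variable {M : Type} [TopologicalSpace M] {A : Atl n M} [MeasurableSpace M] [BorelSpace M]
  [Countable A.ι]

/-- the mixed Monge-Ampere measure `(ω₁ + i∂∂̄ φ₁) ∧ … ∧ (ωₙ + i∂∂̄ φₙ)` on `U` -/
def MX (U : Set M) (H : Fin n → KP A) (φ : Fin n → M → ℝ) : Measure M :=
  Measure.sum fun i =>
    ((ma (chU A U i) fun k => pot (H k) (φ k) i).map (A.e i).symm).restrict (Dj A i)

/-- `(ω + i∂∂̄ φ)ⁿ` on `U` -/
def MAo (H : KP A) (U : Set M) (φ : M → ℝ) : Measure M := MX U (fun _ => H) fun _ => φ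

/-- `(ω + i∂∂̄ φ)ⁿ` -/
def MA (H : KP A) (φ : M → ℝ) : Measure M := MAo H univ φ

variable {U U' W : Set M} {H H' : Fin n → KP A} {φ ψ : Fin n → M → ℝ} {χ : M → ℝ}

theorem MX_eq (U : Set M) (H : Fin n → KP A) (φ : Fin n → M → ℝ) :
    MX U H φ = gm A fun i => ma (chU A U i) fun k => pot (H k) (φ k) i := rfl

theorem ph_pot (G : KP A) (f : M → ℝ) (W : Set M) {i j : A.ι} (hj : W ⊆ (A.e j).source) :
    Ph (chU A W i) fun z => pot G f i z - pot G f j (Tm A i j z) := by
  intro z hz
  have hov : z ∈ A.ov i j := ⟨hz.1, hj hz.2⟩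
  have e : (fun z => pot G f i z - pot G f j (Tm A i j z)) =ᶠ[𝓝 z]
      fun w => G.u i ((A.e i).symm w) - G.u j ((A.e i).symm w) := by
    filter_upwards [(isOpen_ov' i j).mem_nhds hov] with w hw
    simp only [pot_apply, Tm, KP.wt, (A.e j).left_inv hw.2]
    ring
  exact ⟨(kp_diff_smooth G hov).congr_of_eventuallyEq e, by rw [hess_congr e, G.tr i j z hov]⟩

theorem ma_apply_sub {O O' : Set (Cn n)} {u : Fin n → Cn n → ℝ} (hO : IsOpen O)
    (hu : ∀ k, CP O (u k)) (hO' : IsOpen O') (h1 : O' ⊆ O) {E : Set (Cn n)} (hE : E ⊆ O') :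
    ma O u E = ma O' u E := by
  rw [← ma_restrict hO hu hO' h1 fun _ _ _ => rfl, Measure.restrict_eq_self _ hE]

theorem MX_cmp (hU : IsOpen U) (h : ∀ k, QP (H k) U (φ k)) :
    Cmp U fun i => ma (chU A U i) fun k => pot (H k) (φ k) i := by
  refine ⟨hU, fun i => ma_rad _ _, fun i j E hE hs => ?_⟩
  set W := U ∩ ((A.e i).source ∩ (A.e j).source) with hW
  have hWo : IsOpen W := hU.inter ((A.e i).open_source.inter (A.e j).open_source)
  have hi : W ⊆ (A.e i).source := fun x hx => hx.2.1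
  have hj : W ⊆ (A.e j).source := fun x hx => hx.2.2
  have c : ∀ l k, CP (chU A W l) (pot (H k) (φ k) l) := fun l k =>
    ((h k).mono hWo inter_subset_left).cp l
  have hd : ∀ {i j : A.ι}, W ⊆ (A.e j).source → DifferentiableOn ℂ (Tm A i j) (chU A W i) :=
    fun {i j} hj => (A.holo i j).mono fun z hz => ⟨hz.1, hj hz.2⟩
  have hm : ∀ {i j : A.ι}, W ⊆ (A.e j).source → MapsTo (Tm A i j) (chU A W i) (chU A W j) :=
    fun hj z hz => mem_chU (hj hz.2) hz.2
  have hinv : ∀ {i j : A.ι}, W ⊆ (A.e j).source → ∀ z ∈ chU A W i, Tm A j i (Tm A i j z) = z :=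
    fun {i j} hj z hz => by simp only [Tm, (A.e j).left_inv (hj hz.2), (A.e i).right_inv hz.1]
  rw [ma_apply_sub (isOpen_chU hU i) (fun k => (h k).cp i) (isOpen_chU hWo i)
      (chU_mono inter_subset_left i) (chU_mono hs i),
    ma_apply_sub (isOpen_chU hU j) (fun k => (h k).cp j) (isOpen_chU hWo j)
      (chU_mono inter_subset_left j) (chU_mono hs j),
    ma_ph_sub (isOpen_chU hWo i) (fun k => (c j k).comp (isOpen_chU hWo j) (isOpen_chU hWo i)
      (hd hj) (hm hj)) fun k => ph_pot (H k) (φ k) W hj]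
  have h1 := ma_tr (isOpen_chU hWo i) (isOpen_chU hWo j) (hd hj) (hd hi).continuousOn (hm hj) (hm hi)
    (hinv hj) (hinv hi) (c j) (meas_chU j hE)
  rw [← h1]
  congr 1
  ext z
  refine ⟨fun hz => ⟨chU_mono hs i hz, mem_chU (hj (hs hz.2)) hz.2⟩, fun hz => ⟨hz.1.1, ?_⟩⟩
  have h2 := hz.2.2
  rwa [mem_preimage, Tm, (A.e j).left_inv (hj hz.1.2)] at h2

section basic

variable (hU : IsOpen U) (h : ∀ k, QP (H k) U (φ k))
include hU h

theorem MX_apply (i : A.ι) {E : Set M} (hE : MeasurableSet E) (hs : E ⊆ (A.e i).source) :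
    MX U H φ E = ma (chU A U i) (fun k => pot (H k) (φ k) i) (chU A E i) :=
  (MX_cmp hU h).apply i hE hs


theorem MX_int_tst {i : A.ι} (hχ : Tst (W ∩ (A.e i).source) χ) :
    ∫ x, χ x ∂MX U H φ = ∫ z, rd A i χ z ∂ma (chU A U i) fun k => pot (H k) (φ k) i :=
  (MX_cmp hU h).int_tst hχ

theorem MX_compl : MX U H φ Uᶜ = 0 := (MX_cmp hU h).off

theorem MX_rad [T2Space M] : Rad U (MX U H φ) := (MX_cmp hU h).radM

theorem MX_lt_top [T2Space M] {K : Set M} (hK : IsCompact K) (hKU : K ⊆ U) : MX U H φ K < ⊤ :=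
  (MX_rad hU h).fin K hK hKU

theorem MX_int [T2Space M] (hχ : Tst U χ) : Integrable χ (MX U H φ) := (MX_rad hU h).int hχ

/-- locality, up to pluriharmonic functions -/
theorem MX_ph (hU' : IsOpen U') (hs : U' ⊆ U) (hc : ∀ k, ContinuousOn (ψ k) U')
    (he : ∀ k i, Ph (chU A U' i) fun z => pot (H' k) (ψ k) i z - pot (H k) (φ k) i z) :
    (MX U H φ).restrict U' = MX U' H' ψ := by
  have c : ∀ i k, CP (chU A U' i) (pot (H k) (φ k) i) := fun i k => ((h k).mono hU' hs).cp i
  have h' : ∀ k, QP (H' k) U' (ψ k) := fun k =>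
    ⟨hU', hc k, fun i => (cp_of_ph (isOpen_chU hU' i) (c i k) (he k i)).2⟩
  refine (MX_cmp hU h).restrict_eq (MX_cmp hU' h') hU'.measurableSet fun i => ?_
  rw [ma_restrict (isOpen_chU hU i) (fun k => (h k).cp i) (isOpen_chU hU' i) (chU_mono hs i)
    fun _ _ _ => rfl, ma_ph_sub (isOpen_chU hU' i) (c i) fun k => he k i]

/-- locality, up to constants -/
theorem MX_restrict_const (hU' : IsOpen U') (hs : U' ⊆ U) (c : Fin n → ℝ)
    (he : ∀ k, ∀ x ∈ U', ψ k x = φ k x + c k) : (MX U H φ).restrict U' = MX U' H ψ :=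
  MX_ph hU h hU' hs (fun k => ((((h k).cont.mono hs).add continuousOn_const).congr (he k)))
    fun k i z hz => by
      have e : (fun z => pot (H k) (ψ k) i z - pot (H k) (φ k) i z) =ᶠ[𝓝 z] fun _ => c k := by
        filter_upwards [(isOpen_chU hU' i).mem_nhds hz] with w hw
        rw [pot_apply, pot_apply, he k _ hw.2]; ring
      exact ⟨contDiffAt_const.congr_of_eventuallyEq e, by
        rw [hess_congr e]; exact (Ph.const univ (c k) z trivial).2⟩

theorem MX_restrict (hU' : IsOpen U') (hs : U' ⊆ U) (he : ∀ k, EqOn (ψ k) (φ k) U') :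
    (MX U H φ).restrict U' = MX U' H ψ :=
  MX_restrict_const hU h hU' hs (fun _ => 0) fun k x hx => by rw [he k hx, add_zero]

theorem MX_self : (MX U H φ).restrict U = MX U H φ :=
  MX_restrict hU h hU subset_rfl fun _ _ _ => rfl

theorem MX_congr (he : ∀ k, EqOn (ψ k) (φ k) U) : MX U H ψ = MX U H φ := by
  rw [← MX_restrict hU h hU subset_rfl he, MX_self hU h]

theorem MX_const (c : Fin n → ℝ) : MX U H (fun k x => φ k x + c k) = MX U H φ := by
  rw [← MX_restrict_const hU h hU subset_rfl c fun _ _ _ => rfl, MX_self hU h]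

theorem MX_of_pot (hc : ∀ k, ContinuousOn (ψ k) U)
    (he : ∀ k i, ∀ z ∈ chU A U i, pot (H' k) (ψ k) i z = pot (H k) (φ k) i z) :
    MX U H' ψ = MX U H φ := by
  have h' : ∀ k, QP (H' k) U (ψ k) := fun k => (h k).of_pot (hc k) (he k)
  refine le_antisymm ((MX_cmp hU h').mono (MX_cmp hU h) fun i => le_of_eq ?_)
    ((MX_cmp hU h).mono (MX_cmp hU h') fun i => ge_of_eq ?_) <;>
  exact ma_congr (isOpen_chU hU i) (fun k => (h k).cp i) fun k z hz => he k i z hz

/-- two functions which agree on an open set up to constants -/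
theorem MX_restrict_eq (hU' : IsOpen U') (h' : ∀ k, QP (H k) U' (ψ k)) (hW : IsOpen W)
    (hs : W ⊆ U) (hs' : W ⊆ U') (c : Fin n → ℝ) (he : ∀ k, ∀ x ∈ W, ψ k x = φ k x + c k) :
    (MX U' H ψ).restrict W = (MX U H φ).restrict W := by
  rw [MX_restrict_const hU h hW hs c he, MX_restrict hU' h' hW hs' fun _ _ _ => rfl]

theorem MX_perm (σ : Equiv.Perm (Fin n)) :
    MX U (fun k => H (σ k)) (fun k => φ (σ k)) = MX U H φ := by
  have h' : ∀ k, QP (H (σ k)) U (φ (σ k)) := fun k => h _
  refine le_antisymm ((MX_cmp hU h').mono (MX_cmp hU h) fun i => le_of_eq ?_)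
    ((MX_cmp hU h).mono (MX_cmp hU h') fun i => ge_of_eq ?_) <;>
  exact ma_perm (isOpen_chU hU i) (fun k => (h k).cp i) σ

omit hU in
theorem qp_upd (k : Fin n) {G : KP A} {a : M → ℝ} (ha : QP G U a) (l : Fin n) :
    QP (update H k G l) U (update φ k a l) := by
  rcases eq_or_ne l k with rfl | hl
  · rwa [update_self, update_self]
  · rw [update_of_ne hl, update_of_ne hl]; exact h l

omit hU h in
theorem pot_upd (H : Fin n → KP A) (φ : Fin n → M → ℝ) (k : Fin n) (G : KP A) (a : M → ℝ)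
    (i : A.ι) : (fun l => pot (update H k G l) (update φ k a l) i) =
      update (fun l => pot (H l) (φ l) i) k (pot G a i) := by
  funext l
  rcases eq_or_ne l k with rfl | hl
  · simp only [update_self]
  · simp only [update_of_ne hl]

theorem MX_add (k : Fin n) {G G' : KP A} {a b : M → ℝ} (ha : QP G U a) (hb : QP G' U b) :
    MX U (update H k (ad G G')) (update φ k fun x => a x + b x) =
      MX U (update H k G) (update φ k a) + MX U (update H k G') (update φ k b) := by
  refine (MX_cmp hU (qp_upd h k (ha.add hb))).add_eq (MX_cmp hU (qp_upd h k ha))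
    (MX_cmp hU (qp_upd h k hb)) fun i => ?_
  simp only [pot_upd]
  rw [← ma_add (isOpen_chU hU i) (fun k => (h k).cp i) k (ha.cp i) (hb.cp i)]
  congr 2
  funext z
  simp only [pot_apply, wt_ad]
  ring



theorem MX_le_add (h' : ∀ k, QP (H' k) U (ψ k)) :
    MX U H φ ≤ MX U (fun k => ad (H k) (H' k)) fun k x => φ k x + ψ k x := by
  refine (MX_cmp hU h).mono (MX_cmp hU fun k => (h k).add (h' k)) fun i => ?_
  refine (ma_le_all (isOpen_chU hU i) (fun k => (h k).cp i) fun k => (h' k).cp i).trans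
    (le_of_eq ?_)
  congr 1
  funext k z
  simp only [pot_apply, wt_ad]
  ring


/-- contact inequality: `(H k, φ k)` touches `(H' k, ψ k)` from below -/
theorem MX_contact_pot (h' : ∀ k, QP (H' k) U (ψ k)) {S : Set M} (hS : MeasurableSet S)
    (hle : ∀ k i, ∀ z ∈ chU A U i, pot (H k) (φ k) i z ≤ pot (H' k) (ψ k) i z)
    (hge : ∀ k i, ∀ z ∈ chU A (S ∩ U) i, pot (H' k) (ψ k) i z ≤ pot (H k) (φ k) i z) :
    (MX U H φ).restrict S ≤ MX U H' ψ := by
  have h1 := (MX_cmp hU h).le (MX_cmp hU h') (c := 1) hS fun i => by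
    rw [one_smul]
    refine le_trans ?_ (ma_contact (isOpen_chU hU i) (fun k => (h k).cp i) (fun k => (h' k).cp i)
      fun k => hle k i)
    refine Measure.restrict_mono_ae ?_
    filter_upwards [(ma_rad _ _).ae_mem] with z hz hzS k
    exact hge k i z ⟨hz.1, hzS.2, hz.2⟩
  rwa [one_smul] at h1

/-- contact inequality -/
theorem MX_contact (h' : ∀ k, QP (H k) U (ψ k)) (hle : ∀ k, ∀ x ∈ U, φ k x ≤ ψ k x)
    {S : Set M} (hS : MeasurableSet S) (hge : ∀ k, ∀ x ∈ S, x ∈ U → ψ k x ≤ φ k x) :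
    (MX U H φ).restrict S ≤ MX U H ψ :=
  MX_contact_pot hU h h' hS
    (fun k _ _ hz => add_le_add le_rfl (hle k _ hz.2))
    fun k _ _ hz => add_le_add le_rfl (hge k _ hz.2.1 hz.2.2)

/-- a larger form gives a larger measure -/
theorem MX_le_ad (h' : ∀ k, (H' k).Semipos) :
    MX U H φ ≤ MX U (fun k => ad (H k) (H' k)) φ := by
  simpa using MX_le_add hU h fun k => QP.const (h' k) hU 0

end basic

/-! ### continuity and mass bounds -/

section lim

variable [T2Space M] {ι : Type*} {l : Filter ι}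

theorem tlu_pot (hU : IsOpen U) (G G₀ : KP A) {f : ι → M → ℝ} {g : M → ℝ} {κ : ι → ℝ}
    (hκ : Tendsto κ l (𝓝 0)) (hf : TendstoLocallyUniformlyOn f g l U) (i : A.ι) :
    TendstoLocallyUniformlyOn (fun j => pot (ad G (sc (κ j) G₀)) (f j) i) (pot G g i) l
      (chU A U i) := by
  refine (tendstoLocallyUniformlyOn_iff_forall_isCompact (isOpen_chU hU i)).2 fun K hKs hK => ?_
  have hK' : IsCompact ((A.e i).symm '' K) :=
    hK.image_of_continuousOn ((A.e i).continuousOn_symm.mono fun z hz => (hKs hz).1)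
  have := lcs A
  have h1 := (tendstoLocallyUniformlyOn_iff_forall_isCompact hU).1 hf _
    (by rintro _ ⟨z, hz, rfl⟩; exact (hKs hz).2) hK'
  obtain ⟨C, hC⟩ := hK.exists_bound_of_continuousOn ((cont_wt G₀ U i).mono hKs)
  refine Metric.tendstoUniformlyOn_iff.2 fun ε hε => ?_
  have h2 : Tendsto (fun j => |κ j| * |C|) l (𝓝 0) := by simpa using hκ.abs.mul_const |C|
  filter_upwards [Metric.tendstoUniformlyOn_iff.1 h1 _ (half_pos hε),
    h2.eventually (gt_mem_nhds (half_pos hε))] with j a1 a2 z hz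
  have a3 := abs_lt.1 (a1 _ ⟨z, hz, rfl⟩)
  have a4 : |κ j * G₀.wt i z| ≤ |κ j| * |C| := by
    rw [abs_mul]
    exact mul_le_mul_of_nonneg_left ((hC z hz).trans (le_abs_self C)) (abs_nonneg _)
  have a5 := abs_le.1 a4
  rw [Real.dist_eq, pot_apply, pot_apply, wt_ad, wt_sc]
  exact abs_lt.2 ⟨by linarith, by linarith⟩

theorem tlu_pot' (hU : IsOpen U) (G : KP A) {f : ι → M → ℝ} {g : M → ℝ}
    (hf : TendstoLocallyUniformlyOn f g l U) (i : A.ι) :
    TendstoLocallyUniformlyOn (fun j => pot G (f j) i) (pot G g i) l (chU A U i) := by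
  have := tlu_pot hU G G (κ := fun _ => 0) tendsto_const_nhds hf i
  refine this.congr fun j z _ => ?_
  simp only [pot_apply, wt_ad, wt_sc, zero_mul, add_zero]

/-- weak continuity, with varying forms and test functions -/
theorem MX_tendsto_gen (hU : IsOpen U) (h : ∀ k, QP (H k) U (φ k)) {Hs : ι → Fin n → KP A}
    {φs : ι → Fin n → M → ℝ} (hv : ∀ᶠ j in l, ∀ k, QP (Hs j k) U (φs j k))
    (hl : ∀ k i, TendstoLocallyUniformlyOn (fun j => pot (Hs j k) (φs j k) i)
      (pot (H k) (φ k) i) l (chU A U i))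
    {K : Set M} (hK : IsCompact K) (hKU : K ⊆ U) {χs : ι → M → ℝ}
    (hχs : ∀ᶠ j in l, ContinuousOn (χs j) U ∧ ∀ x, x ∉ K → χs j x = 0) (hχ : ContinuousOn χ U)
    (h0 : ∀ x, x ∉ K → χ x = 0) (hlim : TendstoUniformlyOn χs χ l K) :
    Tendsto (fun j => ∫ x, χs j x ∂MX U (Hs j) (φs j)) l (𝓝 (∫ x, χ x ∂MX U H φ)) := by
  obtain ⟨t, p, -, p2, p3, -, p5⟩ := exists_partM A hK hU hKU
  have hp : ∀ {f : M → ℝ}, (∀ x, x ∉ K → f x = 0) → ∀ x, f x ≠ 0 → ∑ i ∈ t, p i x = 1 :=
    fun hf x hx => p5.self_of_nhdsSet x (not_not.1 fun h1 => hx (hf x h1))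
  have ht : ∀ {f : M → ℝ}, ContinuousOn f U → ∀ i, Tst (U ∩ (A.e i).source) fun x => p i x * f x :=
    fun hf i => (p2 i).mul_on (hU.inter (A.e i).open_source) (hf.mono inter_subset_left)
  rw [MX_eq, (MX_cmp hU h).int_part p2 hχ (hp h0)]
  refine Tendsto.congr' (f₁ := fun j => ∑ i ∈ t, ∫ z, rd A i (fun x => p i x * χs j x) z
    ∂ma (chU A U i) fun k => pot (Hs j k) (φs j k) i) ?_ (tendsto_finsetSum t fun i _ => ?_)
  · filter_upwards [hv, hχs] with j a1 a2
    rw [MX_eq, (MX_cmp hU a1).int_part p2 a2.1 (hp a2.2)]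
  · have hL : IsCompact (tsupport (p i) ∩ K) := (p2 i).cpt.inter_right hK.isClosed
    have hLs : tsupport (p i) ∩ K ⊆ U ∩ (A.e i).source := fun x hx => (p2 i).sub hx.1
    have hz : ∀ {f : M → ℝ}, (∀ x, x ∉ K → f x = 0) → ∀ x ∉ tsupport (p i) ∩ K,
        p i x * f x = 0 := fun hf x hx => by
      by_cases h1 : x ∈ K
      · rw [image_eq_zero_of_notMem_tsupport fun h2 => hx ⟨h2, h1⟩, zero_mul]
      · rw [hf x h1, mul_zero]
    refine ma_tendsto' (isOpen_chU hU i) (fun k => (h k).cp i) (ht hχ i).rd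
      (hv.mono fun j hj k => (hj k).cp i) (fun k => hl k i)
      (cpt_img hL fun x hx => (hLs hx).2) (img_sub hLs)
      (hχs.mono fun j hj => ⟨(ht hj.1 i).rd.cont, fun z hz' => rd_zero (hz hj.2) hz'⟩)
      (fun z hz' => rd_zero (hz h0) hz') (Metric.tendstoUniformlyOn_iff.2 fun ε hε => ?_)
    filter_upwards [Metric.tendstoUniformlyOn_iff.1 hlim ε hε] with j hj
    rintro _ ⟨x, hx, rfl⟩
    have h1 := (A.e i).map_source (hLs hx).2
    rw [rd_of_mem h1, rd_of_mem h1, (A.e i).left_inv (hLs hx).2, Real.dist_eq, ← mul_sub, abs_mul,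
      abs_of_nonneg (p3 i x).1]
    exact (mul_le_of_le_one_left (abs_nonneg _) (p3 i x).2).trans_lt (hj x hx.2)

theorem MX_tendsto' (hU : IsOpen U) (h : ∀ k, QP (H k) U (φ k)) {φs : ι → Fin n → M → ℝ}
    (hv : ∀ᶠ j in l, ∀ k, QP (H k) U (φs j k))
    (hl : ∀ k, TendstoLocallyUniformlyOn (fun j => φs j k) (φ k) l U)
    {K : Set M} (hK : IsCompact K) (hKU : K ⊆ U) {χs : ι → M → ℝ}
    (hχs : ∀ᶠ j in l, ContinuousOn (χs j) U ∧ ∀ x, x ∉ K → χs j x = 0) (hχ : ContinuousOn χ U)
    (h0 : ∀ x, x ∉ K → χ x = 0) (hlim : TendstoUniformlyOn χs χ l K) :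
    Tendsto (fun j => ∫ x, χs j x ∂MX U H (φs j)) l (𝓝 (∫ x, χ x ∂MX U H φ)) :=
  MX_tendsto_gen hU h (Hs := fun _ => H) hv (fun k i => tlu_pot' hU (H k) (hl k) i) hK hKU hχs hχ
    h0 hlim



end lim

/-! ### invariance -/

section iso

variable {G : KP A} {γ : M ≃ₜ M}

theorem isOpen_ovI (γ : M ≃ₜ M) (i j : A.ι) : IsOpen (ovI A γ i j) :=
  isOpen_chU ((A.e j).open_source.preimage γ.continuous) i

theorem Iso.ph (hγ : Iso G γ) (f : M → ℝ) (i j : A.ι) : Ph (ovI A γ i j) fun z =>
    pot G (fun x => f (γ x)) i z - pot G f j (A.e j (γ ((A.e i).symm z))) := by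
  intro z hz
  have ho := isOpen_ovI γ i j
  have e : (fun z => pot G (fun x => f (γ x)) i z - pot G f j (A.e j (γ ((A.e i).symm z))))
      =ᶠ[𝓝 z] fun w => G.wt i w - G.u j (γ ((A.e i).symm w)) := by
    filter_upwards [ho.mem_nhds hz] with w hw
    simp only [pot_apply, KP.wt, (A.e j).left_inv hw.2]
    ring
  refine ⟨ContDiffAt.congr_of_eventuallyEq ?_ e, by rw [hess_congr e, hγ.tr i j z hz]⟩
  have h1 : ContDiffAt ℝ ∞ (fun w => G.wt j (A.e j (γ ((A.e i).symm w)))) z :=
    ContDiffAt.comp (g := G.wt j) (f := fun w => A.e j (γ ((A.e i).symm w))) z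
      (wt_contDiffAt G j ((A.e j).map_source hz.2))
      ((smooth_of_hol ho (hγ.holo i j) hz).restrict_scalars ℝ)
  refine (wt_contDiffAt G i hz.1).sub (h1.congr_of_eventuallyEq ?_)
  filter_upwards [ho.mem_nhds hz] with w hw
  simp only [KP.wt, (A.e j).left_inv hw.2]

theorem Iso.qp (hγ : Iso G γ) {f : M → ℝ} (hf : QP G U f) :
    QP G (γ ⁻¹' U) fun x => f (γ x) := by
  have ho := hf.op.preimage γ.continuous
  refine QP.of_chart ho (hf.cont.comp γ.continuous.continuousOn fun _ hx => hx) fun x hx => ?_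
  obtain ⟨i, hi⟩ := A.cover x
  obtain ⟨j, hj⟩ := A.cover (γ x)
  have hO : IsOpen (chU A (γ ⁻¹' (U ∩ (A.e j).source)) i) :=
    isOpen_chU ((hf.op.inter (A.e j).open_source).preimage γ.continuous) i
  have hs : chU A (γ ⁻¹' (U ∩ (A.e j).source)) i ⊆ ovI A γ i j := fun z hz => ⟨hz.1, hz.2.2⟩
  exact ⟨i, hi, _, hO.mem_nhds (mem_chU hi ⟨hx, hj⟩), (cp_of_ph hO
    ((hf.cp j).comp (isOpen_chU hf.op j) hO ((hγ.holo i j).mono hs)
      fun z hz => mem_chU hz.2.2 hz.2.1) ((hγ.ph f i j).mono hs)).2⟩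

theorem MX_iso_apply (hγ : ∀ k, Iso (H k) γ) (hhol : ∀ i j, DifferentiableOn ℂ
      (fun z => A.e j (γ ((A.e i).symm z))) (ovI A γ i j))
    (hU : IsOpen U) (h : ∀ k, QP (H k) U (φ k)) {E : Set M} (hE : MeasurableSet E) :
    MX (γ ⁻¹' U) H (fun k x => φ k (γ x)) (γ ⁻¹' E) = MX U H φ E := by
  have ho := hU.preimage γ.continuous
  have h' : ∀ k, QP (H k) (γ ⁻¹' U) fun x => φ k (γ x) := fun k => (hγ k).qp (h k)
  have key : ∀ i j E, MeasurableSet E → E ⊆ (A.e j).source → γ ⁻¹' E ⊆ (A.e i).source →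
      MX (γ ⁻¹' U) H (fun k x => φ k (γ x)) (γ ⁻¹' E) = MX U H φ E := by
    intro i j E hE hj hi
    set W := U ∩ ((A.e j).source ∩ γ.symm ⁻¹' (A.e i).source) with hW
    have hWo : IsOpen W :=
      hU.inter ((A.e j).open_source.inter ((A.e i).open_source.preimage γ.symm.continuous))
    have hO := isOpen_chU (A := A) (hWo.preimage γ.continuous) i
    have hO' := isOpen_chU (A := A) hWo j
    have hs : chU A (γ ⁻¹' W) i ⊆ ovI A γ i j := fun z hz => ⟨hz.1, hz.2.2.1⟩
    have c : ∀ k, CP (chU A W j) (pot (H k) (φ k) j) := fun k =>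
      ((h k).mono hWo inter_subset_left).cp j
    have hm : MapsTo (fun z => A.e j (γ ((A.e i).symm z))) (chU A (γ ⁻¹' W) i) (chU A W j) :=
      fun z hz => mem_chU hz.2.2.1 hz.2
    have h1 := ma_tr hO hO' (G := fun w => A.e i (γ.symm ((A.e j).symm w))) ((hhol i j).mono hs)
      ((A.e i).continuousOn.comp (γ.symm.continuous.comp_continuousOn
        ((A.e j).continuousOn_symm.mono inter_subset_left)) fun z hz => hz.2.2.2) hm
      (fun z hz => mem_chU hz.2.2.2 (by simpa using hz.2))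
      (fun z hz => by
        simp only [(A.e j).left_inv hz.2.2.1, Homeomorph.symm_apply_apply, (A.e i).right_inv hz.1])
      (fun z hz => by
        simp only [(A.e i).left_inv hz.2.2.2, Homeomorph.apply_symm_apply, (A.e j).right_inv hz.1])
      c (meas_chU j (hE.inter hU.measurableSet))
    have hEW : E ∩ U ⊆ W := fun x hx => ⟨hx.2, hj hx.1, hi (by simpa using hx.1)⟩
    rw [MX_apply ho h' i (γ.continuous.measurable hE) hi, MX_apply hU h j hE hj,
      ← (MX_cmp ho h').inter i, ← (MX_cmp hU h).inter j, ← preimage_inter,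
      ma_apply_sub (isOpen_chU ho i) (fun k => (h' k).cp i) hO
        (chU_mono (preimage_mono inter_subset_left) i) (chU_mono (preimage_mono hEW) i),
      ma_apply_sub (isOpen_chU hU j) (fun k => (h k).cp j) hO'
        (chU_mono inter_subset_left j) (chU_mono hEW j), ← h1,
      ma_ph_sub hO (fun k => (c k).comp hO' hO ((hhol i j).mono hs) hm)
        fun k => ((hγ k).ph (φ k) i j).mono hs]
    congr 1
    ext z
    refine ⟨fun hz => ⟨chU_mono (preimage_mono hEW) i hz, mem_chU (hj hz.2.1) hz.2⟩,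
      fun hz => ⟨hz.1.1, ?_⟩⟩
    have h2 := hz.2.2
    rwa [mem_preimage, (A.e j).left_inv hz.1.2.2.1] at h2
  have e1 : ∀ ν : Measure M, ν = (ν.map γ.symm).map γ := fun ν => by
    rw [Measure.map_map γ.continuous.measurable γ.symm.continuous.measurable]
    simp
  have hm := γ.continuous.measurable
  rw [← Measure.map_apply hm hE]
  congr 1
  refine ext_of_charts (A := A) fun j E hE hj => ?_
  rw [Measure.map_apply hm hE, e1 (MX U H φ), Measure.map_apply hm hE]
  have h3 : (MX (γ ⁻¹' U) H fun k x => φ k (γ x)).restrict (γ ⁻¹' (A.e j).source) =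
      ((MX U H φ).map γ.symm).restrict (γ ⁻¹' (A.e j).source) := by
    refine ext_of_charts (A := A) fun i F hF hi => ?_
    have hF' := hF.inter (hm (A.e j).open_source.measurableSet)
    rw [Measure.restrict_apply hF, Measure.restrict_apply hF,
      Measure.map_apply γ.symm.continuous.measurable hF',
      ← key i j _ (γ.symm.continuous.measurable hF') (fun x hx => by simpa using hx.2)
        fun x hx => hi (by simpa using hx.1)]
    congr 1
    ext x
    simp
  have h4 := congrArg (fun ν : Measure M => ν (γ ⁻¹' E)) h3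
  simpa only [Measure.restrict_eq_self _ (preimage_mono hj)] using h4


theorem MX_iso (hγ : Iso G γ) (h : ∀ k, QP G univ (φ k)) :
    (MX univ (fun _ => G) fun k x => φ k (γ x)).map γ = MX univ (fun _ => G) φ := by
  ext E hE
  rw [Measure.map_apply γ.continuous.measurable hE]
  exact MX_iso_apply (H := fun _ => G) (fun _ => hγ) hγ.holo isOpen_univ h hE

end iso

end

end Crest.Agent.X261.BT
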