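import Crest.Agent.X261.BT.MxD
import Crest.Agent.X261.BT.GlobA

-- ▼ part X261/BT/MxE
section

/-!
# X261, BT (helper9), part E: integration by parts for continuous slots

`ma_lim'`, `ma_stokes`, `ma_stokes2` (symmetric form), `ma_mass`, `ma_neg`, `ma_neg_loc`.
-/

set_option autoImplicit false
set_option linter.unusedSectionVars false

open Set Filter Topology Complex MeasureTheory Function Metric
open scoped ContDiff Matrix ComplexConjugate ComplexOrder

namespace Crest.Agent.X261.BT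

open Crest.Agent.R275.Geo Crest.Agent.R275.EDR890
open Crest.Agent.R273.Hess_333 Crest.Agent.R273.HessB_333

noncomputable section

variable {n : ℕ} {O O' U K : Set (Cn n)} {u : Fin n → Cn n → ℝ} {φ : Cn n → ℝ}

/-- smooth approximation with varying test functions -/
theorem ma_lim' (hO : IsOpen O) (hu : ∀ k, CP O (u k)) (hU : IsOpen U) (hUO : U ⊆ O) {ι : Type*}
    {l : Filter ι} {v : ι → Fin n → Cn n → ℝ} (hv : ∀ k, Ap l U (u k) fun j => v j k)
    (hK : IsCompact K) (hKU : K ⊆ U) {ψ : ι → Cn n → ℝ}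
    (hψ : ∀ᶠ i in l, Continuous (ψ i) ∧ ∀ z, z ∉ K → ψ i z = 0) (hφ : Continuous φ)
    (h0 : ∀ z, z ∉ K → φ z = 0) (hl : TendstoUniformlyOn ψ φ l K) :
    Tendsto (fun i => ∫ z, ψ i z * mh (v i) z) l (𝓝 (∫ z, φ z ∂ma O u)) := by
  have t : Tst U φ := Tst.of_cpt hφ hK hKU h0
  have hu' : ∀ k, CP U (u k) := fun k => (hu k).mono hUO
  have s := eventually_all.2 fun k => (hv k).sp
  rw [← ma_int_congr hO hu hU hu' hU hUO Subset.rfl t fun _ _ _ => rfl]
  refine (ma_tendsto' hU hu' t (s.mono fun j hj k => (hj k).cp hU)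
    (fun k => (hv k).lim.tendstoLocallyUniformlyOn) hK hKU hψ h0 hl).congr' ?_
  filter_upwards [s, hψ] with j hj hj'
  exact ma_smooth hU (fun k => (hj k).cp hU) (fun k z _ => (hj k).1.contDiffAt)
    (Tst.of_cpt hj'.1 hK hKU hj'.2)

theorem Rad.int_diff {X : Type*} [TopologicalSpace X] [T2Space X] [MeasurableSpace X] [BorelSpace X]
    {O K : Set X} {μ ν : Measure X} (h : Rad O μ) (h' : Rad O ν)
    (hK : MeasurableSet K) (H : μ.restrict (O \ K) = ν.restrict (O \ K)) {ψ g : X → ℝ}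
    (hψ : Tst O ψ) (hg : ∀ x ∈ K, ψ x = g x) :
    ∫ x, ψ x ∂μ - ∫ x, ψ x ∂ν = ∫ x in K, g x ∂μ - ∫ x in K, g x ∂ν := by
  have e : ∀ {μ : Measure X}, Rad O μ → μ.restrict Kᶜ = μ.restrict (O \ K) := fun h => by
    conv_lhs => rw [← h.restrict_self]
    rw [Measure.restrict_restrict hK.compl, inter_comm, sdiff_eq]
  rw [← integral_add_compl hK (h.int hψ), ← integral_add_compl hK (h'.int hψ), e h, e h', H,
    setIntegral_congr_fun hK hg, setIntegral_congr_fun hK hg]
  ring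

theorem tuo_mul {ι X : Type*} [TopologicalSpace X] {l : Filter ι} {K : Set X} (hK : IsCompact K)
    {f g : ι → X → ℝ} {a b : X → ℝ} (hf : TendstoUniformlyOn f a l K)
    (hg : TendstoUniformlyOn g b l K) (ha : ContinuousOn a K) (hb : ContinuousOn b K) :
    TendstoUniformlyOn (fun i x => f i x * g i x) (fun x => a x * b x) l K := by
  obtain ⟨A, hA⟩ := hK.exists_bound_of_continuousOn ha
  obtain ⟨B, hB⟩ := hK.exists_bound_of_continuousOn hb
  refine Metric.tendstoUniformlyOn_iff.2 fun ε hε => ?_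
  have hδ : 0 < min 1 (ε / (|A| + |B| + 2)) := by positivity
  filter_upwards [Metric.tendstoUniformlyOn_iff.1 hf _ hδ, Metric.tendstoUniformlyOn_iff.1 hg _ hδ]
    with i h1 h2 x hx
  have h3 := h1 x hx
  have h4 := h2 x hx
  have h5 : |a x| ≤ |A| := (hA x hx).trans (le_abs_self A)
  have h6 : |b x| ≤ |B| := (hB x hx).trans (le_abs_self B)
  rw [Real.dist_eq] at h3 h4 ⊢
  set δ := min 1 (ε / (|A| + |B| + 2))
  have h7 : δ * (|A| + |B| + 2) ≤ ε := (le_div_iff₀ (by positivity)).1 (min_le_right _ _)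
  have h8 : δ ≤ 1 := min_le_left _ _
  rw [show a x * b x - f i x * g i x = a x * (b x - g i x) + (a x - f i x) * b x -
    (a x - f i x) * (b x - g i x) by ring]
  refine (abs_sub _ _).trans_lt (lt_of_le_of_lt (add_le_add_left (abs_add_le _ _) _) ?_)
  simp only [abs_mul]
  have h9 := mul_le_mul h5 h4.le (abs_nonneg _) (abs_nonneg _)
  have h10 := mul_le_mul h3.le h6 (abs_nonneg _) hδ.le
  have h11 := mul_le_mul h3.le (h4.le.trans h8) (abs_nonneg _) hδ.le
  nlinarith

theorem tuo_const {ι X : Type*} {l : Filter ι} {K : Set X} (a : X → ℝ) :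
    TendstoUniformlyOn (fun _ : ι => a) a l K :=
  Metric.tendstoUniformlyOn_iff.2 fun _ hε => Eventually.of_forall fun _ _ _ => by simpa using hε

theorem exists_st (hO : IsOpen O) (hK : IsCompact K) (hKO : K ⊆ O) :
    ∃ (χ : Cn n → ℝ) (V L : Set (Cn n)) (S : ℕ → (Cn n → ℝ) → Cn n → ℝ), Tst V χ ∧ IsOpen V ∧
      V ⊆ O ∧ IsCompact L ∧ K ⊆ L ∧ L ⊆ V ∧ (∀ z ∈ L, χ z = 1) ∧
      (∀ a, CP O a → Ap atTop V a fun j => S j a) ∧
      (∀ a b, CP O a → CP O b → (∀ z ∈ O, z ∉ K → a z = b z) →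
        ∀ᶠ j in atTop, ∀ z, z ∉ L → S j a z - S j b z = 0) ∧ Mo O (closure V) S := by
  obtain ⟨r, hr, h1⟩ := hK.exists_cthickening_subset_open hO hKO
  obtain ⟨χ, -, t, h2, -, -⟩ := exists_cut (hK.cthickening (r := r)) hO h1
  obtain ⟨V, S, a1, a2, a3, -, -, hM, hS⟩ := exists_ap hO t.cpt t.sub
  refine ⟨χ, V, _, S, ⟨t.cont, t.cpt, a2⟩, a1, a3, hK.cthickening (r := r),
    self_subset_cthickening _, fun z hz => a2 (subset_tsupport _ ?_), h2.self_of_nhdsSet, hS,
    fun a b ha hb H => ?_, hM⟩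
  · rw [mem_support, h2.self_of_nhdsSet z hz]
    exact one_ne_zero
  · filter_upwards [tendsto_one_div_add_atTop_nhds_zero_nat.eventually (gt_mem_nhds hr)]
      with j hj z hz
    rw [← hM.sub j a b ha.1 hb.1]
    refine hM.zero j _ z fun y hy hyO => sub_eq_zero.2 (H y hyO fun hyK => hz ?_)
    exact mem_cthickening_of_dist_le z y r K hyK (by
      rw [dist_comm]; exact (mem_ball.1 hy).le.trans hj.le)

theorem tsupp_of {X : Type*} [TopologicalSpace X] [T2Space X] {L : Set X} (hL : IsCompact L)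
    {f : X → ℝ} (h : ∀ z, z ∉ L → f z = 0) : tsupport f ⊆ L :=
  closure_minimal (s := support f) (fun x hx => not_not.1 fun h1 => hx (h x h1)) hL.isClosed

section slot

variable (hO : IsOpen O) (hu : ∀ k, CP O (u k)) (k : Fin n) {a b c d : Cn n → ℝ}
  (ha : CP O a) (hb : CP O b) (hK : IsCompact K) (hKO : K ⊆ O) (H : ∀ z ∈ O, z ∉ K → a z = b z)
include hO hu ha hb hK hKO H

theorem ma_off : (ma O (update u k a)).restrict (O \ K) = (ma O (update u k b)).restrict (O \ K) :=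
  ma_restrict_eq hO (upd hu k hb) hO (upd hu k ha) (hO.sdiff hK.isClosed) sdiff_subset sdiff_subset
    fun l z hz => by
      rcases eq_or_ne l k with rfl | hl
      · rw [update_self, update_self, H z hz.1 hz.2]
      · rw [update_of_ne hl, update_of_ne hl]

/-- **Stokes** -/
theorem ma_stokes (hc : CP O c) : ∫ z, (a z - b z) ∂ma O (update u k c) =
    ∫ z in K, c z ∂ma O (update u k a) - ∫ z in K, c z ∂ma O (update u k b) := by
  obtain ⟨χ, V, L, S, t, a1, a2, hL, a3, a4, a5, hS, h1, hM⟩ := exists_st hO hK hKO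
  have hv := fun k => hS _ (hu k)
  have t1 := (t.mono a2).mul_on hO (ha.1.sub hb.1)
  have t2 := (t.mono a2).mul_on hO hc.1
  have z1 : ∀ z, z ∉ L → χ z * (a z - b z) = 0 := fun z hz => by
    by_cases hzO : z ∈ O
    · rw [H z hzO fun h => hz (a3 h), sub_self, mul_zero]
    · rw [(t.mono a2).zero_off hzO, zero_mul]
  have z2 : ∀ g : Cn n → ℝ, ∀ z, z ∉ tsupport χ → χ z * g z = 0 := fun g z hz => by
    rw [image_eq_zero_of_notMem_tsupport hz, zero_mul]
  rw [← (ma_rad O _).int_diff (ma_rad O _) hK.measurableSet (ma_off hO hu k ha hb hK hKO H) t2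
    fun z hz => by rw [a5 z (a3 hz), one_mul], integral_congr_ae (g := fun z => χ z * (a z - b z))
      ((ma_rad O _).ae_mem.mono fun z hz => by
        by_cases hzK : z ∈ K
        · simp only [a5 z (a3 hzK), one_mul]
        · simp only [H z hz hzK, sub_self, mul_zero])]
  have l1 := ma_lim' hO (upd hu k hc) a1 a2 (Ap.upd hv k (hS c hc)) hL a4
    (ψ := fun j z => S j a z - S j b z) (by
      filter_upwards [(hS a ha).sp, (hS b hb).sp, h1 a b ha hb H] with j sa sb hj
      exact ⟨sa.1.continuous.sub sb.1.continuous, hj⟩) t1.cont z1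
    ((((hS a ha).lim.sub (hS b hb).lim).mono a4).congr_right fun z hz => by
      simp only [a5 z hz, one_mul, Pi.sub_apply])
  have l2 := fun e (he : CP O e) => ma_lim' hO (upd hu k he) a1 a2 (Ap.upd hv k (hS e he)) t.cpt
    t.sub (ψ := fun j z => χ z * S j c z) ((hS c hc).sp.mono fun j sc =>
      ⟨t.cont.mul sc.1.continuous, z2 _⟩) t2.cont (z2 _)
    (tuo_mul t.cpt (tuo_const χ) ((hS c hc).lim.mono t.sub) t.cont.continuousOn
      (hc.1.mono (t.sub.trans a2)))
  refine tendsto_nhds_unique l1 (((l2 a ha).sub (l2 b hb)).congr' ?_)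
  filter_upwards [eventually_all.2 fun k => (hv k).sp, (hS a ha).sp, (hS b hb).sp, (hS c hc).sp,
    h1 a b ha hb H] with j s sa sb sc hj
  have s' := fun k => (s k).1
  have t3 : Tst univ fun z => χ z * S j c z :=
    Tst.of_cpt (t.cont.mul sc.1.continuous) t.cpt (subset_univ _) (z2 _)
  rw [stokes s' k (sa.1.sub sb.1) sc.1 (HasCompactSupport.intro hL hj),
    ← integral_sub (int_mh (sm_update s' k sa.1) t3) (int_mh (sm_update s' k sb.1) t3)]
  refine integral_congr_ae (Eventually.of_forall fun z => ?_)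
  simp only [← mul_sub, ← mh_update_sub _ k sa.1.contDiffAt sb.1.contDiffAt]
  by_cases hz : z ∈ L
  · rw [a5 z hz, one_mul]
  · rw [supp_mh _ k fun h => hz (tsupp_of hL hj h), mul_zero, mul_zero]

/-- symmetric form -/
theorem ma_stokes2 (hc : CP O c) (hd : CP O d) :
    ∫ z, (a z - b z) ∂ma O (update u k c) - ∫ z, (a z - b z) ∂ma O (update u k d) =
      ∫ z in K, (c z - d z) ∂ma O (update u k a) - ∫ z in K, (c z - d z) ∂ma O (update u k b) := by
  have i : ∀ {e : Cn n → ℝ} (_ : CP O e) w, IntegrableOn e K (ma O w) := fun he w =>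
    (ma_rad O w).int_on hK hKO (he.1.mono hKO)
  rw [ma_stokes hO hu k ha hb hK hKO H hc, ma_stokes hO hu k ha hb hK hKO H hd,
    integral_sub (i hc _) (i hd _), integral_sub (i hc _) (i hd _)]
  ring



omit hO hu ha hb hK hKO H in
theorem psd_of_min {g : Cn n → ℝ} (hg : ContDiff ℝ ∞ g) {z : Cn n} (h : ∀ y, g z ≤ g y) :
    (hess g z).PosSemidef :=
  (psd_iff hg.contDiffAt).2 fun w => R281.Rich_710.lvE_nonneg_of_le
    (hg.contDiffAt.of_le (WithTop.coe_le_coe.2 le_top)) ⟨1, one_pos, fun s _ _ => by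
      have h1 : Di univ z (s • w) := fun _ _ => trivial
      have h2 := h1.mono (continuousOn_const (c := g z)) hg.continuous.continuousOn fun _ _ => h _
      rwa [dav_const] at h2⟩

omit hO hu ha hb hK hKO H in
theorem mh_sq {f : Cn n → ℝ} (hf : ContDiff ℝ ∞ f) {z : Cn n}
    (h : ∀ l, (hess (u l) z).PosSemidef) :
    2 * (f z * mh (update u k f) z) ≤ mh (update u k fun y => f y ^ 2) z := by
  have s1 : ContDiff ℝ ∞ fun y => 2 * f z * f y := contDiff_const.mul hf
  rw [← mul_assoc, ← mh_update_mul u k _ hf.contDiffAt]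
  refine mh_mono u k (fun l _ => h l) ?_
  rw [← hess_sub (hf.pow 2).contDiffAt s1.contDiffAt]
  exact psd_of_min ((hf.pow 2).sub s1) fun y => by nlinarith [sq_nonneg (f y - f z)]

/-- localised negativity: here `a - b ≥ 0` is the cut-off -/
theorem ma_neg_loc (hab : ∀ z ∈ O, b z ≤ a z) (hc : CP O c) (hd : CP O d) :
    2 * (∫ z, (a z - b z) * (c z - d z) ∂ma O (update u k c) -
      ∫ z, (a z - b z) * (c z - d z) ∂ma O (update u k d)) ≤
      ∫ z in K, (c z - d z) ^ 2 ∂ma O (update u k a) -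
        ∫ z in K, (c z - d z) ^ 2 ∂ma O (update u k b) := by
  obtain ⟨χ, V, L, S, t, a1, a2, hL, a3, a4, a5, hS, h1, hM⟩ := exists_st hO hK hKO
  have hv := fun k => hS _ (hu k)
  have c1 : ContinuousOn (fun z => c z - d z) O := hc.1.sub hd.1
  have c2 : ContinuousOn (fun z => a z - b z) O := ha.1.sub hb.1
  have t1 := (t.mono a2).mul_on hO (c2.mul c1)
  have t2 := (t.mono a2).mul_on hO (c1.mul c1)
  have z1 : ∀ z, z ∉ L → χ z * ((a z - b z) * (c z - d z)) = 0 := fun z hz => by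
    by_cases hzO : z ∈ O
    · rw [H z hzO fun h => hz (a3 h), sub_self, zero_mul, mul_zero]
    · rw [(t.mono a2).zero_off hzO, zero_mul]
  have z2 : ∀ g : Cn n → ℝ, ∀ z, z ∉ tsupport χ → χ z * g z = 0 := fun g z hz => by
    rw [image_eq_zero_of_notMem_tsupport hz, zero_mul]
  have e : ∀ w, ∫ z, (a z - b z) * (c z - d z) ∂ma O w =
      ∫ z, χ z * ((a z - b z) * (c z - d z)) ∂ma O w := fun w =>
    integral_congr_ae ((ma_rad O _).ae_mem.mono fun z hz => by
      by_cases hzK : z ∈ K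
      · simp only [a5 z (a3 hzK), one_mul]
      · simp only [H z hz hzK, sub_self, zero_mul, mul_zero])
  rw [← (ma_rad O _).int_diff (ma_rad O _) hK.measurableSet (ma_off hO hu k ha hb hK hKO H) t2
    fun z hz => by simp only [a5 z (a3 hz), one_mul, sq, Pi.mul_apply], e, e]
  have u1 := (hS c hc).lim.sub (hS d hd).lim
  have l1 := fun e (he : CP O e) => ma_lim' hO (upd hu k he) a1 a2 (Ap.upd hv k (hS e he)) hL a4
    (ψ := fun j z => (S j a z - S j b z) * (S j c z - S j d z)) (by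
      filter_upwards [(hS a ha).sp, (hS b hb).sp, (hS c hc).sp, (hS d hd).sp, h1 a b ha hb H]
        with j sa sb sc sd hj
      exact ⟨(sa.1.continuous.sub sb.1.continuous).mul (sc.1.continuous.sub sd.1.continuous),
        fun z hz => by rw [hj z hz, zero_mul]⟩) t1.cont z1
    ((tuo_mul hL (((hS a ha).lim.sub (hS b hb).lim).mono a4) (u1.mono a4) (c2.mono (a4.trans a2))
      (c1.mono (a4.trans a2))).congr_right fun z hz => by
        simp only [a5 z hz, one_mul, Pi.sub_apply, Pi.mul_apply])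
  have c3 := c1.mono (t.sub.trans a2)
  have l2 := fun e (he : CP O e) => ma_lim' hO (upd hu k he) a1 a2 (Ap.upd hv k (hS e he)) t.cpt
    t.sub (ψ := fun j z => χ z * ((S j c z - S j d z) * (S j c z - S j d z)))
    (((hS c hc).sp.and (hS d hd).sp).mono fun j s => ⟨t.cont.mul
      ((s.1.1.continuous.sub s.2.1.continuous).mul (s.1.1.continuous.sub s.2.1.continuous)),
        z2 _⟩) t2.cont (z2 _)
    (tuo_mul t.cpt (tuo_const χ) (tuo_mul t.cpt (u1.mono t.sub) (u1.mono t.sub) c3 c3)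
      t.cont.continuousOn (c3.mul c3))
  refine le_of_tendsto_of_tendsto (((l1 c hc).sub (l1 d hd)).const_mul 2)
    ((l2 a ha).sub (l2 b hb)) ?_
  filter_upwards [eventually_all.2 fun k => (hv k).sp, (hS a ha).sp, (hS b hb).sp, (hS c hc).sp,
    (hS d hd).sp, h1 a b ha hb H] with j s sa sb sc sd hj
  have s' := fun k => (s k).1
  have s1 := sa.1.sub sb.1
  have s2 := sc.1.sub sd.1
  have t3 : Tst univ fun z => χ z * ((S j c z - S j d z) * (S j c z - S j d z)) :=
    Tst.of_cpt (t.cont.mul (s2.continuous.mul s2.continuous)) t.cpt (subset_univ _) (z2 _)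
  have t4 : Tst univ fun z => S j a z - S j b z :=
    Tst.of_cpt s1.continuous hL (subset_univ _) hj
  have t5 := t4.mul_on isOpen_univ s2.continuous.continuousOn
  have h2 := stokes s' k s1 (s2.pow 2) t4.cpt
  have h3 : ∫ z, (S j c z - S j d z) ^ 2 * mh (update (fun k => S j (u k)) k
      fun z => S j a z - S j b z) z = (∫ z, χ z * ((S j c z - S j d z) * (S j c z - S j d z)) *
        mh (update (fun k => S j (u k)) k (S j a)) z) - ∫ z, χ z * ((S j c z - S j d z) *
          (S j c z - S j d z)) * mh (update (fun k => S j (u k)) k (S j b)) z := by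
    rw [← integral_sub (int_mh (sm_update s' k sa.1) t3) (int_mh (sm_update s' k sb.1) t3)]
    refine integral_congr_ae (Eventually.of_forall fun z => ?_)
    simp only [← mul_sub, ← mh_update_sub _ k sa.1.contDiffAt sb.1.contDiffAt]
    by_cases hz : z ∈ L
    · rw [a5 z hz, one_mul, sq]
    · rw [supp_mh _ k fun h => hz (tsupp_of hL hj h), mul_zero, mul_zero]
  have i1 := int_mh (sm_update s' k sc.1) t5
  have i2 := int_mh (sm_update s' k sd.1) t5
  change 2 * (_ - _) ≤ _ - _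
  rw [← h3, ← h2, ← integral_sub i1 i2, ← integral_const_mul]
  refine integral_mono ((i1.sub i2).const_mul 2) (int_mh (sm_update s' k (s2.pow 2)) t4) fun z => ?_
  simp only [← mul_sub, ← mh_update_sub _ k sc.1.contDiffAt sd.1.contDiffAt]
  by_cases hz : z ∈ L
  · rw [mul_assoc, mul_left_comm]
    exact mul_le_mul_of_nonneg_left (mh_sq k s2 fun l => (s l).2 z (a4 hz))
      (sub_nonneg.2 (hM.mono j b a hb.1 ha.1 hab z))
  · simp only [hj z hz, zero_mul, mul_zero, le_refl]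

end slot

end

end Crest.Agent.X261.BT
end

-- ▼ part X261/BT/GlobB

/-!
# X261 / BT (helper9): global integration by parts

`MX_stokes_on`, `MX_neg_on`, `MX_mass_on` (open set `U`, mixed forms) and `MX_stokes`, `MX_neg`,
`MX_mass` (whole manifold).  Differences of quasi-psh functions form an algebra (`IsDP`).
-/

set_option autoImplicit false
set_option linter.unusedSectionVars false

open Set Filter Topology MeasureTheory Metric Function
open scoped ContDiff

namespace Crest.Agent.X261.BT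

open Crest.Agent.R275.Geo
open Crest.Agent.R281.Kp_487 (KP pot)

noncomputable section

variable {n : ℕ} {M : Type} [TopologicalSpace M] [T2Space M] {A : Atl n M} {U W K : Set M}
  {G G' : KP A} {a b c d f g P Q P' Q' ψ : M → ℝ}

theorem QP.sq (h : QP G U a) (hG : G.Semipos) {S : ℝ} (h0 : ∀ x ∈ U, 0 ≤ a x)
    (h1 : ∀ x ∈ U, a x ≤ S) : QP (sc (2 * S) G) U fun x => a x ^ 2 :=
  QP.of_sup h.op (h.cont.pow 2) fun x hx ε hε =>
    ⟨fun y => 2 * a x * a y - a x ^ 2, ((h.smul (by linarith [h0 x hx])).sc_le hG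
      (by linarith [h1 x hx])).sub_const _, fun y _ => by nlinarith [sq_nonneg (a y - a x)],
      by nlinarith⟩

/-- `f = P - Q` on `W` -/
structure DP (W : Set M) (f : M → ℝ) (G : KP A) (P Q : M → ℝ) : Prop where
  p : QP G W P
  q : QP G W Q
  eq : ∀ x ∈ W, f x = P x - Q x

/-- differences of quasi-psh functions -/
def IsDP (A : Atl n M) (W : Set M) (f : M → ℝ) : Prop := ∃ (G : KP A) (P Q : M → ℝ), DP W f G P Q

theorem DP.add (h : DP W f G P Q) (h' : DP W g G' P' Q') :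
    DP W (fun x => f x + g x) (ad G G') (fun x => P x + P' x) fun x => Q x + Q' x :=
  ⟨h.p.add h'.p, h.q.add h'.q, fun x hx => by rw [h.eq x hx, h'.eq x hx]; ring⟩

namespace IsDP

theorem congr (h : IsDP A W f) (H : ∀ x ∈ W, g x = f x) : IsDP A W g :=
  let ⟨G, P, Q, h⟩ := h; ⟨G, P, Q, h.p, h.q, fun x hx => (H x hx).trans (h.eq x hx)⟩

theorem add (h : IsDP A W f) (h' : IsDP A W g) : IsDP A W fun x => f x + g x :=
  let ⟨_, _, _, h⟩ := h; let ⟨_, _, _, h'⟩ := h'; ⟨_, _, _, h.add h'⟩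

theorem mul (h : IsDP A W f) (t : ℝ) : IsDP A W fun x => t * f x := by
  obtain ⟨G, P, Q, h⟩ := h
  rcases le_total 0 t with ht | ht
  · exact ⟨_, _, _, h.p.smul ht, h.q.smul ht, fun x hx => by rw [h.eq x hx]; ring⟩
  · exact ⟨_, _, _, h.q.smul (neg_nonneg.2 ht), h.p.smul (neg_nonneg.2 ht), fun x hx => by
      rw [h.eq x hx]; ring⟩

theorem sub (h : IsDP A W f) (h' : IsDP A W g) : IsDP A W fun x => f x - g x :=
  (h.add (h'.mul (-1))).congr fun _ _ => by ring

theorem of_qp (h : QP G W a) (hG : G.Semipos) : IsDP A W a :=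
  ⟨G, a, _, h, QP.const hG h.op 0, fun _ _ => (sub_zero _).symm⟩

theorem const (hW : IsOpen W) (t : ℝ) : IsDP A W fun _ => t := of_qp (QP.const semi_zr hW t) semi_zr

theorem sq (h : QP G W a) (hG : G.Semipos) {S : ℝ} (hS : ∀ x ∈ W, |a x| ≤ S) :
    IsDP A W fun x => a x ^ 2 := by
  have h1 := (h.add_const S).sq hG (S := 2 * S) (fun x hx => by linarith [(abs_le.1 (hS x hx)).1])
    fun x hx => by linarith [(abs_le.1 (hS x hx)).2]
  rcases W.eq_empty_or_nonempty with rfl | ⟨y, hy⟩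
  · exact (const isOpen_empty 0).congr fun _ hx => hx.elim
  have h2 : 0 ≤ S := (abs_nonneg _).trans (hS y hy)
  exact (((of_qp h1 (semi_sc hG (by positivity))).sub ((of_qp h hG).mul (2 * S))).sub
    (const h.op (S ^ 2))).congr fun _ _ => by ring

theorem prod (h : QP G W a) (hG : G.Semipos) (h' : QP G' W b) (hG' : G'.Semipos) {S S' : ℝ}
    (hS : ∀ x ∈ W, |a x| ≤ S) (hS' : ∀ x ∈ W, |b x| ≤ S') : IsDP A W fun x => a x * b x :=
  ((((sq (h.add h') (semi_ad hG hG') fun x hx => (abs_add_le _ _).trans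
    (add_le_add (hS x hx) (hS' x hx))).sub (sq h hG hS)).sub (sq h' hG' hS')).mul (1 / 2)).congr
      fun _ _ => by ring

theorem sum (hW : IsOpen W) {ι : Type*} (t : Finset ι) {f : ι → M → ℝ}
    (h : ∀ i, IsDP A W (f i)) : IsDP A W fun x => ∑ i ∈ t, f i x := by
  classical
  induction t using Finset.induction_on with
  | empty => simpa using const hW 0
  | insert i t hi ih => simpa only [Finset.sum_insert hi] using (h i).add ih

end IsDP

variable [MeasurableSpace M] [BorelSpace M] [Countable A.ι] {H : Fin n → KP A}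
  {φ : Fin n → M → ℝ}

/-- `∫ ψ i∂∂̄ (P - Q) ∧ T` -/
def dI (W : Set M) (H : Fin n → KP A) (φ : Fin n → M → ℝ) (k : Fin n) (G : KP A)
    (P Q ψ : M → ℝ) : ℝ :=
  ∫ x, ψ x ∂MX W (update H k G) (update φ k P) - ∫ x, ψ x ∂MX W (update H k G) (update φ k Q)

open Classical in
/-- `∫ ψ i∂∂̄ f ∧ T` -/
def dJ (W : Set M) (H : Fin n → KP A) (φ : Fin n → M → ℝ) (k : Fin n) (f ψ : M → ℝ) : ℝ :=
  if h : IsDP A W f then
    dI W H φ k h.choose h.choose_spec.choose h.choose_spec.choose_spec.choose ψ else 0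

section slot

variable (hW : IsOpen W) (h : ∀ k, QP (H k) W (φ k)) (k : Fin n)
include hW h

theorem int_MX_add (hP : QP G W P) (hQ : QP G' W Q) (hψ : Tst W ψ) :
    ∫ x, ψ x ∂MX W (update H k (ad G G')) (update φ k fun x => P x + Q x) =
      ∫ x, ψ x ∂MX W (update H k G) (update φ k P) +
        ∫ x, ψ x ∂MX W (update H k G') (update φ k Q) := by
  rw [MX_add hW h k hP hQ, integral_add_measure (MX_int hW (qp_upd h k hP) hψ)
    (MX_int hW (qp_upd h k hQ) hψ)]

theorem dI_indep (h1 : DP W f G P Q) (h2 : DP W f G' P' Q') (hψ : Tst W ψ) :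
    dI W H φ k G P Q ψ = dI W H φ k G' P' Q' ψ := by
  have e1 := int_MX_add hW h k h1.p h2.q hψ
  have e2 := int_MX_add hW h k h1.q h2.p hψ
  rw [MX_congr hW (qp_upd h k (h1.q.add h2.p)) fun l x hx => ?_, e2] at e1
  · unfold dI; linarith
  · rcases eq_or_ne l k with rfl | hl
    · simp only [update_self]
      linarith [h1.eq x hx, h2.eq x hx]
    · rw [update_of_ne hl, update_of_ne hl]

theorem dJ_eq (h1 : DP W f G P Q) (hψ : Tst W ψ) : dJ W H φ k f ψ = dI W H φ k G P Q ψ := by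
  have h2 : IsDP A W f := ⟨_, _, _, h1⟩
  rw [dJ, dif_pos h2]
  exact dI_indep hW h k h2.choose_spec.choose_spec.choose_spec h1 hψ

theorem dJ_add (h1 : IsDP A W f) (h2 : IsDP A W g) (hψ : Tst W ψ) :
    dJ W H φ k (fun x => f x + g x) ψ = dJ W H φ k f ψ + dJ W H φ k g ψ := by
  obtain ⟨G, P, Q, h1⟩ := h1
  obtain ⟨G', P', Q', h2⟩ := h2
  rw [dJ_eq hW h k (h1.add h2) hψ, dJ_eq hW h k h1 hψ, dJ_eq hW h k h2 hψ, dI, dI, dI,
    int_MX_add hW h k h1.p h2.p hψ, int_MX_add hW h k h1.q h2.q hψ]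
  ring

theorem dJ_sum {ι : Type*} (t : Finset ι) {f : ι → M → ℝ} (h1 : ∀ i, IsDP A W (f i))
    (hψ : Tst W ψ) : dJ W H φ k (fun x => ∑ i ∈ t, f i x) ψ = ∑ i ∈ t, dJ W H φ k (f i) ψ := by
  classical
  induction t using Finset.induction_on with
  | empty =>
    have h0 := QP.const (semi_zr (A := A)) hW 0
    simp only [Finset.sum_empty]
    rw [dJ_eq hW h k ⟨h0, h0, fun _ _ => (sub_self _).symm⟩ hψ, dI, sub_self]
  | insert i t hi ih =>
    simp only [Finset.sum_insert hi]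
    rw [dJ_add hW h k (h1 i) (IsDP.sum hW t h1) hψ, ih]

theorem dI_sum (hP : QP G W P) (hQ : QP G W Q) {ι : Type*} (t : Finset ι) {ψs : ι → M → ℝ}
    (hψ : ∀ i, Tst W (ψs i)) (e : ∀ x ∈ W, ψ x = ∑ i ∈ t, ψs i x) :
    dI W H φ k G P Q ψ = ∑ i ∈ t, dI W H φ k G P Q (ψs i) := by
  have e1 : ∀ {R : M → ℝ}, QP G W R → ∫ x, ψ x ∂MX W (update H k G) (update φ k R) =
      ∑ i ∈ t, ∫ x, ψs i x ∂MX W (update H k G) (update φ k R) := fun hR => by
    rw [← integral_finsetSum _ fun i _ => MX_int hW (qp_upd h k hR) (hψ i)]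
    exact integral_congr_ae ((MX_rad hW (qp_upd h k hR)).ae_mem.mono e)
  simp only [dI, e1 hP, e1 hQ, Finset.sum_sub_distrib]

theorem MX_off (hP : QP G W P) (hQ : QP G W Q) (hK : IsClosed K) (t : ℝ)
    (e : ∀ x ∈ W, x ∉ K → P x = Q x + t) :
    (MX W (update H k G) (update φ k P)).restrict (W \ K) =
      (MX W (update H k G) (update φ k Q)).restrict (W \ K) :=
  MX_restrict_eq hW (qp_upd h k hQ) hW (qp_upd h k hP) (hW.sdiff hK) sdiff_subset sdiff_subset
    (update 0 k t) fun l x hx => by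
      rcases eq_or_ne l k with rfl | hl
      · simp only [update_self, e x hx.1 hx.2]
      · simp only [update_of_ne hl, Pi.zero_apply, add_zero]

theorem dI_set (hP : QP G W P) (hQ : QP G W Q) (hK : IsClosed K) (t : ℝ)
    (e : ∀ x ∈ W, x ∉ K → P x = Q x + t) (hψ : Tst W ψ) (hg : ∀ x ∈ K, ψ x = g x) :
    dI W H φ k G P Q ψ = ∫ x in K, g x ∂MX W (update H k G) (update φ k P) -
      ∫ x in K, g x ∂MX W (update H k G) (update φ k Q) :=
  (MX_rad hW (qp_upd h k hP)).int_diff (MX_rad hW (qp_upd h k hQ)) hK.measurableSet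
    (MX_off hW h k hP hQ hK t e) hψ hg

theorem dI_chart {i : A.ι} (hP : QP G W P) (hQ : QP G W Q) (hψ : Tst (W ∩ (A.e i).source) ψ)
    {w : Cn n → ℝ} (e : ∀ z ∈ chU A W i, ψ ((A.e i).symm z) = w z) :
    dI W H φ k G P Q ψ =
      ∫ z, w z ∂ma (chU A W i) (update (fun l => pot (H l) (φ l) i) k (pot G P i)) -
        ∫ z, w z ∂ma (chU A W i) (update (fun l => pot (H l) (φ l) i) k (pot G Q i)) := by
  have e1 : ∀ v, ∫ z, rd A i ψ z ∂ma (chU A W i) v = ∫ z, w z ∂ma (chU A W i) v := fun v =>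
    integral_congr_ae ((ma_rad _ v).ae_mem.mono fun z hz => by rw [rd_of_mem hz.1, e z hz])
  rw [dI, MX_int_tst hW (qp_upd h k hP) hψ, MX_int_tst hW (qp_upd h k hQ) hψ, pot_upd, pot_upd,
    e1, e1]

theorem dI_chart_set {i : A.ι} (hP : QP G W P) (hQ : QP G W Q) (hK : IsCompact K)
    (hKW : K ⊆ W ∩ (A.e i).source) (e : ∀ x ∈ W, x ∉ K → P x = Q x) (hψ : Tst W ψ)
    {w : Cn n → ℝ} (e' : ∀ x ∈ K, ψ x = w (A.e i x)) :
    dI W H φ k G P Q ψ = ∫ z in A.e i '' K, w z
      ∂ma (chU A W i) (update (fun l => pot (H l) (φ l) i) k (pot G P i)) - ∫ z in A.e i '' K, w z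
        ∂ma (chU A W i) (update (fun l => pot (H l) (φ l) i) k (pot G Q i)) := by
  have ho := hW.inter (A.e i).open_source
  obtain ⟨η, -, t, h1, -⟩ := exists_cutM A hK ho hKW
  have t1 := t.mul_on ho hψ.cont.continuousOn
  have e0 : ∀ x ∈ W, x ∉ K → P x = Q x + 0 := fun x h1 h2 => (e x h1 h2).trans (add_zero _).symm
  have hL := cpt_img hK fun x hx => (hKW hx).2
  rw [dI_set hW h k hP hQ hK.isClosed 0 e0 hψ fun _ _ => rfl, ← dI_set hW h k hP hQ hK.isClosed 0 e0
    (t1.mono inter_subset_left) fun x hx => by rw [h1.self_of_nhdsSet x hx, one_mul],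
    dI_chart hW h k hP hQ t1 (w := rd A i fun x => η x * ψ x) fun z hz => by rw [rd_of_mem hz.1]]
  refine (ma_rad _ _).int_diff (ma_rad _ _) hL.measurableSet
    (ma_off (isOpen_chU hW i) (fun l => (h l).cp i) k (hP.cp i) (hQ.cp i) hL (img_sub hKW)
      fun z hz hz' => ?_) t1.rd ?_
  · rw [pot_apply, pot_apply, e _ hz.2 fun h2 => hz' ⟨_, h2, (A.e i).right_inv hz.1⟩]
  · rintro _ ⟨x, hx, rfl⟩
    rw [rd_of_mem ((A.e i).map_source (hKW hx).2), (A.e i).left_inv (hKW hx).2,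
      h1.self_of_nhdsSet x hx, one_mul, e' x hx]

/-- Stokes in one chart -/
theorem dI_stokes1 {i : A.ι} (h1 : DP W f G P Q) (hf : Tst (W ∩ (A.e i).source) f)
    (hc : QP G' W c) (hd : QP G' W d) (hψ : Tst W ψ) (e : ∀ x ∈ tsupport f, ψ x = c x - d x) :
    dI W H φ k G' c d f = dI W H φ k G P Q ψ := by
  have e0 : ∀ x ∈ W, x ∉ tsupport f → P x = Q x := fun x hx hx' =>
    sub_eq_zero.1 ((h1.eq x hx).symm.trans (image_eq_zero_of_notMem_tsupport hx'))
  rw [dI_chart hW h k hc hd hf (w := fun z => pot G P i z - pot G Q i z) fun z hz => by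
      rw [h1.eq _ hz.2, pot_apply, pot_apply]; ring,
    dI_chart_set hW h k h1.p h1.q hf.cpt hf.sub e0 hψ (w := fun z => pot G' c i z - pot G' d i z)
      fun x hx => by rw [e x hx, pot_apply, pot_apply, (A.e i).left_inv (hf.sub hx).2]; ring]
  exact ma_stokes2 (isOpen_chU hW i) (fun l => (h l).cp i) k (h1.p.cp i) (h1.q.cp i)
    (cpt_img hf.cpt fun x hx => (hf.sub hx).2) (img_sub hf.sub) (fun z hz hz' => by
      rw [pot_apply, pot_apply, e0 _ hz.2 fun h2 => hz' ⟨_, h2, (A.e i).right_inv hz.1⟩])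
    (hc.cp i) (hd.cp i)

/-- negativity in one chart -/
theorem dI_neg1 {i : A.ι} (h1 : DP W f G P Q) (hf : Tst (W ∩ (A.e i).source) f)
    (h0 : ∀ x, 0 ≤ f x) (hc : QP G' W c) (hd : QP G' W d) (hψ : Tst W ψ)
    (e : ∀ x ∈ tsupport f, ψ x = (c x - d x) ^ 2) :
    2 * dI W H φ k G' c d (fun x => f x * (c x - d x)) ≤ dI W H φ k G P Q ψ := by
  have e0 : ∀ x ∈ W, x ∉ tsupport f → P x = Q x := fun x hx hx' =>
    sub_eq_zero.1 ((h1.eq x hx).symm.trans (image_eq_zero_of_notMem_tsupport hx'))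
  rw [dI_chart hW h k hc hd (hf.mul_on (hW.inter (A.e i).open_source) (g := fun x => c x - d x)
      ((hc.cont.sub hd.cont).mono inter_subset_left))
      (w := fun z => (pot G P i z - pot G Q i z) * (pot G' c i z - pot G' d i z)) fun z hz => by
      simp only [h1.eq _ hz.2, pot_apply]; ring,
    dI_chart_set hW h k h1.p h1.q hf.cpt hf.sub e0 hψ
      (w := fun z => (pot G' c i z - pot G' d i z) ^ 2)
      fun x hx => by rw [e x hx, pot_apply, pot_apply, (A.e i).left_inv (hf.sub hx).2]; ring]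
  exact ma_neg_loc (isOpen_chU hW i) (fun l => (h l).cp i) k (h1.p.cp i) (h1.q.cp i)
    (cpt_img hf.cpt fun x hx => (hf.sub hx).2) (img_sub hf.sub) (fun z hz hz' => by
      rw [pot_apply, pot_apply, e0 _ hz.2 fun h2 => hz' ⟨_, h2, (A.e i).right_inv hz.1⟩])
    (fun z hz => by
      rw [pot_apply, pot_apply]
      linarith [h1.eq _ hz.2, h0 ((A.e i).symm z)]) (hc.cp i) (hd.cp i)

end slot

/-- the data used for globalisation -/
theorem exists_glob_data {H₀ : KP A} (h₀ : H₀.Pos) (hU : IsOpen U) (hK : IsCompact K)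
    (hKU : K ⊆ U) : ∃ (W : Set M) (t : Finset A.ι) (χ : A.ι → M → ℝ) (η : M → ℝ), IsOpen W ∧
      K ⊆ W ∧ W ⊆ U ∧ (∀ a : M → ℝ, ContinuousOn a U → ∃ S, ∀ x ∈ W, |a x| ≤ S) ∧
      (∀ i, Tst (W ∩ (A.e i).source) (χ i)) ∧ (∀ i x, 0 ≤ χ i x ∧ χ i x ≤ 1) ∧
      (∀ i, ∃ G : KP A, G.Semipos ∧ QP G W (χ i)) ∧ (∀ᶠ y in 𝓝ˢ K, ∑ i ∈ t, χ i y = 1) ∧
      Tst W η ∧ (∀ x ∈ K, η x = 1) ∧ ∀ i ∈ t, ∀ x ∈ tsupport (χ i), η x = 1 := by
  have := lcs A
  have := sct A
  obtain ⟨W, w1, w2, w3, w4⟩ := exists_open_between_and_isCompact_closure hK hU hKU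
  obtain ⟨t, χ, p1, p2, p3, -, p5⟩ := exists_partM A hK w1 w2
  obtain ⟨η, t1, t2, -⟩ := exists_tst (hK.union (t.isCompact_biUnion fun i _ => (p2 i).cpt)) w1
    (union_subset w2 (iUnion₂_subset fun i _ => (p2 i).sub.trans inter_subset_left))
  refine ⟨W, t, χ, η, w1, w2, subset_closure.trans w3, fun a ha => ?_, p2, p3, fun i => ?_, p5, t1,
    fun x hx => t2 x (Or.inl hx), fun i hi x hx => t2 x (Or.inr (mem_biUnion hi hx))⟩
  · obtain ⟨S, hS⟩ := w4.exists_bound_of_continuousOn (ha.mono w3)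
    exact ⟨S, fun x hx => hS x (subset_closure hx)⟩
  · obtain ⟨C, hC, h1⟩ := exists_qp_cut h₀ (p1 i) (p2 i).cpt
    exact ⟨_, semi_sc (pos_semi h₀) (by positivity : 0 ≤ |(1 : ℝ)| * C),
      ((h1 1).mono w1 (subset_univ _)).congr fun _ _ => (one_mul _).symm⟩

section main

variable {H₀ : KP A} (h₀ : H₀.Pos) (hU : IsOpen U) (h : ∀ k, QP (H k) U (φ k)) (k : Fin n)
  (ha : QP G U a) (hb : QP G U b) (hK : IsCompact K) (hKU : K ⊆ U)
  (e : ∀ x ∈ U, x ∉ K → a x = b x)

omit [T2Space M] in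
include hU h in
theorem int_MX_sub (hW : IsOpen W) (hWU : W ⊆ U) (h0 : ∀ x ∈ U, x ∉ W → g x = 0) :
    ∫ x, g x ∂MX U H φ = ∫ x, g x ∂MX W H φ := by
  rw [← MX_restrict hU h hW hWU fun _ _ _ => rfl, setIntegral_eq_integral_of_ae_compl_eq_zero]
  filter_upwards [show ∀ᵐ x ∂MX U H φ, x ∈ U from MX_compl hU h] with x hx using h0 x hx

omit [T2Space M] in
include hU h in
theorem res_MX_sub (hW : IsOpen W) (hWU : W ⊆ U) (hKW : K ⊆ W) :
    (MX U H φ).restrict K = (MX W H φ).restrict K := by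
  rw [← MX_restrict hU h hW hWU fun _ _ _ => rfl, Measure.restrict_restrict_of_subset hKW]

include h₀ hU h ha hb hK hKU e

/-- **Stokes** -/
theorem MX_stokes_on (hG : G.Semipos) (hc : QP G' U c) (hd : QP G' U d) :
    ∫ x, (a x - b x) ∂MX U (update H k G') (update φ k c) -
      ∫ x, (a x - b x) ∂MX U (update H k G') (update φ k d) =
      ∫ x in K, (c x - d x) ∂MX U (update H k G) (update φ k a) -
        ∫ x in K, (c x - d x) ∂MX U (update H k G) (update φ k b) := by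
  obtain ⟨W, t, χ, η, w1, w2, w3, w4, p1, p2, p3, p4, t1, t2, t3⟩ := exists_glob_data h₀ hU hK hKU
  have h' : ∀ l, QP (H l) W (φ l) := fun l => (h l).mono w1 w3
  have ha' := ha.mono w1 w3
  have hb' := hb.mono w1 w3
  have hc' := hc.mono w1 w3
  have hd' := hd.mono w1 w3
  have z : ∀ x ∈ U, x ∉ W → a x - b x = 0 := fun x hx hx' =>
    sub_eq_zero.2 (e x hx fun h1 => hx' (w2 h1))
  have e1 : ∀ x ∈ W, a x - b x = ∑ i ∈ t, χ i x * (a x - b x) := fun x hx => by
    rw [← Finset.sum_mul]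
    by_cases hxK : x ∈ K
    · rw [p4.self_of_nhdsSet x hxK, one_mul]
    · rw [e x (w3 hx) hxK, sub_self, mul_zero]
  have t4 : ∀ i, Tst (W ∩ (A.e i).source) fun x => χ i x * (a x - b x) := fun i =>
    (p1 i).mul_on (w1.inter (A.e i).open_source) ((ha'.cont.sub hb'.cont).mono inter_subset_left)
  have t5 : Tst W fun x => η x * (c x - d x) := t1.mul_on w1 (hc'.cont.sub hd'.cont)
  have d1 : ∀ i, IsDP A W fun x => χ i x * (a x - b x) := fun i => by
    obtain ⟨G₁, g1, g2⟩ := p3 i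
    obtain ⟨S, hS⟩ := w4 a ha.cont
    obtain ⟨S', hS'⟩ := w4 b hb.cont
    have b1 : ∀ x ∈ W, |χ i x| ≤ 1 := fun x _ => by rw [abs_of_nonneg (p2 i x).1]; exact (p2 i x).2
    exact ((IsDP.prod g2 g1 ha' hG b1 hS).sub (IsDP.prod g2 g1 hb' hG b1 hS')).congr
      fun _ _ => mul_sub _ _ _
  rw [int_MX_sub hU (qp_upd h k hc) w1 w3 z, int_MX_sub hU (qp_upd h k hd) w1 w3 z,
    res_MX_sub hU (qp_upd h k ha) w1 w3 w2, res_MX_sub hU (qp_upd h k hb) w1 w3 w2,
    ← dI_set w1 h' k ha' hb' hK.isClosed 0 (fun x hx hx' => by rw [e x (w3 hx) hx', add_zero]) t5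
      fun x hx => by rw [t2 x hx, one_mul],
    ← dJ_eq w1 h' k ⟨ha', hb', fun x hx => (e1 x hx).symm⟩ t5, dJ_sum w1 h' k t d1 t5]
  refine (dI_sum w1 h' k hc' hd' t (fun i => (t4 i).mono inter_subset_left) e1).trans
    (Finset.sum_congr rfl fun i hi => ?_)
  obtain ⟨G₁, P, Q, d2⟩ := d1 i
  rw [dJ_eq w1 h' k d2 t5]
  exact dI_stokes1 w1 h' k d2 (t4 i) hc' hd' t5 fun x hx => by
    rw [t3 i hi x (tsupport_mul_subset_left hx), one_mul]

/-- **negativity** -/
theorem MX_neg_on : ∫ x, (a x - b x) ∂MX U (update H k G) (update φ k a) ≤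
    ∫ x, (a x - b x) ∂MX U (update H k G) (update φ k b) := by
  obtain ⟨W, t, χ, η, w1, w2, w3, -, p1, p2, p3, p4, t1, -, t3⟩ := exists_glob_data h₀ hU hK hKU
  have h' : ∀ l, QP (H l) W (φ l) := fun l => (h l).mono w1 w3
  have ha' := ha.mono w1 w3
  have hb' := hb.mono w1 w3
  have z : ∀ x ∈ U, x ∉ W → a x - b x = 0 := fun x hx hx' =>
    sub_eq_zero.2 (e x hx fun h1 => hx' (w2 h1))
  have e1 : ∀ x ∈ W, a x - b x = ∑ i ∈ t, χ i x * (a x - b x) := fun x hx => by
    rw [← Finset.sum_mul]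
    by_cases hxK : x ∈ K
    · rw [p4.self_of_nhdsSet x hxK, one_mul]
    · rw [e x (w3 hx) hxK, sub_self, mul_zero]
  have c1 : ContinuousOn (fun x => a x - b x) W := ha'.cont.sub hb'.cont
  have t4 : ∀ i, Tst W fun x => χ i x * (a x - b x) := fun i =>
    ((p1 i).mono inter_subset_left).mul_on w1 c1
  have t5 : Tst W fun x => η x * (a x - b x) ^ 2 := t1.mul_on w1 (c1.pow 2)
  have d1 : ∀ i, IsDP A W (χ i) := fun i => let ⟨_, g1, g2⟩ := p3 i; IsDP.of_qp g2 g1
  have h1 : 2 * dI W H φ k G a b (fun x => a x - b x) ≤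
      dJ W H φ k (fun x => ∑ i ∈ t, χ i x) fun x => η x * (a x - b x) ^ 2 := by
    rw [dI_sum w1 h' k ha' hb' t t4 e1, dJ_sum w1 h' k t d1 t5, Finset.mul_sum]
    refine Finset.sum_le_sum fun i hi => ?_
    obtain ⟨G₁, P, Q, d2⟩ := d1 i
    rw [dJ_eq w1 h' k d2 t5]
    exact dI_neg1 w1 h' k d2 (p1 i) (fun x => (p2 i x).1) ha' hb' t5 fun x hx => by
      rw [t3 i hi x hx, one_mul]
  obtain ⟨G₁, P, Q, d2⟩ := IsDP.sum w1 t d1
  obtain ⟨V, v1, v2, v3⟩ := mem_nhdsSet_iff_exists.1 p4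
  rw [dJ_eq w1 h' k d2 t5, dI_set w1 h' k d2.p d2.q (K := Vᶜ ∪ Wᶜ)
    (v1.isClosed_compl.union w1.isClosed_compl) 1 (fun x hx hx' => by
      have h2 : ∑ i ∈ t, χ i x = 1 := v3 (not_not.1 fun h3 => hx' (Or.inl h3))
      linarith [d2.eq x hx]) t5 (g := fun _ => 0) (fun x hx => by
      by_cases hxW : x ∈ W
      · rw [e x (w3 hxW) fun h3 => hx.elim (fun h4 => h4 (v2 h3)) fun h4 => h4 hxW]
        simp
      · rw [t1.zero_off hxW, zero_mul]), integral_zero, integral_zero, sub_zero, dI] at h1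
  rw [int_MX_sub hU (qp_upd h k ha) w1 w3 z, int_MX_sub hU (qp_upd h k hb) w1 w3 z]
  linarith

/-- conservation of the mass, one slot -/
theorem MX_mass_upd (hG : G.Semipos) : (MX U (update H k G) (update φ k a)).real K =
    (MX U (update H k G) (update φ k b)).real K := by
  have h1 := MX_stokes_on h₀ hU h k ha hb hK hKU e hG (hb.add_const 1) hb
  have h2 : MX U (update H k G) (update φ k fun x => b x + 1) =
      MX U (update H k G) (update φ k b) := by
    rw [← MX_const hU (qp_upd h k hb) (update 0 k 1)]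
    congr 1
    funext l x
    rcases eq_or_ne l k with rfl | hl
    · simp only [update_self]
    · simp only [update_of_ne hl, Pi.zero_apply, add_zero]
  simp only [h2, sub_self, add_sub_cancel_left, integral_const, smul_eq_mul, mul_one,
    measureReal_restrict_apply_univ] at h1
  linarith

end main

theorem slots_ind' {α : Type*} {P : (Fin n → α) → Prop} {Q : Fin n → α → Prop} {u v : Fin n → α}
    (hu : ∀ k, Q k (u k)) (hv : ∀ k, Q k (v k)) (h0 : P u)
    (H : ∀ w k, (∀ l, Q l (w l)) → P (update w k (u k)) → P (update w k (v k))) : P v := by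
  have key : ∀ s : Finset (Fin n), P (s.piecewise v u) := fun s => by
    induction s using Finset.induction_on with
    | empty => rwa [Finset.piecewise_empty]
    | insert k s hk ih =>
      rw [Finset.piecewise_insert]
      refine H _ k (fun l => ?_) ?_
      · by_cases hl : l ∈ s
        · rw [Finset.piecewise_eq_of_mem _ _ _ hl]; exact hv l
        · rw [Finset.piecewise_eq_of_notMem _ _ _ hl]; exact hu l
      · rwa [← Finset.piecewise_eq_of_notMem s v u hk, update_eq_self]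
  simpa using key Finset.univ

/-- **conservation of the mass** -/
theorem MX_mass_on {H₀ : KP A} (h₀ : H₀.Pos) (hU : IsOpen U) (hH : ∀ k, (H k).Semipos)
    (h : ∀ k, QP (H k) U (φ k)) {φ' : Fin n → M → ℝ} (h' : ∀ k, QP (H k) U (φ' k))
    (hK : IsCompact K) (hKU : K ⊆ U) (e : ∀ k, ∀ x ∈ U, x ∉ K → φ' k x = φ k x) :
    MX U H φ' K = MX U H φ K := by
  rw [← ENNReal.toReal_eq_toReal_iff' (MX_lt_top hU h' hK hKU).ne (MX_lt_top hU h hK hKU).ne]
  exact slots_ind' (P := fun w => (MX U H w).real K = (MX U H φ).real K)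
    (Q := fun k w => QP (H k) U w) h h' rfl fun w k hw h1 => by
      have h2 := MX_mass_upd h₀ hU hw k (h' k) (h k) hK hKU (e k) (hH k)
      rw [update_eq_self] at h2
      exact h2.trans h1

section whole

variable {H₀ : KP A} (h₀ : H₀.Pos) (hH : ∀ k, (H k).Semipos) (h : ∀ k, QP (H k) univ (φ k))
  (k : Fin n)
include h₀ hH h

/-- Stokes, in the shape of `MXS.stokes` -/
theorem MX_stokes (ha : QP (H k) univ a) (hb : QP (H k) univ b) (hc : QP (H k) univ c)
    (hd : QP (H k) univ d) (hab : CE a b) (hcd : CE c d) :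
    ∫ x, (a x - b x) ∂MX univ H (update φ k c) - ∫ x, (a x - b x) ∂MX univ H (update φ k d) =
      ∫ x, (c x - d x) ∂MX univ H (update φ k a) - ∫ x, (c x - d x) ∂MX univ H (update φ k b) := by
  obtain ⟨K, hK, e⟩ := hab.exists_cpt
  obtain ⟨L, hL, e'⟩ := hcd.exists_cpt
  have h1 := MX_stokes_on h₀ isOpen_univ h k ha hb (hK.union hL) (subset_univ _)
    (fun x _ hx => e x fun h2 => hx (Or.inl h2)) (hH k) hc hd
  have h2 : ∀ x, x ∉ K ∪ L → c x - d x = 0 := fun x hx => sub_eq_zero.2 (e' x fun h2 => hx (Or.inr h2))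
  rwa [update_eq_self, setIntegral_eq_integral_of_forall_compl_eq_zero h2,
    setIntegral_eq_integral_of_forall_compl_eq_zero h2] at h1

omit hH in
/-- negativity, in the shape of `MXS.neg` -/
theorem MX_neg (ha : QP (H k) univ a) (hb : QP (H k) univ b) (hab : CE a b) :
    ∫ x, (a x - b x) ∂MX univ H (update φ k a) ≤ ∫ x, (a x - b x) ∂MX univ H (update φ k b) := by
  obtain ⟨K, hK, e⟩ := hab.exists_cpt
  simpa only [update_eq_self] using
    MX_neg_on h₀ isOpen_univ h k ha hb hK (subset_univ _) fun x _ hx => e x hx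

omit k in
theorem MX_mass {φ' : Fin n → M → ℝ} (h' : ∀ k, QP (H k) univ (φ' k)) (hK : IsCompact K)
    (e : ∀ k, ∀ x, x ∉ K → φ' k x = φ k x) : MX univ H φ' K = MX univ H φ K :=
  MX_mass_on h₀ isOpen_univ hH h h' hK (subset_univ _) fun k x _ hx => e k x hx

end whole

end

end Crest.Agent.X261.BT
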