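import Mathlib
import Crest.Agent.X261.BT.En
import Crest.Agent.X261.BT.EnvB
import Crest.Agent.X261.BT.Part
import Crest.Agent.X261.BT.DiscA
import Crest.Agent.X261.Two.DS
import Crest.Agent.X261.Two.Kes

-- ▼ part X261/BT/SupA
section

/-!
# X261 / BT (helper64): supermodularity, comparison and contact masses, abstractly

`Tb Q O P μ E` : `Q` = continuous `ω`-psh functions, `O` = obstacles, `P` = envelope, `μ` =
Monge-Ampère measure, `E` = relative energy.
-/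

set_option autoImplicit false
set_option linter.unusedSectionVars false

open Set Filter Topology MeasureTheory

noncomputable section

namespace Crest.Agent.X261.BT.Sup

/-- one-sided Riemann sums -/
theorem riemann {F G φ : ℝ → ℝ}
    (hF : ∀ t t', 0 ≤ t → t ≤ t' → t' ≤ 1 → F t' - F t ≤ (t' - t) * φ t)
    (hG : ∀ t t', 0 ≤ t → t ≤ t' → t' ≤ 1 → (t' - t) * φ t' ≤ G t' - G t) :
    F 1 - F 0 ≤ G 1 - G 0 := by
  have key : ∀ N : ℕ, F 1 - F 0 ≤ G 1 - G 0 + (φ 0 - φ 1) * (1 / ((N : ℝ) + 1)) := by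
    intro N
    set δ : ℝ := 1 / ((N : ℝ) + 1) with hδ
    have h0 : 0 < δ := Nat.one_div_pos_of_nat
    have h1 : ((N + 1 : ℕ) : ℝ) * δ = 1 := by rw [hδ]; push_cast; field_simp
    have h2 : ∀ j : ℕ, j ≤ N + 1 → F (j * δ) - F 0 ≤ G (j * δ) - G 0 + (φ 0 - φ (j * δ)) * δ := by
      intro j
      induction j with
      | zero => simp
      | succ j ih =>
        intro hj
        have h3 : (j : ℝ) * δ ≤ (j + 1 : ℕ) * δ := by push_cast; linarith
        have h4 : ((j + 1 : ℕ) : ℝ) * δ ≤ 1 :=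
          h1 ▸ mul_le_mul_of_nonneg_right (by exact_mod_cast hj) h0.le
        have h5 := hF _ _ (by positivity) h3 h4
        have h6 := hG _ _ (by positivity) h3 h4
        have h7 : ((j + 1 : ℕ) : ℝ) * δ - j * δ = δ := by push_cast; ring
        rw [h7] at h5 h6
        linarith [ih (Nat.le_of_succ_le hj)]
    have h3 := h2 (N + 1) le_rfl
    rwa [h1] at h3
  have h1 := (tendsto_one_div_add_atTop_nhds_zero_nat.const_mul (φ 0 - φ 1)).const_add (G 1 - G 0)
  rw [mul_zero, add_zero] at h1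
  exact ge_of_tendsto' h1 key

section meas

variable {X : Type*} [MeasurableSpace X] {α β γ : Measure X}

theorem sub_anti (h : β ≤ γ) : α - γ ≤ α - β :=
  sInf_le_sInf fun _ hd => le_trans hd (add_le_add le_rfl h)

theorem add_le_inf_add (h : α ≤ γ) (h' : β ≤ γ) : α univ + β univ ≤ (α ⊓ β) univ + γ univ := by
  rw [Measure.inf_apply MeasurableSet.univ, ENNReal.sInf_add, le_iInf₂_iff]
  rintro _ ⟨t, rfl⟩
  have hm := measurableSet_toMeasurable α t
  rw [inter_univ, inter_univ, ← measure_toMeasurable (μ := α) t,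
    ← measure_add_measure_compl (μ := α) hm, ← measure_add_measure_compl (μ := β) hm,
    ← measure_add_measure_compl (μ := γ) hm]
  have h1 : β (toMeasurable α t)ᶜ ≤ β tᶜ :=
    measure_mono (compl_subset_compl.2 (subset_toMeasurable _ _))
  calc _ = α (toMeasurable α t) + β (toMeasurable α t)ᶜ +
        (β (toMeasurable α t) + α (toMeasurable α t)ᶜ) := by ring
    _ ≤ _ := add_le_add (add_le_add le_rfl h1) (add_le_add (h' _) (h _))

theorem map_sub_le {Y : Type*} [MeasurableSpace Y] (e : X ≃ᵐ Y) (α β : Measure X) :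
    (α - β).map e ≤ α.map e - β.map e := by
  refine le_sInf fun d hd => ?_
  have h1 := Measure.map_mono hd e.symm.measurable
  rw [Measure.map_add _ _ e.symm.measurable, e.map_symm_map, e.map_symm_map] at h1
  have h2 := Measure.map_mono (Measure.sub_le_of_le_add h1) e.measurable
  rwa [e.map_map_symm] at h2

theorem map_sub {Y : Type*} [MeasurableSpace Y] (e : X ≃ᵐ Y) (α β : Measure X) :
    (α - β).map e = α.map e - β.map e := by
  refine le_antisymm (map_sub_le e α β) ?_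
  have h1 := map_sub_le e.symm (α.map e) (β.map e)
  rw [e.map_symm_map, e.map_symm_map] at h1
  have h2 := Measure.map_mono h1 e.measurable
  rwa [e.map_map_symm] at h2

end meas

variable {M : Type*} [TopologicalSpace M]

/-- equal off a compact set -/
def ce (a b : M → ℝ) : Prop := ∃ K, IsCompact K ∧ ∀ x ∉ K, a x = b x

section ce

variable {a b c d : M → ℝ}

theorem ce.refl (a : M → ℝ) : ce a a := ⟨∅, isCompact_empty, fun _ _ => rfl⟩

theorem ce.symm (h : ce a b) : ce b a := let ⟨K, h1, h2⟩ := h; ⟨K, h1, fun x hx => (h2 x hx).symm⟩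

theorem ce.map₂ (h : ce a b) (h' : ce c d) (f : M → ℝ → ℝ → ℝ) :
    ce (fun x => f x (a x) (c x)) fun x => f x (b x) (d x) :=
  let ⟨K, h1, h2⟩ := h
  let ⟨K', h3, h4⟩ := h'
  ⟨K ∪ K', h1.union h3, fun x hx =>
    congrArg₂ (f x) (h2 x fun h5 => hx (Or.inl h5)) (h4 x fun h5 => hx (Or.inr h5))⟩

theorem ce.map (h : ce a b) (f : M → ℝ → ℝ) : ce (fun x => f x (a x)) fun x => f x (b x) :=
  h.map₂ h fun x s _ => f x s

theorem ce.trans (h : ce a b) (h' : ce b c) : ce a c :=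
  let ⟨K, h1, h2⟩ := h
  let ⟨K', h3, h4⟩ := h'
  ⟨K ∪ K', h1.union h3, fun x hx =>
    (h2 x fun h5 => hx (Or.inl h5)).trans (h4 x fun h5 => hx (Or.inr h5))⟩

theorem ce.of_le (h : ce a b) (h1 : ∀ x, a x ≤ c x) (h2 : ∀ x, c x ≤ b x) : ce c b :=
  let ⟨K, h3, h4⟩ := h; ⟨K, h3, fun x hx => le_antisymm (h2 x) (h4 x hx ▸ h1 x)⟩

end ce

variable [MeasurableSpace M]

/-- the toolbox -/
structure Tb (Q O : (M → ℝ) → Prop) (P : (M → ℝ) → M → ℝ) (μ : (M → ℝ) → Measure M)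
    (E : (M → ℝ) → (M → ℝ) → ℝ) : Prop where
  cont : ∀ {a}, Q a → Continuous a
  seg : ∀ {a b t}, Q a → Q b → 0 ≤ t → t ≤ 1 → Q fun x => b x + t * (a x - b x)
  max : ∀ {a b}, Q a → Q b → Q fun x => max (a x) (b x)
  addc : ∀ {a}, Q a → ∀ c, Q fun x => a x + c
  O_cont : ∀ {v}, O v → Continuous v
  O_le : ∀ {v w}, O v → Continuous w → (∀ x, v x ≤ w x) → ce v w → O w
  P_mem : ∀ {v}, O v → Q (P v)
  P_ce : ∀ {v}, O v → ce (P v) v
  P_le : ∀ {f v}, Q f → (∀ x, f x ≤ v x) → ∀ x, P v x ≤ v x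
  le_P : ∀ {f v}, Q f → (∀ x, f x ≤ v x) → ∀ x, f x ≤ P v x
  O_bar : ∀ {v}, O v → ∃ f, Q f ∧ ∀ x, f x ≤ v x
  fin : ∀ {a}, Q a → ∀ K, IsCompact K → μ a K < ⊤
  contact : ∀ {u v}, Q u → Q v → (∀ x, u x ≤ v x) → (μ u).restrict {x | u x = v x} ≤ μ v
  loc : ∀ {a b U}, Q a → Q b → IsOpen U → (∀ x ∈ U, a x = b x) →
    (μ a).restrict U = (μ b).restrict U
  mass : ∀ {a b K}, Q a → Q b → IsCompact K → (∀ x ∉ K, a x = b x) → μ a K = μ b K
  mu_addc : ∀ {a}, Q a → ∀ c, μ (fun x => a x + c) = μ a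
  add : ∀ {a b c}, Q a → Q b → Q c → ce a b → ce b c → E a b + E b c = E a c
  le_er : ∀ {a b}, Q a → Q b → ce a b → ∫ x, (a x - b x) ∂μ a ≤ E a b
  er_le : ∀ {a b}, Q a → Q b → ce a b → E a b ≤ ∫ x, (a x - b x) ∂μ b
  shift : ∀ {a b}, Q a → Q b → ce a b → ∀ c, E (fun x => a x + c) (fun x => b x + c) = E a b
  off : ∀ {v}, O v → μ (P v) {x | P v x < v x} = 0

/-- the part of the Monge-Ampère measure of `w` on the contact set with `o` -/
def zt (μ : (M → ℝ) → Measure M) (o w : M → ℝ) : Measure M := (μ w).restrict {x | w x = o x}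

/-- the mass swept away -/
def xi (μ : (M → ℝ) → Measure M) (o w : M → ℝ) : Measure M := μ o - zt μ o w

namespace Tb

variable [T2Space M] [BorelSpace M] {Q O : (M → ℝ) → Prop} {P : (M → ℝ) → M → ℝ}
  {μ : (M → ℝ) → Measure M} {E : (M → ℝ) → (M → ℝ) → ℝ} (T : Tb Q O P μ E)
  {a b c f g u v w o : M → ℝ}
include T

theorem int (hu : Q u) (hf : Continuous f) (hg : Continuous g) (h : ce f g) :
    Integrable (fun x => f x - g x) (μ u) := by
  have : IsFiniteMeasureOnCompacts (μ u) := ⟨fun K hK => T.fin hu K hK⟩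
  obtain ⟨K, h1, h2⟩ := h
  exact (hf.sub hg).integrable_of_hasCompactSupport
    (HasCompactSupport.intro h1 fun x hx => sub_eq_zero.2 (h2 x hx))

theorem subc (ha : Q a) (c : ℝ) : Q fun x => a x - c := by
  simpa only [sub_eq_add_neg] using T.addc ha (-c)

theorem er_self (ha : Q a) : E a a = 0 :=
  le_antisymm (by simpa using T.er_le ha ha (.refl a)) (by simpa using T.le_er ha ha (.refl a))


theorem er_sub (ha : Q a) (hb : Q b) (hc : Q c) (h : ce a c) (h' : ce b c) :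
    E a c - E b c = E a b := by
  linarith [T.add ha hb hc (h.trans h'.symm) h']


theorem env_le (hv : O v) (x : M) : P v x ≤ v x :=
  let ⟨_, h1, h2⟩ := T.O_bar hv; T.P_le h1 h2 x

theorem env_self (ha : Q a) : P a = a :=
  funext fun x => le_antisymm (T.P_le ha (fun _ => le_rfl) x) (T.le_P ha (fun _ => le_rfl) x)

theorem env_eq (ha : Q a) (h : ∀ x, v x = a x) : P v = a := by
  rw [show v = a from funext h, T.env_self ha]

theorem env_mono (hv : O v) (h : ∀ x, v x ≤ w x) (x : M) : P v x ≤ P w x :=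
  T.le_P (T.P_mem hv) (fun y => (T.env_le hv y).trans (h y)) x


theorem ae_contact (hv : O v) : ∀ᵐ x ∂μ (P v), P v x = v x :=
  measure_mono_null (fun x hx => lt_of_le_of_ne (T.env_le hv x) hx) (T.off hv)

theorem meas_eq (ha : Continuous a) (hb : Continuous b) : MeasurableSet {x | a x = b x} :=
  (isClosed_eq ha hb).measurableSet

theorem contact_apply (hu : Q u) (hv : Q v) (h : ∀ x, u x ≤ v x) {S : Set M}
    (hS : ∀ x ∈ S, u x = v x) : μ u S ≤ μ v S := by
  have h1 := T.contact hu hv h S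
  rwa [Measure.restrict_eq_self _ (show S ⊆ {x | u x = v x} from hS)] at h1

/-- **one step**: raising an envelope costs at most the gain on the contact set -/
theorem step (hv : O v) (hc : Q c) (hcv : ce c v) {S : Set M} (hS : MeasurableSet S)
    {ν : Measure M} (hν : (μ (P v)).restrict (S ∩ {x | P v x = v x}) ≤ ν) (hg : Integrable g ν)
    (hg0 : ∀ x, 0 ≤ g x) (hoff : ∀ x ∉ S, c x ≤ v x) (hon : ∀ x ∈ S, c x - v x ≤ g x) :
    E c (P v) ≤ ∫ x, g x ∂ν := by
  have hP := T.P_mem hv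
  have h1 := hcv.trans (T.P_ce hv).symm
  have h2 := hS.inter (T.meas_eq (T.cont hP) (T.O_cont hv))
  refine (T.er_le hc hP h1).trans (le_trans ?_
    (integral_mono_measure hν (Eventually.of_forall hg0) hg))
  rw [← integral_indicator h2]
  refine integral_mono_ae (T.int hP (T.cont hc) (T.cont hP) h1)
    ((integrable_indicator_iff h2).2 (hg.mono_measure hν)) ?_
  filter_upwards [T.ae_contact hv] with x hx
  by_cases h3 : x ∈ S
  · rw [indicator_of_mem (show x ∈ S ∩ {x | P v x = v x} from ⟨h3, hx⟩), hx]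
    exact hon x h3
  · rw [indicator_of_notMem fun h4 => h3 h4.1, hx]
    exact sub_nonpos.2 (hoff x h3)

/-- **contraction** -/
theorem contr (ha : Q a) (hb : Q b) (hab : ce a b) (hle : ∀ x, b x ≤ a x) (hg : Continuous g)
    (hO : O fun x => min (b x) (g x)) :
    E (P fun x => min (a x) (g x)) (P fun x => min (b x) (g x)) ≤ E a b := by
  let bt : ℝ → M → ℝ := fun t x => b x + t * (a x - b x)
  let vt : ℝ → M → ℝ := fun t x => min (bt t x) (g x)
  have h0 : ∀ t, ce (bt t) b := fun t => by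
    simpa using hab.map fun x s => b x + t * (s - b x)
  have h1 : ∀ t t', ce (vt t) (vt t') := fun t t' =>
    ((h0 t).trans (h0 t').symm).map fun x s => min s (g x)
  have h2 : bt 0 = b := funext fun x => by simp [bt]
  have h3 : bt 1 = a := funext fun x => by simp [bt]
  have h4 : ∀ t, 0 ≤ t → t ≤ 1 → O (vt t) := fun t ht ht' =>
    T.O_le hO ((T.cont (T.seg ha hb ht ht')).min hg) (fun x => min_le_min
      (le_add_of_nonneg_right (mul_nonneg ht (sub_nonneg.2 (hle x)))) le_rfl)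
      ((h0 t).symm.map fun x s => min s (g x))
  have h5 : ∀ t, 0 ≤ t → t ≤ 1 → ce (P (vt t)) (P (vt 0)) := fun t ht ht' =>
    ((T.P_ce (h4 t ht ht')).trans (h1 t 0)).trans (T.P_ce (h4 0 le_rfl zero_le_one)).symm
  have h6 := riemann (F := fun t => E (P (vt t)) (P (vt 0))) (G := fun t => E (bt t) b)
    (φ := fun t => ∫ x, (a x - b x) ∂μ (bt t)) (fun t t' ht htt ht' => ?_)
    fun t t' ht htt ht' => ?_
  · simp only [vt, h2, h3] at h6
    rwa [T.er_self hb, T.er_self (T.P_mem hO), sub_zero, sub_zero] at h6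
  · have k1 := h4 t ht (htt.trans ht')
    have k2 := h4 t' (ht.trans htt) ht'
    have k3 := T.seg ha hb ht (htt.trans ht')
    rw [T.er_sub (T.P_mem k2) (T.P_mem k1) (T.P_mem (h4 0 le_rfl zero_le_one))
      (h5 t' (ht.trans htt) ht') (h5 t ht (htt.trans ht')), ← integral_const_mul]
    refine T.step k1 (T.P_mem k2) ((T.P_ce k2).trans (h1 t' t))
      (T.meas_eq (T.O_cont k1) (T.cont k3))
      ((Measure.restrict_mono (fun x hx => hx.2.trans hx.1) le_rfl).trans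
        (T.contact (T.P_mem k1) k3 fun x => (T.env_le k1 x).trans (min_le_left _ _)))
      ((T.int k3 (T.cont ha) (T.cont hb) hab).const_mul _)
      (fun x => mul_nonneg (sub_nonneg.2 htt) (sub_nonneg.2 (hle x))) (fun x hx => ?_)
      fun x hx => ?_
    · exact (T.env_le k2 x).trans ((min_le_right _ _).trans
        ((min_choice (bt t x) (g x)).resolve_left hx).ge)
    · have k4 : vt t x = bt t x := hx
      have k5 : P (vt t') x ≤ bt t' x := (T.env_le k2 x).trans (min_le_left _ _)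
      simp only [bt] at k4 k5
      rw [k4]
      linarith
  · have k1 := T.seg ha hb ht (htt.trans ht')
    have k2 := T.seg ha hb (ht.trans htt) ht'
    rw [T.er_sub k2 k1 hb (h0 t') (h0 t), ← integral_const_mul]
    refine le_trans (le_of_eq ?_) (T.le_er k2 k1 ((h0 t').trans (h0 t).symm))
    exact integral_congr_ae (Eventually.of_forall fun x => by ring)

/-- **shifted supermodularity** -/
theorem supmod (ha : Q a) (hb : Q b) (s : ℝ) (hc : ce (fun x => Max.max (b x) (a x - s)) b)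
    (hO : O fun x => min (a x) (b x + s)) :
    E a (P fun x => min (a x) (b x + s)) ≤ E (fun x => Max.max (b x) (a x - s)) b := by
  have hm := T.max hb (T.subc ha s)
  have h1 := T.contr (T.addc hm s) (T.addc hb s) (hc.map fun _ r => r + s)
    (fun x => add_le_add (le_max_left _ _) le_rfl) (T.cont ha) (by simpa only [min_comm] using hO)
  rw [T.shift hm hb hc, T.env_eq ha fun x => min_eq_right
    (sub_le_iff_le_add.1 (le_max_right _ _))] at h1
  simpa only [min_comm] using h1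



/-! ### the swept mass -/

theorem zt_mono {w' : M → ℝ} (hw : Q w) (hw' : Q w') (h : ∀ x, w x ≤ w' x) (h' : ∀ x, w' x ≤ o x)
    (ho : Continuous o) : zt μ o w ≤ zt μ o w' := by
  have h1 := Measure.restrict_mono (subset_refl {x | w' x = o x}) (T.contact hw hw' h)
  rw [Measure.restrict_restrict (T.meas_eq (T.cont hw') ho)] at h1
  refine (Measure.restrict_mono (fun x hx => ?_) le_rfl).trans h1
  have h2 : w' x = o x := le_antisymm (h' x) (hx ▸ h x)
  exact ⟨h2, hx.trans h2.symm⟩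

theorem zt_le (ho : Q o) (hw : Q w) (h : ∀ x, w x ≤ o x) : zt μ o w ≤ μ o := T.contact hw ho h


/-- the swept mass is monotone -/
theorem xi_anti {w' : M → ℝ} (hw : Q w) (hw' : Q w') (h : ∀ x, w x ≤ w' x) (h' : ∀ x, w' x ≤ o x)
    (ho : Continuous o) : xi μ o w' ≤ xi μ o w := sub_anti (T.zt_mono hw hw' h h' ho)

theorem xi_off (ho : Q o) (hw : Q w) {K : Set M} (hK : IsClosed K) (h : ∀ x ∉ K, w x = o x) :
    (xi μ o w).restrict Kᶜ = 0 := by
  have hm := hK.isOpen_compl.measurableSet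
  rw [xi, Measure.restrict_sub_eq_restrict_sub_restrict hm, zt, Measure.restrict_restrict hm,
    inter_eq_left.2 (show Kᶜ ⊆ {x | w x = o x} from h), T.loc hw ho hK.isOpen_compl h,
    Measure.sub_self]

theorem xi_add_zt (ho : Q o) (hw : Q w) (h : ∀ x, w x ≤ o x) (hc : ce w o) :
    xi μ o w + zt μ o w = μ o := by
  obtain ⟨K, hK, h1⟩ := hc
  have hm := hK.measurableSet
  have h2 := Measure.restrict_mono (subset_refl K) (T.zt_le ho hw h)
  have : IsFiniteMeasure ((zt μ o w).restrict K) :=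
    ⟨(h2 _).trans_lt (by rw [Measure.restrict_apply_univ]; exact T.fin ho K hK)⟩
  rw [← Measure.restrict_add_restrict_compl (μ := _ + _) hm,
    ← Measure.restrict_add_restrict_compl (μ := μ o) hm, Measure.restrict_add,
    Measure.restrict_add, T.xi_off ho hw hK.isClosed h1, zero_add, xi,
    Measure.restrict_sub_eq_restrict_sub_restrict hm, Measure.sub_add_cancel_of_le h2, zt,
    Measure.restrict_restrict hm.compl, inter_eq_left.2 (show Kᶜ ⊆ {x | w x = o x} from h1),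
    T.loc hw ho hK.isClosed.isOpen_compl h1]

theorem lt_top (hu : Q u) (hc : ce w o) : μ u {x | w x < o x} < ⊤ := by
  obtain ⟨K, hK, h1⟩ := hc
  exact (measure_mono fun x hx => by_contra fun h2 => (h1 x h2).not_lt hx).trans_lt (T.fin hu K hK)

/-- the total swept mass -/
theorem xi_univ (ho : Q o) (hw : Q w) (h : ∀ x, w x ≤ o x) (hc : ce w o) :
    xi μ o w univ = μ w {x | w x < o x} := by
  have h0 := T.xi_add_zt ho hw h hc
  obtain ⟨K, hK, h1⟩ := hc
  have hm := hK.measurableSet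
  have h2 : xi μ o w K + μ w (K ∩ {x | w x = o x}) = μ o K := by
    rw [← h0, Measure.add_apply, zt, Measure.restrict_apply hm]
  have h3 : K \ {x | w x = o x} = {x | w x < o x} := by
    ext x
    exact ⟨fun hx => lt_of_le_of_ne (h x) hx.2, fun hx =>
      ⟨by_contra fun h4 => (h1 x h4).not_lt hx, ne_of_lt hx⟩⟩
  rw [← T.mass hw ho hK h1,
    ← measure_inter_add_sdiff (μ := μ w) K (T.meas_eq (T.cont hw) (T.cont ho)), h3, add_comm] at h2
  rw [← measure_add_measure_compl hm, ← Measure.restrict_apply_univ Kᶜ,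
    T.xi_off ho hw hK.isClosed h1, Measure.coe_zero, Pi.zero_apply, add_zero]
  exact (ENNReal.add_right_inj ((measure_mono inter_subset_left).trans_lt (T.fin hw K hK)).ne).1 h2

theorem xi_fin (ho : Q o) (hw : Q w) (h : ∀ x, w x ≤ o x) (hc : ce w o) :
    IsFiniteMeasure (xi μ o w) := ⟨by rw [T.xi_univ ho hw h hc]; exact T.lt_top hw hc⟩

omit T in
/-- equivariance -/
theorem xi_map (γ : M ≃ₜ M) (ho : μ (fun x => o (γ x)) = (μ o).map γ.symm)
    (hw : μ (fun x => w (γ x)) = (μ w).map γ.symm) :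
    xi μ (fun x => o (γ x)) (fun x => w (γ x)) = (xi μ o w).map γ.symm := by
  have h1 := map_sub γ.symm.toMeasurableEquiv (μ o) (zt μ o w)
  have h2 := γ.symm.toMeasurableEquiv.restrict_map (μ w) {x | w (γ x) = o (γ x)}
  simp only [Homeomorph.toMeasurableEquiv_coe] at h1 h2
  rw [xi, xi, h1, ho, zt, zt, hw, h2]
  simp

theorem xi_real (ho : Q o) (hw : Q w) (h : ∀ x, w x ≤ o x) (hc : ce w o) :
    (xi μ o w).real univ = (μ w).real {x | w x < o x} :=
  congrArg ENNReal.toReal (T.xi_univ ho hw h hc)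

/-- (K5) raising by at most `s` costs at most `s` times the swept mass -/
theorem k5 (ho : Q o) (ha : Q a) (hc : Q c) (hao : ∀ x, a x ≤ o x) (hco : ∀ x, c x ≤ o x)
    (ca : ce a o) (cc : ce c o) {s : ℝ} (hs : ∀ x, c x ≤ a x + s) :
    E c a ≤ s * (xi μ o a).real univ := by
  have hA : MeasurableSet {x | a x < o x} := (isOpen_lt (T.cont ha) (T.cont ho)).measurableSet
  refine (T.er_le hc ha (cc.trans ca.symm)).trans ?_
  rw [T.xi_real ho ha hao ca, mul_comm, ← smul_eq_mul, ← integral_indicator_const _ hA]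
  refine integral_mono (T.int ha (T.cont hc) (T.cont ha) (cc.trans ca.symm))
    ((integrable_indicator_iff hA).2 (integrableOn_const (T.lt_top ha ca).ne)) fun x => ?_
  have k1 := hs x
  have k2 := hco x
  simp only [indicator, mem_ofPred_eq]
  split_ifs <;> linarith

/-- (K1) the new swept mass is paid by the energy -/
theorem k1 (ho : Q o) (hb : Q b) (hbo : ∀ x, b x ≤ o x) (cb : ce b o) (hw : Q w) (cw : ce w b)
    (hwb : ∀ x, w x ≤ b x) {s : ℝ} (hs : 0 ≤ s) (hg : ∀ x, w x + s ≤ g x)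
    (hO : O fun x => min (b x) (g x)) :
    s * ((xi μ o (P fun x => min (b x) (g x))).real univ - (xi μ o b).real univ) ≤
      E (P fun x => min (b x) (g x)) w := by
  set W := P fun x => min (b x) (g x)
  have hW : Q W := T.P_mem hO
  have h1 : ∀ x, w x ≤ W x := T.le_P hw fun x => le_min (hwb x) (by linarith [hg x])
  have h2 : ∀ x, W x ≤ b x := fun x => (T.env_le hO x).trans (min_le_left _ _)
  have h3 : ce W b := cw.of_le h1 h2
  have hB : MeasurableSet {x | W x < b x} := (isOpen_lt (T.cont hW) (T.cont hb)).measurableSet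
  have fB := (T.lt_top hW h3).ne
  have h4 : μ W {x | W x < o x} ≤ μ W {x | W x < b x} + μ b {x | b x < o x} := by
    refine (measure_mono (t := {x | W x < b x} ∪ ({x | b x < o x} ∩ {x | W x = b x}))
      fun x hx => (h2 x).lt_or_eq.imp id fun h5 : W x = b x => ⟨h5.symm.trans_lt hx, h5⟩).trans
      ((measure_union_le _ _).trans (add_le_add le_rfl ?_))
    exact (T.contact_apply hW hb h2 fun x hx => hx.2).trans (measure_mono inter_subset_left)
  have h5 := ENNReal.toReal_mono (ENNReal.add_ne_top.2 ⟨fB, (T.lt_top hb cb).ne⟩) h4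
  rw [ENNReal.toReal_add fB (T.lt_top hb cb).ne] at h5
  rw [T.xi_real ho hW (fun x => (h2 x).trans (hbo x)) (h3.trans cb), T.xi_real ho hb hbo cb]
  refine (mul_le_mul_of_nonneg_left (sub_le_iff_le_add.2 h5) hs).trans
    (le_trans ?_ (T.le_er hW hw (h3.trans cw.symm)))
  rw [← measureReal_def, mul_comm, ← smul_eq_mul, ← integral_indicator_const _ hB]
  refine integral_mono_ae ((integrable_indicator_iff hB).2 (integrableOn_const fB))
    (T.int hW (T.cont hW) (T.cont hw) (h3.trans cw.symm)) ?_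
  filter_upwards [T.ae_contact hO] with x hx
  by_cases h6 : x ∈ {x | W x < b x}
  · have h7 : W x = g x := hx.trans ((min_choice _ _).resolve_left fun h7 =>
      (hx.trans h7).not_lt h6)
    rw [indicator_of_mem h6]
    linarith [hg x]
  · rw [indicator_of_notMem h6]
    exact sub_nonneg.2 (h1 x)

theorem xi_self (ho : Q o) : xi μ o o = 0 := by
  rw [← Measure.measure_univ_eq_zero, T.xi_univ ho ho (fun _ => le_rfl) (.refl o)]
  simp



/-- inclusion-exclusion for swept masses -/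
theorem xi_inf (ho : Q o) (ha : Q a) (hb : Q b) (hw : Q w) (hao : ∀ x, a x ≤ o x)
    (hbo : ∀ x, b x ≤ o x) (hwa : ∀ x, w x ≤ a x) (hwb : ∀ x, w x ≤ b x) (cw : ce w o) :
    (xi μ o a).real univ + (xi μ o b).real univ ≤
      (xi μ o a ⊓ xi μ o b).real univ + (xi μ o w).real univ := by
  have := T.xi_fin ho ha hao (cw.of_le hwa hao)
  have := T.xi_fin ho hb hbo (cw.of_le hwb hbo)
  have := T.xi_fin ho hw (fun x => (hwa x).trans (hao x)) cw
  have fm : (xi μ o a ⊓ xi μ o b) univ ≠ ⊤ :=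
    ne_top_of_le_ne_top (measure_ne_top _ _) (inf_le_left (α := Measure M) _)
  have h := ENNReal.toReal_mono (ENNReal.add_ne_top.2 ⟨fm, measure_ne_top _ _⟩) (add_le_inf_add
    (T.xi_anti hw ha hwa hao (T.cont ho)) (T.xi_anti hw hb hwb hbo (T.cont ho)))
  rwa [ENNReal.toReal_add (measure_ne_top _ _) (measure_ne_top _ _),
    ENNReal.toReal_add fm (measure_ne_top _ _)] at h

/-- **overlap**: the swept masses of `ψ` and `χ ≤ v` overlap if `v` is cheap against `ψ` -/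
theorem overlap {ψ χ : M → ℝ} (ho : Q o) (hO : ∀ w, Continuous w → ce w o → O w) (hψ : Q ψ)
    (hχ : Q χ) (hv : Q v) (hψo : ∀ x, ψ x ≤ o x) (hvo : ∀ x, v x ≤ o x) (hχv : ∀ x, χ x ≤ v x)
    (cψ : ce ψ o) (cχ : ce χ o) {S : ℝ} (hS : 0 ≤ S) (hSv : ∀ x, o x - S ≤ v x) :
    E o v ≤ E ψ (P fun x => min (ψ x) (v x)) + S * (xi μ o ψ ⊓ xi μ o χ).real univ := by
  have cv : ce v o := cχ.of_le hχv hvo
  set m := (xi μ o ψ ⊓ xi μ o χ).real univ
  have k0 : ∀ a, ce a o → (∀ x, a x ≤ o x) → ∀ t, 0 ≤ t → ce (fun x => min (a x) (v x + t * S)) o :=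
    fun a ca ha t ht => ce.of_le (by simpa using ca.map₂ cv fun _ r r' => min r r')
      (fun x => min_le_min le_rfl (le_add_of_nonneg_right (mul_nonneg ht hS)))
      fun x => (min_le_left _ _).trans (ha x)
  have k1 : ∀ a, Q a → ce a o → (∀ x, a x ≤ o x) → ∀ t, 0 ≤ t →
      O fun x => min (a x) (v x + t * S) := fun a ha ca ha' t ht =>
    hO _ ((T.cont ha).min (T.cont (T.addc hv _))) (k0 a ca ha' t ht)
  let U : ℝ → M → ℝ := fun t => P fun x => min (o x) (v x + t * S)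
  let W : ℝ → M → ℝ := fun t => P fun x => min (ψ x) (v x + t * S)
  have oU := k1 o ho (.refl o) fun _ => le_rfl
  have oW := k1 ψ hψ cψ hψo
  have qU : ∀ t, 0 ≤ t → Q (U t) := fun t ht => T.P_mem (oU t ht)
  have qW : ∀ t, 0 ≤ t → Q (W t) := fun t ht => T.P_mem (oW t ht)
  have cU : ∀ t, 0 ≤ t → ce (U t) o := fun t ht =>
    (T.P_ce (oU t ht)).trans (k0 o (.refl o) (fun _ => le_rfl) t ht)
  have cW : ∀ t, 0 ≤ t → ce (W t) o := fun t ht => (T.P_ce (oW t ht)).trans (k0 ψ cψ hψo t ht)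
  have lU : ∀ t, 0 ≤ t → ∀ x, U t x ≤ o x := fun t ht x =>
    (T.env_le (oU t ht) x).trans (min_le_left _ _)
  have lW : ∀ t, 0 ≤ t → ∀ x, W t x ≤ ψ x := fun t ht x =>
    (T.env_le (oW t ht) x).trans (min_le_left _ _)
  have e1 : U 1 = o := T.env_eq ho fun x => min_eq_left (by linarith [hSv x])
  have e2 : U 0 = v := T.env_eq hv fun x => by rw [zero_mul, add_zero, min_eq_right (hvo x)]
  have e3 : W 1 = ψ := T.env_eq hψ fun x => min_eq_left (by linarith [hSv x, hψo x])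
  have e4 : W 0 = P fun x => min (ψ x) (v x) := by simp only [W, zero_mul, add_zero]
  have h6 := riemann (F := fun t => E (U t) (U 0)) (G := fun t => E (W t) (W 0) + t * (S * m))
    (φ := fun t => S * (xi μ o (U t)).real univ) (fun t t' ht htt _ => ?_) fun t t' ht htt _ => ?_
  · simp only [T.er_self (qU 0 le_rfl), T.er_self (qW 0 le_rfl)] at h6
    rw [e1, e2, e3, e4] at h6
    linarith
  · have ht' := ht.trans htt
    have h1 : ∀ x, U t' x - (t' - t) * S ≤ U t x := T.le_P (T.subc (qU t' ht') _) fun x => by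
      have h2 := le_min_iff.1 (T.env_le (oU t' ht') x)
      have h3 := mul_nonneg (sub_nonneg.2 htt) hS
      exact le_min (by linarith [h2.1]) (by linarith [h2.2])
    rw [T.er_sub (qU t' ht') (qU t ht) (qU 0 le_rfl) ((cU t' ht').trans (cU 0 le_rfl).symm)
      ((cU t ht).trans (cU 0 le_rfl).symm), ← mul_assoc]
    exact T.k5 ho (qU t ht) (qU t' ht') (lU t ht) (lU t' ht') (cU t ht) (cU t' ht')
      fun x => by linarith [h1 x]
  · have ht' := ht.trans htt
    have hd := mul_nonneg (sub_nonneg.2 htt) hS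
    have h1 := T.k1 ho hψ hψo cψ (qW t ht) ((cW t ht).trans cψ.symm) (lW t ht) hd
      (fun x => by linarith [(T.env_le (oW t ht) x).trans (min_le_right _ _)]) (oW t' ht')
    have h2 := T.xi_inf ho hψ (qU t' ht') (qW t' ht') hψo (lU t' ht') (lW t' ht')
      (T.env_mono (oW t' ht') fun x => min_le_min (hψo x) le_rfl) (cW t' ht')
    have := T.xi_fin ho hψ hψo cψ
    have h3 : (xi μ o ψ ⊓ xi μ o (U t')).real univ ≤ m := ENNReal.toReal_mono
      (ne_top_of_le_ne_top (measure_ne_top _ _) (inf_le_left (α := Measure M) _))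
      (inf_le_inf_left (α := Measure M) _ (T.xi_anti hχ (qU t' ht')
        (T.le_P hχ fun x => le_min ((hχv x).trans (hvo x))
        ((hχv x).trans (le_add_of_nonneg_right (mul_nonneg ht' hS)))) (lU t' ht') (T.cont ho)) _)
    have h4 := mul_le_mul_of_nonneg_left (h2.trans (add_le_add h3 le_rfl)) hd
    have h5 := T.er_sub (qW t' ht') (qW t ht) (qW 0 le_rfl) ((cW t' ht').trans (cW 0 le_rfl).symm)
      ((cW t ht).trans (cW 0 le_rfl).symm)
    linarith

end Tb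

end Crest.Agent.X261.BT.Sup
end
end

-- ▼ part X261/BT/Sup
section

/-!
# X261 / BT (helper64): supermodularity, comparison principle, swept masses

`tb` : the toolbox `Sup.Tb` for `QP`, `Obs`, `env`, `MA`, `Er`;  `Xi H w = ωⁿ - 1_{w = 0} MA w`;
`PE H a b s = env (min a (b + s))`.
-/

set_option autoImplicit false
set_option linter.unusedSectionVars false

open Set Filter Topology MeasureTheory

namespace Crest.Agent.X261.BT

open Crest.Agent.R275.Geo
open Crest.Agent.R281.Kp_487 (KP pot)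

noncomputable section

variable {n : ℕ} {M : Type} [TopologicalSpace M] {A : Atl n M} [MeasurableSpace M] [BorelSpace M]
  [Countable A.ι] [T2Space M] {H : KP A} {a b c f g u v w : M → ℝ} {U K S : Set M}

omit [MeasurableSpace M] [BorelSpace M] in
theorem ce_iff : Sup.ce a b ↔ CE a b := ⟨fun ⟨_, h1, h2⟩ => CE.of_cpt h1 h2, CE.exists_cpt⟩

/-- the toolbox -/
theorem tb (hH : H.Pos) : Sup.Tb (QP H univ) (Obs H) (env H) (MA H) (Er H) where
  cont h := h.continuous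
  seg ha hb h0 h1 := ha.seg hb h0 h1
  max ha hb := ha.max hb
  addc ha c := ha.add_const c
  O_cont h := h.cont
  O_le h hw hle hc := h.of_le hw hle (ce_iff.1 hc)
  P_mem h := h.qp hH
  P_ce h := ce_iff.2 (h.ce (pos_semi hH))
  P_le hf hle := env_le (hf.hasC hle)
  le_P hf hle := le_env hf hle
  O_bar h := h.hasC (pos_semi hH)
  fin ha _ hK := MA_lt_top ha hK
  contact hu hv h := MA_contact hu hv h (isClosed_eq hu.continuous hv.continuous).measurableSet
    fun _ hx => hx.ge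
  loc ha hb hU h := MA_restrict_eq hb ha hU 0 fun x hx => by rw [h x hx, add_zero]
  mass ha hb hK h := MA_mass hH ha hb hK h
  mu_addc ha c := MA_const ha c
  add ha hb hc h h' := Er_add hH ha hb hc (ce_iff.1 h) (ce_iff.1 h')
  le_er ha hb h := le_Er hH ha hb (ce_iff.1 h)
  er_le ha hb h := Er_le hH ha hb (ce_iff.1 h)
  shift ha hb _ c := Er_shift ha hb c
  off h := env_contact hH h

section rel

variable (hH : H.Pos)
include hH

/-- one step: raising an envelope costs at most the gain on the contact set -/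
theorem Er_step (hv : Obs H v) (hc : QP H univ c) (hcv : CE c v) (hS : MeasurableSet S)
    {ν : Measure M} (hν : (MA H (env H v)).restrict (S ∩ {x | env H v x = v x}) ≤ ν)
    (hg : Integrable g ν) (hg0 : ∀ x, 0 ≤ g x) (hoff : ∀ x ∉ S, c x ≤ v x)
    (hon : ∀ x ∈ S, c x - v x ≤ g x) : Er H c (env H v) ≤ ∫ x, g x ∂ν :=
  (tb hH).step hv hc (ce_iff.2 hcv) hS hν hg hg0 hoff hon


/-- the same with the form `H` -/
theorem Er_step_loc' {F : M → ℝ} (hv : Obs H v) (hc : QP H univ c)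
    (hcv : CE c v) (hF : QP H U F) (hle : ∀ x ∈ U, v x ≤ F x) (hS : MeasurableSet S)
    (hSU : S ⊆ U) (hge : ∀ x ∈ S, F x ≤ v x) (hg : IntegrableOn g S (MAo H U F))
    (hg0 : ∀ x, 0 ≤ g x) (hoff : ∀ x ∉ S, c x ≤ v x) (hon : ∀ x ∈ S, c x - v x ≤ g x) :
    Er H c (env H v) ≤ ∫ x in S, g x ∂MAo H U F := by
  have h1 := hv.qp hH
  have h2 := hS.inter (isClosed_eq h1.continuous hv.cont).measurableSet
  refine Er_step hH hv hc hcv hS ?_ hg hg0 hoff hon
  exact (MA_touch h1 hF (fun x hx => (hv.env_le (pos_semi hH) x).trans (hle x hx)) h2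
    (inter_subset_left.trans hSU) fun x hx => (hge x hx.1).trans hx.2.ge).trans
    (Measure.restrict_mono inter_subset_left le_rfl)





end rel

/-! ### compactly supported functions -/

/-- the envelope of `min a (b + s)` -/
def PE (H : KP A) (a b : M → ℝ) (s : ℝ) : M → ℝ := env H fun x => min (a x) (b x + s)


section pp

variable (hH : H.Pos) (hS : Slow H) {s : ℝ}
include hH









omit hH in
theorem MA_iso' {γ : M ≃ₜ M} (hγ : Iso H γ) (ha : QP H univ a) :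
    (MA H fun x => a (γ x)) = (MA H a).map γ.symm := by
  rw [← MA_iso hγ ha, Measure.map_map γ.symm.continuous.measurable γ.continuous.measurable]
  simp






include hS











end pp

end

end Crest.Agent.X261.BT
end

-- ▼ part X261/BT/DiscX1
section

/-!
# X261, BT (helper19), DISC (ii), part 1: the `ε`-Perron family from an envelope on `ℂ × M`

* `JQ H e O Φ` : jointly continuous, `ω + e i∂∂̄|t|²`-psh on `O × M`;
* `Core H D`   : what the envelope on the product gives;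
* `exists_perron` : the `ε`-Perron family.
-/

set_option autoImplicit false
set_option linter.unusedSectionVars false

open Set Filter Topology Metric Complex
open scoped ComplexConjugate

namespace Crest.Agent.X261.BT.DiscX

open Crest.Agent.R275.Geo
open Crest.Agent.R281.Kp_487 (KP pot)
open Crest.Agent.R281.Rich_710 (PshL)
open Crest.Agent.R257.HoB_843 (lvE)

noncomputable section

variable {n : ℕ} {M : Type} [TopologicalSpace M] {A : Atl n M} {H : KP A} {e : ℝ} {O : Set ℂ}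
  {Φ Ψ : ℂ → M → ℝ}

/-- jointly continuous and `ω + e i∂∂̄|t|²`-psh on `O × M` -/
structure JQ (H : KP A) (e : ℝ) (O : Set ℂ) (Φ : ℂ → M → ℝ) : Prop where
  op : IsOpen O
  cont : ContinuousOn (fun p : ℂ × M => Φ p.1 p.2) (O ×ˢ univ)
  psh : ∀ i, PshL (O ×ˢ (A.e i).target) fun p : ℂ × Cn n => pot H (Φ p.1) i p.2 + e * ‖p.1‖ ^ 2

theorem cont_pot (h : ContinuousOn (fun p : ℂ × M => Φ p.1 p.2) (O ×ˢ univ)) (H : KP A) (e : ℝ)
    (i : A.ι) : ContinuousOn (fun p : ℂ × Cn n => pot H (Φ p.1) i p.2 + e * ‖p.1‖ ^ 2)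
      (O ×ˢ (A.e i).target) := by
  have h1 : ContinuousOn (fun p : ℂ × Cn n => H.wt i p.2) (O ×ˢ (A.e i).target) :=
    (R281.Kp_487.wt_smooth H i).continuousOn.comp continuousOn_snd fun p hp => hp.2
  have h2 : ContinuousOn (fun p : ℂ × Cn n => (p.1, (A.e i).symm p.2)) (O ×ˢ (A.e i).target) :=
    continuousOn_fst.prodMk ((A.e i).continuousOn_symm.comp continuousOn_snd fun p hp => hp.2)
  exact (h1.add (h.comp h2 fun p hp => ⟨hp.1, mem_univ _⟩)).add (by fun_prop)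

namespace JQ

theorem opn (h : JQ H e O Φ) (i : A.ι) : IsOpen (O ×ˢ (A.e i).target) :=
  h.op.prod (A.e i).open_target

theorem mono (h : JQ H e O Φ) {O' : Set ℂ} (hO : IsOpen O') (hs : O' ⊆ O) : JQ H e O' Φ :=
  ⟨hO, h.cont.mono (prod_mono hs Subset.rfl), fun i => (h.psh i).mono (prod_mono hs Subset.rfl)⟩

theorem slice (h : JQ H e O Φ) {t : ℂ} (ht : t ∈ O) : QP H univ (Φ t) := by
  have hc : Continuous (Φ t) := continuousOn_univ.1
    (h.cont.comp (f := fun x => (t, x)) (by fun_prop) fun x _ => ⟨ht, mem_univ _⟩)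
  refine ⟨isOpen_univ, hc.continuousOn, fun i => ?_⟩
  have ho := isOpen_chU (A := A) isOpen_univ i
  have h1 := PL.comp (T := fun z : Cn n => (t, z)) ho (h.opn i) (cont_pot h.cont H e i) (h.psh i)
    fun z hz => ⟨by fun_prop, ht, hz.1⟩
  have h2 : ContinuousOn (fun z => pot H (Φ t) i z + e * ‖t‖ ^ 2) (chU A univ i) :=
    (contOn_pot (H := H) (U := univ) hc.continuousOn i).add continuousOn_const
  exact PL.congr ho (PL.add ho h2 continuousOn_const h1
    (PL.const (-(e * ‖t‖ ^ 2)))) fun z _ => by ring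

theorem max (h : JQ H e O Φ) (h' : JQ H e O Ψ) : JQ H e O fun t x => max (Φ t x) (Ψ t x) :=
  ⟨h.op, h.cont.sup h'.cont, fun i => PL.congr (h.opn i)
    (PL.max (h.opn i) (cont_pot h.cont H e i) (cont_pot h'.cont H e i) (h.psh i) (h'.psh i))
      fun p _ => by simp only [pot_apply, max_add_add_left, max_add_add_right]⟩

theorem shift (h : JQ H e O Φ) : JQ H 0 O fun t x => Φ t x + e * (‖t‖ ^ 2 - 1) :=
  ⟨h.op, h.cont.add (by fun_prop), fun i => PL.congr (h.opn i)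
    (PL.add (h.opn i) (cont_pot h.cont H e i) continuousOn_const (h.psh i) (PL.const (-e)))
      fun p _ => by simp only [pot_apply]; ring⟩

theorem jp (h : JQ H 0 O Φ) {K : Set M} (hK : IsCompact K) (h0 : ∀ t ∈ O, ∀ x ∉ K, Φ t x = 0) :
    JP H O Φ :=
  ⟨h.op, h.cont, fun i => PL.congr (h.opn i) (h.psh i) fun p _ => by ring, K, hK, h0⟩


theorem of_qp {f : M → ℝ} (h : QP H univ f) (c : ℝ) (β : ℂ) :
    JQ H 0 univ fun t x => f x + (c + (t * β).re) := by
  have hc := h.continuous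
  refine ⟨isOpen_univ, Continuous.continuousOn (by fun_prop), fun i => ?_⟩
  have ho : IsOpen ((univ : Set ℂ) ×ˢ (A.e i).target) := isOpen_univ.prod (A.e i).open_target
  have h1 := PL.comp (T := fun p : ℂ × Cn n => p.2) ho (isOpen_chU isOpen_univ i) (h.cp i).1
    (h.psh i) fun p hp => ⟨by fun_prop, hp.2, mem_univ _⟩
  let L : ℂ × Cn n →L[ℝ] ℝ :=
    reCLM.comp (((ContinuousLinearMap.mul ℝ ℂ).flip β).comp (ContinuousLinearMap.fst ℝ ℂ (Cn n)))
  have h2 : PshL ((univ : Set ℂ) ×ˢ (A.e i).target) fun p => c + L p :=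
    PL.of_lvE ho fun p _ => ⟨by fun_prop, fun v => by
      have e1 : fderiv ℝ (fun p => c + L p) = fun _ => L :=
        funext fun p => (L.hasFDerivAt.const_add c).fderiv
      simp [lvE, e1]⟩
  refine PL.congr ho (PL.add ho ((h.cp i).1.comp continuousOn_snd fun p hp => ⟨hp.2, mem_univ _⟩)
    (by fun_prop) h1 h2) fun p _ => ?_
  simp only [pot_apply, zero_mul, add_zero]
  exact (add_assoc _ _ _).symm

theorem of_qp' {f : M → ℝ} (h : QP H univ f) : JQ H 0 univ fun _ x => f x := by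
  simpa using of_qp h 0 0

theorem exists_max {κ : Type*} (s : Finset κ) {F : κ → ℂ → M → ℝ} (hF : ∀ k ∈ s, JQ H e O (F k))
    (h : JQ H e O Φ) : ∃ Ψ, JQ H e O Ψ ∧ (∀ t x, Φ t x ≤ Ψ t x) ∧ (∀ k ∈ s, ∀ t x, F k t x ≤ Ψ t x) ∧
      ∀ t x c, Φ t x ≤ c → (∀ k ∈ s, F k t x ≤ c) → Ψ t x ≤ c := by
  classical
  induction s using Finset.induction_on with
  | empty => exact ⟨Φ, h, fun _ _ => le_rfl, by simp, fun _ _ _ h _ => h⟩
  | insert a s _ ih =>
    obtain ⟨Ψ, h1, h2, h3, h4⟩ := ih fun k hk => hF k (Finset.mem_insert_of_mem hk)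
    refine ⟨_, h1.max (hF a (Finset.mem_insert_self _ _)), fun t x => (h2 t x).trans (le_max_left _ _),
      fun k hk t x => ?_, fun t x c h5 h6 => max_le (h4 t x c h5 fun k hk =>
        h6 k (Finset.mem_insert_of_mem hk)) (h6 a (Finset.mem_insert_self _ _))⟩
    rcases Finset.mem_insert.1 hk with rfl | hk
    · exact le_max_right _ _
    · exact (h3 k hk t x).trans (le_max_left _ _)

end JQ

/-- the envelope on the product: `D` is subharmonic along it where the obstacle vanishes -/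
def Core (H : KP A) (D : (M → ℝ) → ℝ) : Prop :=
  ∀ e > (0 : ℝ), ∀ θ : ℝ, 0 ≤ θ → θ < 1 → ∀ φ v : ℂ → M → ℝ, JQ (sc θ H) 0 univ φ →
    Continuous (fun p : ℂ × M => v p.1 p.2) → (∀ t x, φ t x ≤ v t x) → ∀ K : Set M, IsCompact K →
    (∀ t x, 1 < ‖t‖ ∨ x ∉ K → v t x = φ t x) → ∀ r : ℝ, r < 1 → (∀ t x, ‖t‖ < r → v t x = 0) →
    ∃ U, JQ H e (ball 0 2) U ∧ (∀ t ∈ ball (0 : ℂ) 2, ∀ x, φ t x ≤ U t x ∧ U t x ≤ v t x) ∧
      ∀ s : ℝ, 0 < s → s < r → ∀ g : ℂ → ℝ, Continuous g →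
        (∀ w : ℂ, ‖w‖ = 1 → D (U (s * w)) ≤ g w) → D (U 0) ≤ Real.circleAverage g 0 1

theorem convex_Q [T2Space M] (H : KP A) : Convex ℝ {f : M → ℝ | PP H f ∧ f ≤ 0} := by
  intro f hf g hg s t hs ht h
  obtain rfl : s = 1 - t := by linarith
  refine ⟨⟨hf.1.qp.convex hg.1.qp ht (by linarith), (hf.1.cpt.smul_left).add hg.1.cpt.smul_left⟩,
    fun x => ?_⟩
  exact add_nonpos (mul_nonpos_of_nonneg_of_nonpos hs (hf.2 x))
    (mul_nonpos_of_nonneg_of_nonpos ht (hg.2 x))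

theorem re_mul_conj {w a : ℂ} (hw : ‖w‖ = 1) (ha : ‖a‖ = 1) :
    (w * conj a).re = 1 - ‖w - a‖ ^ 2 / 2 := by
  have h1 := normSq_sub w a
  rw [normSq_eq_norm_sq, normSq_eq_norm_sq, normSq_eq_norm_sq, hw, ha] at h1
  linarith

theorem re_mul_conj_le {w a : ℂ} (hw : ‖w‖ ≤ 1) (ha : ‖a‖ = 1) : (w * conj a).re ≤ 1 :=
  (re_le_norm _).trans (by rwa [norm_mul, norm_conj, ha, mul_one])

theorem exists_lb {f : M → ℝ} (h : PP H f) : ∃ T, 0 ≤ T ∧ ∀ x, -T ≤ f x := by
  obtain ⟨C, hC⟩ := h.qp.continuous.bounded_above_of_compact_support h.cpt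
  exact ⟨|C|, abs_nonneg _, fun x => by linarith [(abs_le.1 (hC x)).1, le_abs_self C]⟩

theorem exists_near_one {c η : ℝ} (hc : 0 ≤ c) (hη : 0 < η) :
    ∃ θ : ℝ, 1 / 2 ≤ θ ∧ θ < 1 ∧ (1 - θ) * c ≤ η := by
  refine ⟨1 - min (1 / 2) (η / (c + 1)), by linarith [min_le_left (1 / 2) (η / (c + 1))],
    sub_lt_self _ (by positivity), ?_⟩
  have h1 := mul_le_mul_of_nonneg_right (min_le_right (1 / 2) (η / (c + 1))) hc
  have h2 : η / (c + 1) * c ≤ η := by
    rw [div_mul_eq_mul_div, div_le_iff₀ (by positivity)]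
    nlinarith
  linarith

/-- the lower barrier -/
theorem exists_barrier [T2Space M] {b : ℂ → M → ℝ} (hb : ∀ w, PP H (b w) ∧ b w ≤ 0) {T : ℝ}
    (hT0 : 0 ≤ T) (hT : ∀ w x, -T ≤ b w x)
    (hu : ∀ η > 0, ∃ δ > 0, ∀ w w' : ℂ, ‖w‖ = 1 → ‖w'‖ = 1 → ‖w - w'‖ < δ → ∀ x, b w x ≤ b w' x + η)
    {γ : M → ℝ} {θ η : ℝ} (hθ : 0 ≤ θ) (hθ1 : θ ≤ 1) (hη : 0 < η) (hθη : (1 - θ) * T ≤ η)
    (hγ : QP (sc θ H) univ γ) (hγb : ∀ w x, γ x ≤ b w x) :
    ∃ (φ : ℂ → M → ℝ) (s : ℝ), JQ (sc θ H) 0 univ φ ∧ 0 < s ∧ s < 1 ∧ (∀ t x, γ x ≤ φ t x) ∧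
      (∀ t x, ‖t‖ ≤ 1 → φ t x ≤ 0) ∧ (∀ w x, ‖w‖ = 1 → φ w x ≤ b w x) ∧
      ∀ w x, ‖w‖ = 1 → b w x ≤ φ (s * w) x + 5 * η := by
  obtain ⟨δ, hδ, h1⟩ := hu η hη
  obtain ⟨a, ha, haT⟩ : ∃ a : ℝ, 0 ≤ a ∧ a * δ ^ 2 = 2 * T := ⟨2 * T / δ ^ 2, by positivity, by
    field_simp⟩
  obtain ⟨s, hs, hs1, hsa⟩ := exists_near_one ha hη
  have hδ' : 0 < min δ (1 - s) := lt_min hδ (by linarith)
  obtain ⟨N, hN, hNf, hc⟩ := (isCompact_sphere (0 : ℂ) 1).finite_cover_balls hδ'
  have hN1 : ∀ k ∈ hNf.toFinset, ‖k‖ = 1 := fun k hk => by simpa using hN (hNf.mem_toFinset.1 hk)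
  have e : ∀ t k : ℂ, (t * (a * conj k)).re = a * (t * conj k).re := fun t k => by
    rw [mul_left_comm, re_ofReal_mul]
  obtain ⟨φ, h2, h3, h4, h5⟩ := JQ.exists_max hNf.toFinset
    (fun k _ => JQ.of_qp ((hb k).1.qp.smul hθ) (-(2 * η) - a) (a * conj k)) (JQ.of_qp' hγ)
  refine ⟨φ, s, h2, by linarith, hs1, h3, fun t x ht => h5 t x _ ((hγb 0 x).trans ((hb 0).2 x))
    fun k hk => ?_, fun w x hw => h5 w x _ (hγb w x) fun k hk => ?_, fun w x hw => ?_⟩
  · have h6 := mul_le_mul_of_nonneg_left (re_mul_conj_le ht (hN1 k hk)) ha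
    have h7 := mul_nonpos_of_nonneg_of_nonpos hθ ((hb k).2 x)
    rw [e]
    linarith
  · rw [e, re_mul_conj hw (hN1 k hk)]
    have h6 : 0 ≤ a * ‖w - k‖ ^ 2 := by positivity
    by_cases h7 : ‖k - w‖ < δ
    · have h8 := h1 k w (hN1 k hk) hw h7 x
      have h9 := mul_le_mul_of_nonneg_left (hT k x) (sub_nonneg.2 hθ1)
      linarith
    · rw [not_lt, norm_sub_rev] at h7
      have h8 : a * δ ^ 2 ≤ a * ‖w - k‖ ^ 2 := by gcongr
      have h9 := mul_nonpos_of_nonneg_of_nonpos hθ ((hb k).2 x)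
      linarith [hT w x]
  · obtain ⟨k, hk, hwk⟩ := mem_iUnion₂.1 (hc (mem_sphere_zero_iff_norm.2 hw))
    have hk' := hNf.mem_toFinset.2 hk
    have h6 := h4 k hk' (s * w) x
    rw [e, mul_assoc (s : ℂ), re_ofReal_mul, re_mul_conj hw (hN1 k hk')] at h6
    rw [mem_ball, dist_eq_norm, lt_min_iff] at hwk
    have h7 := h1 w k hw (hN1 k hk') hwk.1 x
    have h8 := mul_nonpos_of_nonneg_of_nonpos (sub_nonneg.2 hθ1) ((hb k).2 x)
    have h9 : s * ‖w - k‖ ^ 2 ≤ 1 - s := by nlinarith [norm_nonneg (w - k), hwk.2]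
    have h10 := mul_le_mul_of_nonneg_left h9 ha
    nlinarith

/-- **DISC (ii)** from the envelope on the product -/
theorem exists_perron [T2Space M] (hH : H.Semipos) {D : (M → ℝ) → ℝ} (core : Core H D)
    (lip : ∀ K : Set M, IsCompact K → ∀ T : ℝ, ∃ C : ℝ, 0 ≤ C ∧ ∀ f, PP H f ∧ f ≤ 0 →
      ∀ g, PP H g ∧ g ≤ 0 → (∀ x ∉ K, f x = 0) → (∀ x ∉ K, g x = 0) → (∀ x, -T ≤ f x) →
      (∀ x, -T ≤ g x) → ∀ ε : ℝ, 0 ≤ ε → (∀ x, g x ≤ f x + ε) → D f ≤ D g + C * ε)
    (bfun : ∀ K : Set M, IsCompact K → ∀ T : ℝ, ∃ b, (PP H b ∧ b ≤ 0) ∧ ∀ x ∈ K, b x ≤ -T)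
    (ι : Type) [Fintype ι] (β : ι → M → ℝ) (ρ : ι → ℂ → ℝ) (hβ : ∀ i, PP H (β i) ∧ β i ≤ 0)
    (hρ : ∀ i, Continuous (ρ i)) (hρ0 : ∀ i w, 0 ≤ ρ i w) (hρ1 : ∀ w, ∑ i, ρ i w = 1)
    (ε : ℝ) (hε : 0 < ε) :
    ∃ V : ℂ → M → ℝ, JQ H 0 (ball 0 2) V ∧ (∃ K, IsCompact K ∧ ∀ w, ‖w‖ ≤ 1 → ∀ x ∉ K, V w x = 0) ∧
      (∀ w, ‖w‖ ≤ 1 → PP H (V w) ∧ V w ≤ 0) ∧ (∀ w : ℂ, ‖w‖ = 1 → V w ≤ ∑ i, ρ i w • β i) ∧
      D (V 0) ≤ Real.circleAverage (fun w => D (∑ i, ρ i w • β i)) 0 1 + ε := by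
  set b : ℂ → M → ℝ := fun w => ∑ i, ρ i w • β i with hbd
  have hb : ∀ w, PP H (b w) ∧ b w ≤ 0 := fun w =>
    (convex_Q H).sum_mem (fun i _ => hρ0 i w) (hρ1 w) fun i _ => hβ i
  have hba : ∀ w x, b w x = ∑ i, ρ i w * β i x := fun w x => by simp [hbd, Finset.sum_apply]
  choose Ti hTi0 hTi using fun i => exists_lb (hβ i).1
  set T := ∑ i, Ti i with hTd
  have hT0 : 0 ≤ T := Finset.sum_nonneg fun i _ => hTi0 i
  have hT1 : ∀ i x, -T ≤ β i x := fun i x => (neg_le_neg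
    (Finset.single_le_sum (fun i _ => hTi0 i) (Finset.mem_univ i))).trans (hTi i x)
  have hT : ∀ w x, -T ≤ b w x := fun w x => by
    rw [hba, ← one_mul (-T), ← hρ1 w, Finset.sum_mul]
    exact Finset.sum_le_sum fun i _ => mul_le_mul_of_nonneg_left (hT1 i x) (hρ0 i w)
  have hK : IsCompact (⋃ i, tsupport (β i)) := isCompact_iUnion fun i => (hβ i).1.cpt
  have hb0 : ∀ w, ∀ x ∉ ⋃ i, tsupport (β i), b w x = 0 := fun w x hx => by
    rw [hba]
    exact Finset.sum_eq_zero fun i _ => by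
      rw [image_eq_zero_of_notMem_tsupport fun h => hx (mem_iUnion.2 ⟨i, h⟩), mul_zero]
  set F : ℂ → ι → ℝ := fun w i => ρ i w with hF
  have hFc : Continuous F := continuous_pi hρ
  have hbF : ∀ w w' x, b w x ≤ b w' x + T * dist (F w) (F w') := fun w w' x => by
    rw [hba, hba, hTd, Finset.sum_mul, ← Finset.sum_add_distrib]
    refine Finset.sum_le_sum fun i _ => ?_
    have h1 := abs_le.1 (Real.dist_eq _ _ ▸ dist_le_pi_dist (F w) (F w') i)
    have h2 := hTi i x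
    have h3 : β i x ≤ 0 := (hβ i).2 x
    have h4 := dist_nonneg (x := F w) (y := F w')
    simp only [hF] at h1 h4 ⊢
    nlinarith [h1.1]
  obtain ⟨γ₁, hγ₁, hγK⟩ := bfun _ hK (2 * T)
  obtain ⟨T₁, hT₁0, hT₁⟩ := exists_lb hγ₁.1
  have hK' := hK.union hγ₁.1.cpt
  obtain ⟨C, hC, hl⟩ := lip _ hK' (T + T₁)
  have hbK : ∀ w, ∀ x ∉ (⋃ i, tsupport (β i)) ∪ tsupport γ₁, b w x = 0 := fun w x hx =>
    hb0 w x fun h => hx (Or.inl h)
  have hbT : ∀ w x, -(T + T₁) ≤ b w x := fun w x => by linarith [hT w x]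
  have hDc : Continuous fun w => D (b w) := by
    refine continuous_iff_continuousAt.2 fun w => tendsto_iff_dist_tendsto_zero.2 ?_
    have h1 : Tendsto (fun w' => C * (T * dist (F w') (F w))) (𝓝 w) (𝓝 0) :=
      (by fun_prop : Continuous fun w' => C * (T * dist (F w') (F w))).tendsto' w 0 (by simp)
    refine squeeze_zero (fun _ => dist_nonneg) (fun w' => ?_) h1
    have h2 := hl _ (hb w) _ (hb w') (hbK w) (hbK w') (hbT w) (hbT w') _ (by positivity) (hbF w' w)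
    have h3 := hl _ (hb w') _ (hb w) (hbK w') (hbK w) (hbT w') (hbT w) _ (by positivity) (hbF w w')
    rw [dist_comm (F w)] at h3
    rw [Real.dist_eq, abs_le]
    constructor <;> linarith
  obtain ⟨η, hη, hηε⟩ : ∃ η : ℝ, 0 < η ∧ C * (6 * η) ≤ ε := ⟨ε / (6 * (C + 1)), by positivity, by
    rw [show C * (6 * (ε / (6 * (C + 1)))) = C * ε / (C + 1) by field_simp,
      div_le_iff₀ (by positivity)]
    nlinarith⟩
  obtain ⟨θ, hθ, hθ1, hθη⟩ := exists_near_one hT0 hη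
  have hθ0 : 0 ≤ θ := by linarith
  have hγ := hγ₁.1.qp.smul hθ0
  have hγ0 : ∀ x, θ * γ₁ x ≤ 0 := fun x => mul_nonpos_of_nonneg_of_nonpos hθ0 (hγ₁.2 x)
  have hγT : ∀ x, -T₁ ≤ θ * γ₁ x := fun x => by
    have h1 : γ₁ x ≤ 0 := hγ₁.2 x
    nlinarith [hT₁ x]
  have hγb : ∀ w x, θ * γ₁ x ≤ b w x := fun w x => by
    by_cases hx : x ∈ ⋃ i, tsupport (β i)
    · nlinarith [hγK x hx, hT w x]
    · rw [hb0 w x hx]; exact hγ0 x
  have hγK' : ∀ x ∉ (⋃ i, tsupport (β i)) ∪ tsupport γ₁, θ * γ₁ x = 0 := fun x hx => by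
    rw [image_eq_zero_of_notMem_tsupport fun h => hx (Or.inr h), mul_zero]
  obtain ⟨φ, s, h1, hs, hs1, h2, h3, h4, h5⟩ := exists_barrier hb hT0 hT (fun η hη => by
    obtain ⟨δ, hδ, h⟩ := Metric.uniformContinuousOn_iff.1
      ((isCompact_sphere (0 : ℂ) 1).uniformContinuousOn_of_continuous hFc.continuousOn)
      (η / (T + 1)) (by positivity)
    refine ⟨δ, hδ, fun w w' hw hw' hd x => (hbF w w' x).trans ?_⟩
    have h6 := (h w (by simpa using hw) w' (by simpa using hw') (by rwa [dist_eq_norm])).le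
    rw [le_div_iff₀ (by positivity)] at h6
    linarith [dist_nonneg (x := F w) (y := F w')]) hθ0 hθ1.le hη hθη hγ hγb
  obtain ⟨L, hL, hLT⟩ : ∃ L : ℝ, 0 ≤ L ∧ L * (1 - (1 + s) / 2) = T₁ :=
    ⟨T₁ / (1 - (1 + s) / 2), div_nonneg hT₁0 (by linarith), div_mul_cancel₀ _ (by linarith)⟩
  have hφc : Continuous fun p : ℂ × M => φ p.1 p.2 := by
    have := h1.cont
    rwa [univ_prod_univ, continuousOn_univ] at this
  have hv0 : ∀ t x, ‖t‖ ≤ 1 → max (φ t x) (min 0 (φ t x + L * (1 - ‖t‖))) ≤ 0 := fun t x ht =>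
    max_le (h3 t x ht) (min_le_left _ _)
  obtain ⟨U, h6, h7, h8⟩ := core η hη θ hθ0 hθ1 φ
    (fun t x => max (φ t x) (min 0 (φ t x + L * (1 - ‖t‖)))) h1 (by fun_prop)
    (fun t x => le_max_left _ _) _ hK' (fun t x h => max_eq_left (by
      rcases le_or_gt ‖t‖ 1 with ht | ht
      · have h9 := h2 t x
        rw [hγK' x (h.resolve_left ht.not_gt)] at h9
        exact (min_le_left _ _).trans h9
      · exact (min_le_right _ _).trans (by nlinarith))) ((1 + s) / 2) (by linarith)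
    fun t x ht => le_antisymm (hv0 t x (by linarith)) (le_max_of_le_right (le_min le_rfl (by
      have h9 : L * (1 - (1 + s) / 2) ≤ L * (1 - ‖t‖) := by gcongr
      linarith [h2 t x, hγT x])))
  have hm : ∀ {t : ℂ}, ‖t‖ ≤ 1 → t ∈ ball (0 : ℂ) 2 := fun ht => mem_ball_zero_iff.2 (by linarith)
  have hU0 : ∀ t x, ‖t‖ ≤ 1 → U t x ≤ 0 := fun t x ht => (h7 t (hm ht) x).2.trans (hv0 t x ht)
  have hUγ : ∀ t x, ‖t‖ ≤ 1 → θ * γ₁ x ≤ U t x := fun t x ht => (h2 t x).trans (h7 t (hm ht) x).1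
  have key : ∀ f : M → ℝ, QP H univ f → (∀ x, f x ≤ 0) → (∀ x, θ * γ₁ x ≤ f x) →
      (PP H f ∧ f ≤ 0) ∧ (∀ x ∉ (⋃ i, tsupport (β i)) ∪ tsupport γ₁, f x = 0) ∧
        ∀ x, -(T + T₁) ≤ f x := fun f a1 a2 a3 => by
    have a4 : ∀ x ∉ (⋃ i, tsupport (β i)) ∪ tsupport γ₁, f x = 0 := fun x hx =>
      le_antisymm (a2 x) (hγK' x hx ▸ a3 x)
    exact ⟨⟨⟨a1, HasCompactSupport.intro hK' a4⟩, a2⟩, a4, fun x => by linarith [a3 x, hγT x]⟩
  have hV := h6.shift.max ((JQ.of_qp' (hγ.of_sc hH hθ1.le)).mono isOpen_ball (subset_univ _))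
  have kV := fun t (ht : ‖t‖ ≤ 1) => key _ (hV.slice (hm ht)) (fun x => max_le (by
    have h9 : ‖t‖ ^ 2 ≤ 1 := pow_le_one₀ (norm_nonneg _) ht
    nlinarith [hU0 t x ht]) (hγ0 x)) fun x => le_max_right _ _
  have kU := fun t (ht : ‖t‖ ≤ 1) => key _ (h6.slice (hm ht)) (fun x => hU0 t x ht)
    fun x => hUγ t x ht
  refine ⟨_, hV, ⟨_, hK', fun w hw => (kV w hw).2.1⟩, fun w hw => (kV w hw).1,
    fun w hw x => max_le ?_ (hγb w x), ?_⟩
  · have h9 := (h7 w (hm hw.le) x).2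
    rw [hw] at h9 ⊢
    simp only [sub_self, mul_zero, add_zero, one_pow] at h9 ⊢
    exact h9.trans (max_le (h4 w x hw) ((min_le_right _ _).trans (h4 w x hw)))
  · have a0 := kV 0 (by simp)
    have a1 := kU 0 (by simp)
    have h9 := hl _ a0.1 _ a1.1 a0.2.1 a1.2.1 a0.2.2 a1.2.2 η hη.le fun x => by
      have := le_max_left (U 0 x + η * (‖(0 : ℂ)‖ ^ 2 - 1)) (θ * γ₁ x)
      simp only [norm_zero] at this ⊢
      linarith
    have h10 := h8 s hs (by linarith) (fun w => D (b w) + C * (5 * η)) (hDc.add continuous_const)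
      fun w hw => by
        have a2 : ‖(s : ℂ) * w‖ ≤ 1 := by
          rw [norm_mul, hw, mul_one, norm_real, Real.norm_of_nonneg hs.le]; exact hs1.le
        have a3 := kU _ a2
        exact hl _ a3.1 _ (hb w) a3.2.1 (hbK w) a3.2.2 (hbT w) _ (by positivity) fun x => by
          linarith [h5 w x hw, (h7 _ (hm a2) x).1]
    rw [Real.circleAverage_fun_add (hDc.continuousOn.circleIntegrable')
      (circleIntegrable_const _ _ _), Real.circleAverage_const] at h10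
    linarith

end

end Crest.Agent.X261.BT.DiscX
end

-- ▼ part X261/BT/DiscX2
section

/-!
# X261, BT (helper19), DISC (ii), part 2: the envelope on `ℂ × M`

* `Fib H E` : the consequence of the fibre formula which is used;
* `core_of`, `jex_of` : `Fib` gives `Core` and the `ε`-Perron family.
-/

set_option autoImplicit false
set_option linter.unusedSectionVars false

open Set Filter Topology Metric Complex MeasureTheory

namespace Crest.Agent.X261.BT.DiscX

open Crest.Agent.R275.Geo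
open Crest.Agent.R281.Kp_487 (KP pot)
open Crest.Agent.R281.Rich_710 (PshL dav)

noncomputable section

variable {n : ℕ} {M : Type} [TopologicalSpace M] {A : Atl n M} {H : KP A}

theorem JQ.qp {e : ℝ} {O : Set ℂ} {Φ : ℂ → M → ℝ} (h : JQ H e O Φ) :
    QP (pbd e H) (O ×ˢ univ) fun p => Φ p.1 p.2 :=
  QP.of_jpsh (h.op.prod isOpen_univ) h.cont fun i => by rw [prU_prod]; exact h.psh i

theorem JQ.of_pbd {e : ℝ} {O : Set ℂ} (hO : IsOpen O) {F : ℂ × M → ℝ}
    (h : QP (pbd e H) (O ×ˢ univ) F) : JQ H e O fun t x => F (t, x) :=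
  ⟨hO, h.cont, fun i => by rw [← prU_prod]; exact h.jpsh i⟩

variable [T2Space M] [MeasurableSpace M] [BorelSpace M] [Countable A.ι]

/-- `-E` is subharmonic along families whose measure is below the measure of `0` -/
def Fib (H : KP A) (E : (M → ℝ) → ℝ) : Prop :=
  ∀ d > (0 : ℝ), ∀ (D : Set ℂ) (K : Set M) (b : ℂ × M → ℝ), IsOpen D → IsCompact K →
    QP (pbd d H) (D ×ˢ univ) b → (∀ t ∈ D, ∀ x ∉ K, b (t, x) = 0) →
    MAo (pbd d H) (D ×ˢ univ) b ≤ MAo (pbd d H) (D ×ˢ univ) (fun _ => 0) →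
    ContinuousOn (fun t => -E fun x => b (t, x)) D ∧ PshL D fun t => -E fun x => b (t, x)

theorem core_of (hH : H.Pos) {E : (M → ℝ) → ℝ} (fib : Fib H E) : Core H fun f => -E f := by
  intro e he θ hθ hθ1 φ v hφ hv hle K hK hoff r hr h0
  have hP := pbd_pos he hH
  have h1 : QP (sc θ (pbd e H)) univ fun p : ℂ × M => φ p.1 p.2 := by
    have h2 := hφ.qp.le_pbd (mul_nonneg hθ he.le)
    rw [univ_prod_univ] at h2
    exact h2.of_wt (sc_pbd θ e H)
  have hO : Obs (pbd e H) fun p : ℂ × M => v p.1 p.2 :=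
    ⟨hv, θ, hθ, hθ1, _, h1, fun p => hle p.1 p.2,
      CE.of_cpt ((isCompact_closedBall (0 : ℂ) 1).prod hK) fun p hp => (hoff p.1 p.2 (by
        by_contra h2
        rw [not_or, not_lt, not_not] at h2
        exact hp ⟨mem_closedBall_zero_iff.2 h2.1, h2.2⟩)).symm⟩
  have hQ := hO.qp hP
  have hS := pos_semi hP
  have h2 : ∀ p : ℂ × M, φ p.1 p.2 ≤ env (pbd e H) (fun p => v p.1 p.2) p :=
    le_env (h1.of_sc hS hθ1.le) fun p => hle p.1 p.2
  have h3 := hO.env_le hS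
  have ho : ∀ s, IsOpen (ball (0 : ℂ) s ×ˢ (univ : Set M)) := fun s => isOpen_ball.prod isOpen_univ
  refine ⟨fun t x => env (pbd e H) (fun p => v p.1 p.2) (t, x),
    JQ.of_pbd isOpen_ball (hQ.mono (ho 2) (subset_univ _)), fun t _ x => ⟨h2 (t, x), h3 (t, x)⟩,
    fun s hs hsr g hg hD => ?_⟩
  have h4 : ∀ p ∈ ball (0 : ℂ) r ×ˢ (univ : Set M), v p.1 p.2 = 0 := fun p hp =>
    h0 p.1 p.2 (mem_ball_zero_iff.1 hp.1)
  have h5 := MA_env_le hP hO (QP.const hS (ho r) 0) (fun p hp => (h4 p hp).le)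
    (ho r).measurableSet Subset.rfl fun p hp => (h4 p hp).ge
  rw [MA, MAo, MX_restrict isOpen_univ (fun _ => hQ) (ho r) (subset_univ _) fun _ _ _ => rfl] at h5
  obtain ⟨h6, h7⟩ := fib e he _ K _ isOpen_ball hK (hQ.mono (ho r) (subset_univ _))
    (fun t ht x hx => by
      have a1 := h4 (t, x) ⟨ht, mem_univ _⟩
      have a2 := hoff t x (Or.inr hx)
      exact le_antisymm ((h3 (t, x)).trans a1.le) ((a1.symm.trans a2).le.trans (h2 (t, x))))
    (h5.trans Measure.restrict_le_self)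
  have hI : PL.In (ball (0 : ℂ) r) 0 (s : ℂ) := fun w hw => by
    rw [zero_add, mem_ball_zero_iff, norm_smul, norm_real, Real.norm_of_nonneg hs.le]
    exact (mul_le_of_le_one_left hs.le hw).trans_lt hsr
  refine (PL.le_dav isOpen_ball h6 h7 hI).trans (Real.circleAverage_mono (PL.circ h6 hI)
    hg.continuousOn.circleIntegrable' fun w hw => ?_)
  have h8 := hD w (by simpa using hw)
  rwa [zero_add, smul_eq_mul, mul_comm]

/-- **DISC (ii)** in the form of the field `J_ex` -/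
theorem jex_of (hH : H.Pos) {E : (M → ℝ) → ℝ} (fib : Fib H E)
    (lip : ∀ K : Set M, IsCompact K → ∀ T : ℝ, ∃ C : ℝ, 0 ≤ C ∧ ∀ f, PP H f ∧ f ≤ 0 →
      ∀ g, PP H g ∧ g ≤ 0 → (∀ x ∉ K, f x = 0) → (∀ x ∉ K, g x = 0) → (∀ x, -T ≤ f x) →
      (∀ x, -T ≤ g x) → ∀ ε : ℝ, 0 ≤ ε → (∀ x, g x ≤ f x + ε) → -E f ≤ -E g + C * ε)
    (bfun : ∀ K : Set M, IsCompact K → ∀ T : ℝ, ∃ b, (PP H b ∧ b ≤ 0) ∧ ∀ x ∈ K, b x ≤ -T)
    (ι : Type) [Fintype ι] (β : ι → M → ℝ) (ρ : ι → ℂ → ℝ) (hβ : ∀ i, PP H (β i) ∧ β i ≤ 0)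
    (hρ : ∀ i, Continuous (ρ i)) (hρ0 : ∀ i w, 0 ≤ ρ i w) (hρ1 : ∀ w, ∑ i, ρ i w = 1)
    (ε : ℝ) (hε : 0 < ε) :
    ∃ V, JC H V ∧ (∀ w : ℂ, ‖w‖ = 1 → V w ≤ ∑ i, ρ i w • β i) ∧
      -E (V 0) ≤ Real.circleAverage (fun w => -E (∑ i, ρ i w • β i)) 0 1 + ε := by
  obtain ⟨V, h1, ⟨K, hK, h2⟩, h3, h4, h5⟩ := exists_perron (pos_semi hH) (core_of hH fib) lip bfun
    ι β ρ hβ hρ hρ0 hρ1 ε hε
  refine ⟨V, ⟨(h1.mono isOpen_ball (ball_subset_ball one_le_two)).jp hK
    fun t ht => h2 t (mem_ball_zero_iff.1 ht).le,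
    h1.cont.mono (prod_mono (closedBall_subset_ball one_lt_two) Subset.rfl), h3⟩, h4, h5⟩

end

end Crest.Agent.X261.BT.DiscX
end

-- ▼ part X261/BT/Inst

/-!
# X261 / BT (helper21): the energy lattice of a Kaehler manifold with slow cut-off functions

`QQ H` (continuous `ω`-psh, compact support, `≤ 0`), `xiM H f` (swept mass), `lsOf : Pole.LS M`,
`msOf : Two.MS _`, `dsOf : Two.DS M`.
-/

set_option autoImplicit false
set_option linter.unusedSectionVars false

open Set Filter Topology MeasureTheory Metric Function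

namespace Crest.Agent.X261.BT

open Crest.Agent.R275.Geo
open Crest.Agent.R281.Kp_487 (KP pot)

noncomputable section

variable {n : ℕ} {M : Type} [TopologicalSpace M] {A : Atl n M}

/-- continuous `ω`-psh functions `≤ 0` with compact support -/
def QQ (H : KP A) : Set (M → ℝ) := {f | PP H f ∧ f ≤ 0}

variable [MeasurableSpace M] [BorelSpace M] [Countable A.ι] [T2Space M]

/-- the swept mass `MA 0 - 1_{f = 0} MA f` -/
def xiM (H : KP A) (f : M → ℝ) : Measure M := Sup.xi (MA H) 0 f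

variable {H : KP A} {a b c f g : M → ℝ} {s : ℝ} {K : Set M}

theorem tbI (hH : H.Pos) : Sup.Tb (QP H univ) (Obs H) (env H) (MA H) (Er H) := tb hH


namespace QQ

theorem pp (h : a ∈ QQ H) : PP H a := h.1

theorem qp (h : a ∈ QQ H) : QP H univ a := h.1.qp

theorem le (h : a ∈ QQ H) (x : M) : a x ≤ 0 := h.2 x

theorem cont (h : a ∈ QQ H) : Continuous a := h.1.qp.continuous

theorem ce (h : a ∈ QQ H) : Sup.ce a 0 := ce_iff.2 h.1.ce0

theorem zero (hH : H.Semipos) : (0 : M → ℝ) ∈ QQ H := ⟨PP.zero hH, le_rfl⟩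

theorem convex (H : KP A) : Convex ℝ (QQ H) := DiscX.convex_Q H

theorem maxs (ha : a ∈ QQ H) (hb : b ∈ QQ H) (hs : 0 ≤ s) : (b ⊔ fun x => a x - s) ∈ QQ H :=
  ⟨ha.1.maxs hb.1 hs, fun x => max_le (hb.2 x) ((sub_le_self _ hs).trans (ha.2 x))⟩

theorem sup (ha : a ∈ QQ H) (hb : b ∈ QQ H) : a ⊔ b ∈ QQ H :=
  ⟨ha.1.max hb.1, sup_le ha.2 hb.2⟩

theorem tr (hH : H.Semipos) (ha : a ∈ QQ H) (hs : 0 ≤ s) : (a ⊔ fun _ => -s) ∈ QQ H := by
  simpa using maxs (zero hH) ha hs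

theorem of_le (hf : QP H univ f) (ha : a ∈ QQ H) (h : ∀ x, a x ≤ f x) (h0 : ∀ x, f x ≤ 0) :
    f ∈ QQ H := ⟨⟨hf, CE.zero_iff.1 (ha.1.ce.of_le h h0)⟩, h0⟩

theorem iso {γ : M ≃ₜ M} (hγ : Iso H γ) (ha : a ∈ QQ H) : (fun x => a (γ x)) ∈ QQ H :=
  ⟨hγ.pp ha.1, fun x => ha.2 (γ x)⟩

theorem lip (hH : H.Pos) (K : Set M) (hK : IsCompact K) (_T : ℝ) : ∃ C : ℝ, 0 ≤ C ∧
    ∀ f ∈ QQ H, ∀ g ∈ QQ H, (∀ x ∉ K, f x = 0) → (∀ x ∉ K, g x = 0) → (∀ x, -_T ≤ f x) →
      (∀ x, -_T ≤ g x) → ∀ ε : ℝ, 0 ≤ ε → (∀ x, g x ≤ f x + ε) → -En H f ≤ -En H g + C * ε :=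
  ⟨(MA H 0).real K, measureReal_nonneg, fun f hf g hg h1 h2 _ _ ε _ h3 => by
    linarith [En_lip hH hg.1 hf.1 hK h2 h1 fun x _ => h3 x]⟩

theorem bfun (hH : H.Semipos) (hS : Slow H) (K : Set M) (hK : IsCompact K) (T : ℝ) :
    ∃ b ∈ QQ H, ∀ x ∈ K, b x ≤ -T := by
  obtain ⟨η, -, h2, h3, h4, h5⟩ := hS.well hK (le_max_right T 0) one_pos
  refine ⟨_, ⟨⟨h5.of_sc hH le_rfl, h2.mul_left⟩, fun x => ?_⟩, fun x hx => ?_⟩
  · exact mul_nonpos_of_nonpos_of_nonneg (neg_nonpos.2 (le_max_right T 0)) (h3 x).1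
  · rw [h4 x hx, mul_one]
    exact neg_le_neg (le_max_left _ _)

theorem cpt_min (ha : a ∈ QQ H) (hb : b ∈ QQ H) (hs : 0 ≤ s) :
    HasCompactSupport fun x => min (a x) (b x + s) := by
  obtain ⟨K, hK, h1⟩ := ha.1.exists_cpt
  obtain ⟨L, hL, h2⟩ := hb.1.exists_cpt
  refine HasCompactSupport.intro (hK.union hL) fun x hx => ?_
  rw [h1 x fun h => hx (Or.inl h), h2 x fun h => hx (Or.inr h), zero_add]
  exact min_eq_left hs

variable (hH : H.Pos) (hS : Slow H)
include hH hS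

theorem obs (ha : a ∈ QQ H) (hb : b ∈ QQ H) (hs : 0 ≤ s) : Obs H fun x => min (a x) (b x + s) :=
  hS.obs0 (pos_semi hH) ((cont ha).min ((cont hb).add continuous_const)) (cpt_min ha hb hs)


theorem P_le (ha : a ∈ QQ H) (hb : b ∈ QQ H) (hs : 0 ≤ s) : PE H a b s ≤ a := fun x =>
  ((obs hH hS ha hb hs).env_le (pos_semi hH) x).trans (min_le_left _ _)

theorem P_le' (ha : a ∈ QQ H) (hb : b ∈ QQ H) (hs : 0 ≤ s) (x : M) : PE H a b s x ≤ b x + s :=
  ((obs hH hS ha hb hs).env_le (pos_semi hH) x).trans (min_le_right _ _)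

theorem P_mem (ha : a ∈ QQ H) (hb : b ∈ QQ H) (hs : 0 ≤ s) : PE H a b s ∈ QQ H :=
  ⟨hS.pp_env hH (obs hH hS ha hb hs).cont (cpt_min ha hb hs), (P_le hH hS ha hb hs).trans ha.2⟩

omit hH hS in
theorem le_P (hf : QP H univ f) (h1 : f ≤ a) (h2 : ∀ x, f x ≤ b x + s) : f ≤ PE H a b s :=
  le_env hf fun x => le_min (h1 x) (h2 x)


theorem s3 (ha : a ∈ QQ H) (hb : b ∈ QQ H) (hs : 0 ≤ s) :
    -En H (b ⊔ fun x => a x - s) + -En H (PE H a b s) ≤ -En H a + -En H b := by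
  have hm := maxs ha hb hs
  have h1 := (tbI hH).supmod ha.1.qp hb.1.qp s ((ce hm).trans (ce hb).symm) (obs hH hS ha hb hs)
  have h2 := En_sub hH ha.1 (P_mem hH hS ha hb hs).1
  have h3 := En_sub hH hm.1 hb.1
  have h4 : Er H a (PE H a b s) ≤ Er H (b ⊔ fun x => a x - s) b := h1
  linarith

omit hS in
theorem cvx : ConvexOn ℝ (QQ H) fun f => -En H f :=
  ⟨convex H, fun a ha b hb s t hs ht hst => by
    have h1 : s * En H a + t * En H b ≤ En H (s • a + t • b) := En_concave hH ha.1 hb.1 hs ht hst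
    simp only [smul_eq_mul]
    linarith⟩

omit hS in
theorem xi_fin (ha : a ∈ QQ H) : IsFiniteMeasure (xiM H a) :=
  (tbI hH).xi_fin (qp_zero (pos_semi hH)) ha.1.qp ha.2 (ce ha)

omit hS in
theorem xi_anti (ha : a ∈ QQ H) (hb : b ∈ QQ H) (h : a ≤ b) : xiM H b ≤ xiM H a :=
  (tbI hH).xi_anti ha.1.qp hb.1.qp h hb.2 continuous_const




omit hS in
theorem xi_zero : xiM H 0 = 0 := (tbI hH).xi_self (qp_zero (pos_semi hH))

omit hS in
theorem xi_off (ha : a ∈ QQ H) (hK : IsClosed K) (h : ∀ x ∉ K, a x = 0) :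
    (xiM H a).restrict Kᶜ = 0 := (tbI hH).xi_off (qp_zero (pos_semi hH)) ha.1.qp hK h

omit hH hS in
theorem MA_iso' {γ : M ≃ₜ M} (hγ : Iso H γ) (ha : QP H univ a) :
    (MA H fun x => a (γ x)) = (MA H a).map γ.symm := by
  rw [← MA_iso hγ ha, Measure.map_map γ.symm.continuous.measurable γ.continuous.measurable]
  simp

omit hS in
theorem xi_iso {γ : M ≃ₜ M} (hγ : Iso H γ) (ha : a ∈ QQ H) :
    xiM H (fun x => a (γ x)) = (xiM H a).map γ.symm :=
  Sup.Tb.xi_map (μ := MA H) (o := 0) γ (MA_iso' hγ (qp_zero (pos_semi hH))) (MA_iso' hγ ha.1.qp)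

/-- (K5) -/
theorem k5 (ha : a ∈ QQ H) (hs : 0 ≤ s) :
    -En H a - -En H (PE H 0 a s) ≤ s * (xiM H a).real univ := by
  have h0 := zero (pos_semi hH)
  have hP := P_mem hH hS h0 ha hs
  have h1 := (tbI hH).k5 h0.1.qp ha.1.qp hP.1.qp ha.2 hP.2 (ce ha) (ce hP) (P_le' hH hS h0 ha hs)
  have h2 := En_sub hH hP.1 ha.1
  unfold xiM
  linarith

/-- (K1) -/
theorem k1 (ha : a ∈ QQ H) (hb : b ∈ QQ H) (hs : 0 ≤ s) :
    s * ((xiM H (PE H b a s)).real univ - (xiM H b).real univ) ≤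
      -En H (PE H b a 0) - -En H (PE H b a s) := by
  have h0 := zero (pos_semi hH)
  have hW := P_mem hH hS hb ha le_rfl
  have h1 := (tbI hH).k1 h0.1.qp hb.1.qp hb.2 (ce hb) hW.1.qp ((ce hW).trans (ce hb).symm)
    (P_le hH hS hb ha le_rfl) hs (g := fun x => a x + s)
    (fun x => by linarith [P_le' hH hS hb ha le_rfl x]) (obs hH hS hb ha hs)
  have h2 := En_sub hH (P_mem hH hS hb ha hs).1 hW.1
  have h3 : s * ((xiM H (PE H b a s)).real univ - (xiM H b).real univ) ≤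
    Er H (PE H b a s) (PE H b a 0) := h1
  linarith

end QQ

/-- the energy lattice -/
def lsOf (hH : H.Pos) (hS : Slow H) : Pole.LS M where
  Q := QQ H
  D f := -En H f
  P := PE H
  zero_mem := QQ.zero (pos_semi hH)
  D_zero := by rw [En_zero, neg_zero]
  nonpos _ h := h.2
  anti _ ha _ hb h := neg_le_neg (En_mono hH ha.1 hb.1 h)
  maxs_mem _ ha _ hb _ hs := QQ.maxs ha hb hs
  P_mem _ ha _ hb _ hs := QQ.P_mem hH hS ha hb hs
  P_le _ ha _ hb _ hs := QQ.P_le hH hS ha hb hs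
  P_le' _ ha _ hb _ hs := QQ.P_le' hH hS ha hb hs
  le_P _ _ _ _ _ _ _ hf := QQ.le_P hf.1.qp
  s3 _ ha _ hb _ hs := QQ.s3 hH hS ha hb hs
  cvx := QQ.cvx hH

/-- the swept measures -/
def msOf (hH : H.Pos) (hS : Slow H) : Two.MS (lsOf hH hS) where
  xi := xiM H
  xi_fin _ h := QQ.xi_fin hH h
  xi_anti _ ha _ hb h := QQ.xi_anti hH ha hb h
  k5 _ ha _ hs := QQ.k5 hH hS ha hs
  k1 _ ha _ hb _ hs := QQ.k1 hH hS ha hb hs
  xi_zero := by rw [QQ.xi_zero hH]; rfl

/-- the facts on discs which are proved in `BT/Disc*` -/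
structure Dsc (H : KP A) : Prop where
  fib : DiscX.Fib H (En H)
  sups : ∀ V W, JC H V → JC H W → ∀ α β : ℂ, (∀ w : ℂ, ‖w‖ ≤ 1 → 0 ≤ (α + w * β).re) →
    JC H fun w => V w ⊔ fun x => W w x - (α + w * β).re
  mp : ∀ V, JC H V → ∀ (x : M) (c : ℝ), (∀ w : ℂ, ‖w‖ = 1 → V w x ≤ c) → V 0 x ≤ c
  sub : ∀ V, JC H V → ∀ g : ℂ → ℝ, Continuous g → (∀ w : ℂ, ‖w‖ = 1 → En H (V w) ≤ g w) →
    En H (V 0) ≤ Real.circleAverage g 0 1

theorem JC.zero (hH : H.Semipos) : JC H fun _ => 0 :=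
  ⟨((DiscX.JQ.of_qp' (qp_zero hH)).mono isOpen_ball (subset_univ _)).jp isCompact_empty
    fun _ _ _ _ => rfl, continuousOn_const, fun _ _ => QQ.zero hH⟩

/-- the energy calculus with discs -/
def dsOf (hH : H.Pos) (hS : Slow H) (hD : Dsc H) : Two.DS M where
  Q := QQ H
  D f := -En H f
  JP := JC H
  zero_mem := QQ.zero (pos_semi hH)
  D_zero := by rw [En_zero, neg_zero]
  convex := QQ.convex H
  cont _ h := QQ.cont h
  nonpos _ h := h.2
  cpt _ h := h.1.cpt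
  sup_mem _ ha _ hb := QQ.sup ha hb
  tr_mem _ ha _ hs := QQ.tr (pos_semi hH) ha hs
  maxs_mem _ ha _ hb _ hs := QQ.maxs ha hb hs
  anti _ ha _ hb h := neg_le_neg (En_mono hH ha.1 hb.1 h)
  lip := QQ.lip hH
  bfun := QQ.bfun (pos_semi hH) hS
  J_mem _ h := h.mem
  J_sup V W hV hW := by simpa using hD.sups V W hV hW 0 0 (by simp)
  J_tr V hV α β h := by simpa using hD.sups V _ hV (JC.zero (pos_semi hH)) α β h
  J_sups := hD.sups
  J_mp := hD.mp
  J_sub V hV g hg h := by simpa using hD.sub V hV g hg (by simpa using h)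
  J_ex := DiscX.jex_of hH hD.fib (QQ.lip hH) (QQ.bfun (pos_semi hH) hS)

end

end Crest.Agent.X261.BT
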