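import Crest.Agent.R273.HessB_333
import Mathlib.Analysis.Matrix.Order
import Mathlib.Analysis.Calculus.LineDeriv.IntegrationByParts
import Mathlib.MeasureTheory.Measure.Haar.InnerProductSpace

/-!
# X261, BT (helper9), part A: mixed determinants and integration by parts on `Cn n`

* `md G`  : `∑_(s,t) sgn s sgn t ∏ k, G k (s k) (t k)`; multilinear, symmetric, `≥ 0` on psd matrices;
* `mh u z` : the mixed determinant of the complex Hessians of `u 0, …, u (n-1)`;
* `stokes`, `stokes_grad`, `stokes_neg` : integration by parts.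
-/

set_option autoImplicit false
set_option linter.unusedSectionVars false

open Set Filter Topology Complex MeasureTheory Equiv Function
open scoped ContDiff Matrix ComplexConjugate ComplexOrder MatrixOrder

namespace Crest.Agent.X261.BT

open Crest.Agent.R275.Geo Crest.Agent.R275.EDR890
open Crest.Agent.R273.Hess_333 Crest.Agent.R273.HessB_333

noncomputable section

variable {n : ℕ}

/-- square complex matrices -/
abbrev MC (n : ℕ) : Type := Matrix (Fin n) (Fin n) ℂ

/-- the sign as a complex number -/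
def sgn (s : Perm (Fin n)) : ℂ := ((Perm.sign s : ℤ) : ℂ)

theorem sgn_mul (s t : Perm (Fin n)) : sgn (s * t) = sgn s * sgn t := by simp [sgn]

theorem sgn_sq (s : Perm (Fin n)) : sgn s * sgn s = 1 := by
  unfold sgn
  rcases Int.units_eq_one_or (Perm.sign s) with h | h <;> simp [h]

theorem sgn_swap {k l : Fin n} (h : k ≠ l) : sgn (swap k l) = -1 := by simp [sgn, h]

theorem conj_sgn (s : Perm (Fin n)) : conj (sgn s) = sgn s := by simp [sgn]

/-- the mixed determinant (`n!` times the mixed discriminant) -/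
def md (G : Fin n → MC n) : ℂ :=
  ∑ s : Perm (Fin n), ∑ t : Perm (Fin n), sgn s * sgn t * ∏ k, G k (s k) (t k)

theorem md_eq (G : Fin n → MC n) :
    md G = ∑ t : Perm (Fin n), sgn t * (Matrix.of fun a k => G k a (t k)).det := by
  unfold md
  rw [Finset.sum_comm]
  refine Finset.sum_congr rfl fun t _ => ?_
  rw [Matrix.det_apply', Finset.mul_sum]
  refine Finset.sum_congr rfl fun s _ => ?_
  simp only [Matrix.of_apply, sgn]
  ring

theorem md_transpose (G : Fin n → MC n) : md (fun k => (G k)ᵀ) = md G := by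
  unfold md
  rw [Finset.sum_comm]
  simp only [Matrix.transpose_apply, mul_comm]

theorem md_mul_left (P : MC n) (G : Fin n → MC n) : md (fun k => P * G k) = P.det * md G := by
  rw [md_eq, md_eq, Finset.mul_sum]
  refine Finset.sum_congr rfl fun t _ => ?_
  have : (Matrix.of fun a k => (P * G k) a (t k)) = P * Matrix.of fun a k => G k a (t k) := by
    ext a k; simp [Matrix.mul_apply]
  rw [this, Matrix.det_mul]
  ring

theorem md_mul_right (G : Fin n → MC n) (Q : MC n) : md (fun k => G k * Q) = md G * Q.det := by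
  rw [← md_transpose, ← md_transpose G, ← Matrix.det_transpose, mul_comm, ← md_mul_left]
  simp only [Matrix.transpose_mul]

theorem md_same (X : MC n) : md (fun _ => X) = n.factorial * X.det := by
  rw [md_eq]
  have : ∀ t : Perm (Fin n), sgn t * (Matrix.of fun a k => X a (t k)).det = X.det := fun t => by
    have h := Matrix.det_permute' t X
    change (Matrix.of fun a k => X a (t k)).det = sgn t * X.det at h
    rw [h, ← mul_assoc, sgn_sq, one_mul]
  simp [this, Fintype.card_perm]

theorem md_perm (G : Fin n → MC n) (σ : Perm (Fin n)) : md (fun k => G (σ k)) = md G := by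
  unfold md
  rw [← Equiv.sum_comp (Equiv.mulRight σ)]
  refine Finset.sum_congr rfl fun s _ => ?_
  rw [← Equiv.sum_comp (Equiv.mulRight σ)]
  refine Finset.sum_congr rfl fun t _ => ?_
  simp only [Equiv.coe_mulRight, sgn_mul, Perm.mul_apply]
  rw [Equiv.prod_comp σ fun k => G k (s k) (t k)]
  linear_combination (sgn s * sgn t * ∏ k, G k (s k) (t k)) * sgn_sq σ

theorem md_update (G : Fin n → MC n) (k : Fin n) (X : MC n) :
    md (update G k X) = ∑ s : Perm (Fin n), ∑ t : Perm (Fin n), sgn s * sgn t *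
      (X (s k) (t k) * ∏ l ∈ Finset.univ.erase k, G l (s l) (t l)) := by
  unfold md
  refine Finset.sum_congr rfl fun s _ => Finset.sum_congr rfl fun t _ => ?_
  rw [← Finset.mul_prod_erase _ _ (Finset.mem_univ k), update_self]
  congr 2
  exact Finset.prod_congr rfl fun l hl => by rw [update_of_ne (Finset.ne_of_mem_erase hl)]

theorem md_update_add (G : Fin n → MC n) (k : Fin n) (X Y : MC n) :
    md (update G k (X + Y)) = md (update G k X) + md (update G k Y) := by
  simp only [md_update, Matrix.add_apply, add_mul, mul_add, Finset.sum_add_distrib]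

theorem md_update_smul (G : Fin n → MC n) (k : Fin n) (c : ℂ) (X : MC n) :
    md (update G k (c • X)) = c * md (update G k X) := by
  simp only [md_update, Matrix.smul_apply, smul_eq_mul, Finset.mul_sum]
  exact Finset.sum_congr rfl fun s _ => Finset.sum_congr rfl fun t _ => by ring

theorem md_update_zero (G : Fin n → MC n) (k : Fin n) : md (update G k 0) = 0 := by
  simp [md_update]

theorem md_update_sub (G : Fin n → MC n) (k : Fin n) (X Y : MC n) :
    md (update G k (X - Y)) = md (update G k X) - md (update G k Y) := by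
  simp only [md_update, Matrix.sub_apply, sub_mul, mul_sub, Finset.sum_sub_distrib]

/-- positivity -/
theorem md_nonneg {G : Fin n → MC n} (h : ∀ k, (G k).PosSemidef) : 0 ≤ md G := by
  choose B hB using fun k => CStarAlgebra.nonneg_iff_eq_star_mul_self.mp (h k).nonneg
  have e : md G = ∑ j : Fin n → Fin n, conj (∑ s : Perm (Fin n), sgn s * ∏ k, B k (j k) (s k)) *
      ∑ t : Perm (Fin n), sgn t * ∏ k, B k (j k) (t k) := by
    unfold md
    simp only [map_sum, map_mul, map_prod, conj_sgn, Finset.sum_mul_sum]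
    simp only [hB, Matrix.mul_apply, Finset.prod_univ_sum, Fintype.piFinset_univ, Finset.mul_sum]
    rw [Finset.sum_comm (s := (Finset.univ : Finset (Fin n → Fin n)))]
    refine Finset.sum_congr rfl fun s _ => ?_
    rw [Finset.sum_comm (s := (Finset.univ : Finset (Fin n → Fin n)))]
    refine Finset.sum_congr rfl fun t _ => Finset.sum_congr rfl fun j _ => ?_
    simp only [Matrix.star_apply, Finset.prod_mul_distrib, RCLike.star_def]
    ring
  rw [e]
  exact Finset.sum_nonneg fun j _ => star_mul_self_nonneg _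

theorem md_re_nonneg {G : Fin n → MC n} (h : ∀ k, (G k).PosSemidef) : 0 ≤ (md G).re :=
  (Complex.nonneg_iff.1 (md_nonneg h)).1

theorem psd_update {G : Fin n → MC n} {k : Fin n} (h : ∀ l, l ≠ k → (G l).PosSemidef) {X : MC n}
    (hX : X.PosSemidef) (l : Fin n) : (update G k X l).PosSemidef := by
  rcases eq_or_ne l k with rfl | hl
  · rwa [update_self]
  · rw [update_of_ne hl]; exact h l hl

theorem md_mono {G : Fin n → MC n} {k : Fin n} (h : ∀ l, l ≠ k → (G l).PosSemidef) {X Y : MC n}
    (hXY : (Y - X).PosSemidef) : (md (update G k X)).re ≤ (md (update G k Y)).re := by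
  have h1 := md_re_nonneg (psd_update h hXY)
  rw [md_update_sub, Complex.sub_re] at h1
  linarith

/-! ### the mixed Monge-Ampere density -/

/-- the mixed determinant of the Hessians -/
def mh (u : Fin n → Cn n → ℝ) (z : Cn n) : ℝ := (md fun k => hess (u k) z).re

theorem hess_update (u : Fin n → Cn n → ℝ) (k : Fin n) (v : Cn n → ℝ) (z : Cn n) :
    (fun l => hess (update u k v l) z) = update (fun l => hess (u l) z) k (hess v z) := by
  funext l
  rcases eq_or_ne l k with rfl | hl
  · simp only [update_self]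
  · simp only [update_of_ne hl]

theorem mh_update (u : Fin n → Cn n → ℝ) (k : Fin n) (v : Cn n → ℝ) (z : Cn n) :
    mh (update u k v) z = (md (update (fun l => hess (u l) z) k (hess v z))).re := by
  rw [mh, hess_update]

theorem mh_congr {u v : Fin n → Cn n → ℝ} {z : Cn n} (h : ∀ k, u k =ᶠ[𝓝 z] v k) :
    mh u z = mh v z := by
  unfold mh
  simp only [fun k => hess_congr (h k)]

theorem mh_perm (u : Fin n → Cn n → ℝ) (σ : Perm (Fin n)) : mh (fun k => u (σ k)) = mh u :=
  funext fun z => congrArg Complex.re (md_perm (fun k => hess (u k) z) σ)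

theorem mh_same (u : Cn n → ℝ) (z : Cn n) : mh (fun _ => u) z = n.factorial * (hess u z).det.re := by
  rw [mh, md_same, ← Complex.ofReal_natCast, Complex.re_ofReal_mul]

theorem mh_nonneg {u : Fin n → Cn n → ℝ} {z : Cn n} (h : ∀ k, (hess (u k) z).PosSemidef) :
    0 ≤ mh u z := md_re_nonneg h

section pt

variable (u : Fin n → Cn n → ℝ) (k : Fin n) {v w : Cn n → ℝ} {z : Cn n}

theorem mh_update_add (hv : ContDiffAt ℝ ∞ v z) (hw : ContDiffAt ℝ ∞ w z) :
    mh (update u k fun y => v y + w y) z = mh (update u k v) z + mh (update u k w) z := by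
  rw [mh_update, mh_update, mh_update, hess_add hv hw, md_update_add, Complex.add_re]

theorem mh_update_sub (hv : ContDiffAt ℝ ∞ v z) (hw : ContDiffAt ℝ ∞ w z) :
    mh (update u k fun y => v y - w y) z = mh (update u k v) z - mh (update u k w) z := by
  rw [mh_update, mh_update, mh_update, hess_sub hv hw, md_update_sub, Complex.sub_re]

theorem mh_update_mul (c : ℝ) (hv : ContDiffAt ℝ ∞ v z) :
    mh (update u k fun y => c * v y) z = c * mh (update u k v) z := by
  rw [mh_update, mh_update, hess_const_mul c hv, md_update_smul, Complex.re_ofReal_mul]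

theorem mh_update_of_hess (h : hess v z = 0) : mh (update u k v) z = 0 := by
  rw [mh_update, h, md_update_zero, Complex.zero_re]

theorem hess_zero_fun (z : Cn n) : hess (fun _ : Cn n => (0 : ℝ)) z = 0 := by
  have h := hess_const_mul (u := fun _ : Cn n => (0 : ℝ)) (z := z) 0 contDiffAt_const
  simpa using h

theorem mh_update_zero (h : v =ᶠ[𝓝 z] fun _ => 0) : mh (update u k v) z = 0 :=
  mh_update_of_hess u k (by rw [hess_congr h, hess_zero_fun])

theorem mh_mono (h : ∀ l, l ≠ k → (hess (u l) z).PosSemidef)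
    (hvw : (hess w z - hess v z).PosSemidef) : mh (update u k v) z ≤ mh (update u k w) z := by
  rw [mh_update, mh_update]
  exact md_mono h hvw

end pt

theorem contDiffAt_md {u : Fin n → Cn n → ℝ} {z : Cn n} (hu : ∀ k, ContDiffAt ℝ ∞ (u k) z) :
    ContDiffAt ℝ ∞ (fun y => md fun k => hess (u k) y) z := by
  unfold md
  exact ContDiffAt.sum fun s _ => ContDiffAt.sum fun t _ => contDiffAt_const.mul
    (contDiffAt_prod fun k _ => contDiffAt_hess (hu k) _ _)

theorem contDiffAt_mh {u : Fin n → Cn n → ℝ} {z : Cn n} (hu : ∀ k, ContDiffAt ℝ ∞ (u k) z) :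
    ContDiffAt ℝ ∞ (mh u) z :=
  Complex.reCLM.contDiff.contDiffAt.comp z (contDiffAt_md hu)

theorem cont_mh {u : Fin n → Cn n → ℝ} (hu : ∀ k, ContDiff ℝ ∞ (u k)) : Continuous (mh u) :=
  continuous_iff_continuousAt.2 fun _ => (contDiffAt_mh fun k => (hu k).contDiffAt).continuousAt

theorem sm_update {u : Fin n → Cn n → ℝ} (hu : ∀ k, ContDiff ℝ ∞ (u k)) (k : Fin n) {v : Cn n → ℝ}
    (hv : ContDiff ℝ ∞ v) (l : Fin n) : ContDiff ℝ ∞ (update u k v l) := by
  rcases eq_or_ne l k with rfl | hl
  · rwa [update_self]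
  · rw [update_of_ne hl]; exact hu l

/-! ### integration by parts -/

theorem sm_wd {f : Cn n → ℂ} (hf : ContDiff ℝ ∞ f) (s : WI n) : ContDiff ℝ ∞ (wd s f) :=
  contDiff_iff_contDiffAt.2 fun _ => contDiffAt_wd hf.contDiffAt s

theorem sm_cu {u : Cn n → ℝ} (hu : ContDiff ℝ ∞ u) : ContDiff ℝ ∞ (cu u) :=
  contDiff_iff_contDiffAt.2 fun _ => contDiffAt_cu hu.contDiffAt

theorem dif {f : Cn n → ℂ} (hf : ContDiff ℝ ∞ f) (z : Cn n) : DifferentiableAt ℝ f z :=
  hf.differentiable (by simp) z

theorem wd_prod {ι : Type*} [DecidableEq ι] (S : Finset ι) {f : ι → Cn n → ℂ}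
    (hf : ∀ i, ContDiff ℝ ∞ (f i)) (s : WI n) (z : Cn n) :
    wd s (fun w => ∏ i ∈ S, f i w) z = ∑ i ∈ S, wd s (f i) z * ∏ j ∈ S.erase i, f j z := by
  induction S using Finset.induction_on with
  | empty => simp [wd_const]
  | insert a S ha ih =>
    simp only [Finset.prod_insert ha, Finset.sum_insert ha, Finset.erase_insert ha]
    rw [wd_mul (dif (hf a) z) (dif (contDiff_prod fun i _ => hf i) z), ih, Finset.mul_sum]
    congr 1
    refine Finset.sum_congr rfl fun i hi => ?_
    rw [Finset.erase_insert_of_ne (by rintro rfl; exact ha hi),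
      Finset.prod_insert fun h => ha (Finset.mem_of_mem_erase h)]
    ring

theorem int_l {𝕜 : Type*} [RCLike 𝕜] {f g : Cn n → 𝕜} (hf : Continuous f) (hg : Continuous g)
    (hc : HasCompactSupport f) : Integrable fun z => f z * g z :=
  (hf.mul hg).integrable_of_hasCompactSupport hc.mul_right

theorem int_r {𝕜 : Type*} [RCLike 𝕜] {f g : Cn n → 𝕜} (hf : Continuous f) (hg : Continuous g)
    (hc : HasCompactSupport g) : Integrable fun z => f z * g z :=
  (hf.mul hg).integrable_of_hasCompactSupport hc.mul_left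

theorem supp_wd {f : Cn n → ℂ} (hc : HasCompactSupport f) (s : WI n) :
    HasCompactSupport (wd s f) :=
  (hc.fderiv ℝ).comp_left (g := wdL s) (wdL_zero s)

theorem int_wd {f : Cn n → ℂ} (hf : ContDiff ℝ ∞ f) (hc : HasCompactSupport f) (s : WI n) :
    ∫ z, wd s f z = 0 := by
  have h1 : ∀ v : Cn n, Integrable (fun z => fderiv ℝ f z v) := fun v =>
    ((hf.continuous_fderiv (by simp)).clm_apply continuous_const).integrable_of_hasCompactSupport
      (hc.fderiv_apply ℝ v)
  have h2 : ∀ v : Cn n, ∫ z, fderiv ℝ f z v = 0 := fun v => by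
    have h3 := integral_mul_fderiv_eq_neg_fderiv_mul_of_integrable (μ := volume)
      (f := fun _ : Cn n => (1 : ℂ)) (g := f) (v := v) (by simp) (by simpa using h1 v)
      (by simpa using hf.continuous.integrable_of_hasCompactSupport hc)
      (fun _ _ => differentiableAt_const _) fun x _ => dif hf x
    simpa using h3
  unfold wd wdL
  rw [integral_smul, integral_add (h1 _) (g := fun z => cI s.1 • fderiv ℝ f z _)
    ((h1 _).smul (cI s.1)),
    integral_smul, h2, h2]
  simp

/-- the cofactor product -/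
def cp (b : Bool) (k : Fin n) (g : Fin n → Cn n → ℂ) (s : Perm (Fin n)) (z : Cn n) : ℂ :=
  ∏ l ∈ Finset.univ.erase k, wd (b, s l) (g l) z

theorem sm_cp (b : Bool) (k : Fin n) {g : Fin n → Cn n → ℂ} (hg : ∀ l, ContDiff ℝ ∞ (g l))
    (s : Perm (Fin n)) : ContDiff ℝ ∞ (cp b k g s) :=
  contDiff_prod fun l _ => sm_wd (hg l) _

theorem piola (b : Bool) (k : Fin n) {g : Fin n → Cn n → ℂ} (hg : ∀ l, ContDiff ℝ ∞ (g l))
    (z : Cn n) : ∑ s : Perm (Fin n), sgn s * wd (b, s k) (cp b k g s) z = 0 := by
  have h1 : ∀ s : Perm (Fin n), wd (b, s k) (cp b k g s) z = ∑ l ∈ Finset.univ.erase k,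
      wd (b, s k) (wd (b, s l) (g l)) z *
        ∏ j ∈ (Finset.univ.erase k).erase l, wd (b, s j) (g j) z := fun s =>
    wd_prod (f := fun l => wd (b, s l) (g l)) _ (fun l => sm_wd (hg l) _) _ z
  simp only [h1, Finset.mul_sum]
  rw [Finset.sum_comm]
  refine Finset.sum_eq_zero fun l hl => ?_
  have hkl : k ≠ l := (Finset.ne_of_mem_erase hl).symm
  rw [← CharZero.eq_neg_self_iff, ← Finset.sum_neg_distrib,
    ← Equiv.sum_comp (Equiv.mulRight (swap k l))]
  refine Finset.sum_congr rfl fun s _ => ?_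
  simp only [Equiv.coe_mulRight, sgn_mul, sgn_swap hkl, Perm.mul_apply, swap_apply_left,
    swap_apply_right]
  rw [wd_comm (hg l).contDiffAt, Finset.prod_congr rfl (g := fun j => wd (b, s j) (g j) z)]
  · ring
  · intro j hj
    rw [swap_apply_of_ne_of_ne (Finset.ne_of_mem_erase (Finset.mem_of_mem_erase hj))
      (Finset.ne_of_mem_erase hj)]

/-- a Jacobian determinant -/
def jc (b : Bool) (k : Fin n) (g : Fin n → Cn n → ℂ) (h : Cn n → ℂ) (z : Cn n) : ℂ :=
  ∑ s : Perm (Fin n), sgn s * (wd (b, s k) h z * cp b k g s z)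

theorem sm_jc (b : Bool) (k : Fin n) {g : Fin n → Cn n → ℂ} (hg : ∀ l, ContDiff ℝ ∞ (g l))
    {h : Cn n → ℂ} (hh : ContDiff ℝ ∞ h) : ContDiff ℝ ∞ (jc b k g h) :=
  ContDiff.sum fun s _ => contDiff_const.mul ((sm_wd hh _).mul (sm_cp b k hg s))

theorem supp_jc (b : Bool) (k : Fin n) (g : Fin n → Cn n → ℂ) {h : Cn n → ℂ}
    (hc : HasCompactSupport h) : HasCompactSupport (jc b k g h) := by
  refine (hc.fderiv ℝ).mono fun z hz h0 => hz ?_
  simp [jc, wd, h0, wdL_zero]

theorem int_jc (b : Bool) (k : Fin n) {g : Fin n → Cn n → ℂ} (hg : ∀ l, ContDiff ℝ ∞ (g l))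
    {h : Cn n → ℂ} (hh : ContDiff ℝ ∞ h) (hc : HasCompactSupport h) : ∫ z, jc b k g h z = 0 := by
  have h1 : ∀ z, jc b k g h z =
      ∑ s : Perm (Fin n), sgn s * wd (b, s k) (fun w => h w * cp b k g s w) z := fun z => by
    have h2 := piola b k hg z
    simp only [wd_mul (dif hh z) (dif (sm_cp b k hg _) z), mul_add, Finset.sum_add_distrib,
      mul_left_comm _ (h z), ← Finset.mul_sum, h2, mul_zero, add_zero, jc]
  simp only [h1]
  rw [integral_finsetSum _ fun s _ => (((sm_wd (hh.mul (sm_cp b k hg s)) _).continuous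
    ).integrable_of_hasCompactSupport (supp_wd hc.mul_right _)).const_mul _]
  refine Finset.sum_eq_zero fun s _ => ?_
  rw [integral_const_mul, int_wd (hh.mul (sm_cp b k hg s)) hc.mul_right, mul_zero]

theorem jc_parts (b : Bool) (k : Fin n) {g : Fin n → Cn n → ℂ} (hg : ∀ l, ContDiff ℝ ∞ (g l))
    {φ h : Cn n → ℂ} (hφ : ContDiff ℝ ∞ φ) (hh : ContDiff ℝ ∞ h) (hc : HasCompactSupport φ) :
    ∫ z, φ z * jc b k g h z = -∫ z, h z * jc b k g φ z := by
  have h1 := int_jc b k hg (hφ.mul hh) hc.mul_right
  have h2 : ∀ z, jc b k g (fun w => φ w * h w) z = φ z * jc b k g h z + h z * jc b k g φ z :=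
    fun z => by
      simp only [jc, wd_mul (dif hφ z) (dif hh z), Finset.mul_sum, ← Finset.sum_add_distrib]
      exact Finset.sum_congr rfl fun s _ => by ring
  simp only [h2] at h1
  rw [integral_add (int_l hφ.continuous (sm_jc b k hg hh).continuous hc)
    (int_r hh.continuous (sm_jc b k hg hφ).continuous (supp_jc b k g hc))] at h1
  exact eq_neg_of_add_eq_zero_left h1

/-- the matrix `∂φ ⊗ ∂̄v` -/
def gg (φ v : Cn n → ℝ) (z : Cn n) : MC n :=
  Matrix.of fun a b => wd (false, a) (cu φ) z * wd (true, b) (cu v) z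

section stokes

variable {u : Fin n → Cn n → ℝ} (hu : ∀ l, ContDiff ℝ ∞ (u l)) (k : Fin n) {φ v : Cn n → ℝ}
  (hφ : ContDiff ℝ ∞ φ) (hv : ContDiff ℝ ∞ v)
include hu hφ hv

theorem stokes_c1 (hc : HasCompactSupport φ) :
    ∫ z, (φ z : ℂ) * md (update (fun l => hess (u l) z) k (hess v z)) =
      -∫ z, md (update (fun l => hess (u l) z) k (gg φ v z)) := by
  have s1 : ∀ (t : Perm (Fin n)) l, ContDiff ℝ ∞ (wd (true, t l) (cu (u l))) := fun t l =>
    sm_wd (sm_cu (hu l)) _
  have s2 : ∀ a, ContDiff ℝ ∞ (wd (true, a) (cu v)) := fun a => sm_wd (sm_cu hv) _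
  have hc' : HasCompactSupport (cu φ) := hc.comp_left (g := fun x : ℝ => (x : ℂ)) (by simp)
  have e1 : ∀ z, (φ z : ℂ) * md (update (fun l => hess (u l) z) k (hess v z)) =
      ∑ t : Perm (Fin n), sgn t * (cu φ z * jc false k (fun l => wd (true, t l) (cu (u l)))
        (wd (true, t k) (cu v)) z) := fun z => by
    rw [md_update, Finset.sum_comm]
    simp only [jc, cp, Finset.mul_sum, hess_apply, cu]
    exact Finset.sum_congr rfl fun t _ => Finset.sum_congr rfl fun s _ => by ring
  have e2 : ∀ z, md (update (fun l => hess (u l) z) k (gg φ v z)) =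
      ∑ t : Perm (Fin n), sgn t * (wd (true, t k) (cu v) z *
        jc false k (fun l => wd (true, t l) (cu (u l))) (cu φ) z) := fun z => by
    rw [md_update, Finset.sum_comm]
    simp only [jc, cp, Finset.mul_sum, hess_apply, gg, Matrix.of_apply]
    exact Finset.sum_congr rfl fun t _ => Finset.sum_congr rfl fun s _ => by ring
  simp only [e1, e2]
  rw [integral_finsetSum _ fun t _ => (int_l (sm_cu hφ).continuous
      (sm_jc false k (s1 t) (s2 (t k))).continuous hc').const_mul (sgn t),
    integral_finsetSum _ fun t _ => (int_r (s2 (t k)).continuous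
      (sm_jc false k (s1 t) (sm_cu hφ)).continuous (supp_jc false k _ hc')).const_mul (sgn t),
    ← Finset.sum_neg_distrib]
  refine Finset.sum_congr rfl fun t _ => ?_
  rw [integral_const_mul, integral_const_mul, jc_parts false k (s1 t) (sm_cu hφ) (s2 _) hc',
    mul_neg]

theorem stokes_c2 (hc : HasCompactSupport φ) :
    ∫ z, (v z : ℂ) * md (update (fun l => hess (u l) z) k (hess φ z)) =
      -∫ z, md (update (fun l => hess (u l) z) k (gg φ v z)) := by
  have s1 : ∀ (s : Perm (Fin n)) l, ContDiff ℝ ∞ (wd (false, s l) (cu (u l))) := fun t l =>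
    sm_wd (sm_cu (hu l)) _
  have s2 : ∀ a, ContDiff ℝ ∞ (wd (false, a) (cu φ)) := fun a => sm_wd (sm_cu hφ) _
  have hc' : HasCompactSupport (cu φ) := hc.comp_left (g := fun x : ℝ => (x : ℂ)) (by simp)
  have c1 : ∀ {f : Cn n → ℝ}, ContDiff ℝ ∞ f → ∀ z a b,
      hess f z a b = wd (true, b) (wd (false, a) (cu f)) z := fun hf z a b => by
    rw [hess_apply, wd_comm (sm_cu hf).contDiffAt]
  have e1 : ∀ z, (v z : ℂ) * md (update (fun l => hess (u l) z) k (hess φ z)) =
      ∑ s : Perm (Fin n), sgn s * (cu v z * jc true k (fun l => wd (false, s l) (cu (u l)))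
        (wd (false, s k) (cu φ)) z) := fun z => by
    rw [md_update]
    simp only [jc, cp, Finset.mul_sum, c1 hφ, c1 (hu _), cu]
    exact Finset.sum_congr rfl fun t _ => Finset.sum_congr rfl fun s _ => by ring
  have e2 : ∀ z, md (update (fun l => hess (u l) z) k (gg φ v z)) =
      ∑ s : Perm (Fin n), sgn s * (wd (false, s k) (cu φ) z *
        jc true k (fun l => wd (false, s l) (cu (u l))) (cu v) z) := fun z => by
    rw [md_update]
    simp only [jc, cp, Finset.mul_sum, c1 (hu _), gg, Matrix.of_apply]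
    exact Finset.sum_congr rfl fun t _ => Finset.sum_congr rfl fun s _ => by ring
  simp only [e1, e2]
  rw [integral_finsetSum _ fun s _ => (int_r (sm_cu hv).continuous
      (sm_jc true k (s1 s) (s2 (s k))).continuous (supp_jc true k _ (supp_wd hc' _))).const_mul
      (sgn s),
    integral_finsetSum _ fun s _ => (int_l (s2 (s k)).continuous
      (sm_jc true k (s1 s) (sm_cu hv)).continuous (supp_wd hc' _)).const_mul (sgn s),
    ← Finset.sum_neg_distrib]
  refine Finset.sum_congr rfl fun s _ => ?_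
  rw [integral_const_mul, integral_const_mul,
    jc_parts true k (s1 s) (s2 _) (sm_cu hv) (supp_wd hc' _), mul_neg, neg_neg]

end stokes

theorem supp_mh (u : Fin n → Cn n → ℝ) (k : Fin n) {φ : Cn n → ℝ} {z : Cn n} (hz : z ∉ tsupport φ) :
    mh (update u k φ) z = 0 :=
  mh_update_zero u k (notMem_tsupport_iff_eventuallyEq.1 hz)

theorem re_int {u : Fin n → Cn n → ℝ} (hu : ∀ l, ContDiff ℝ ∞ (u l)) {φ : Cn n → ℝ}
    (hφ : Continuous φ) {K : Set (Cn n)} (hK : IsCompact K)
    (h0 : ∀ z, z ∉ K → (φ z : ℂ) * (md fun l => hess (u l) z) = 0) :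
    ∫ z, φ z * mh u z = (∫ z, (φ z : ℂ) * md fun l => hess (u l) z).re := by
  have h1 : Continuous fun z => md fun l => hess (u l) z :=
    continuous_iff_continuousAt.2 fun _ => (contDiffAt_md fun k => (hu k).contDiffAt).continuousAt
  have h2 : Integrable fun z => (φ z : ℂ) * md fun l => hess (u l) z :=
    ((continuous_ofReal.comp hφ).mul h1).integrable_of_hasCompactSupport
      (HasCompactSupport.intro hK h0)
  have h3 := Complex.reCLM.integral_comp_comm h2
  simp only [Complex.reCLM_apply, Complex.re_ofReal_mul] at h3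
  exact h3

section stokes2

variable {u : Fin n → Cn n → ℝ} (hu : ∀ l, ContDiff ℝ ∞ (u l)) (k : Fin n) {φ v : Cn n → ℝ}
  (hφ : ContDiff ℝ ∞ φ) (hv : ContDiff ℝ ∞ v) (hc : HasCompactSupport φ)
include hu hφ hv hc

/-- gradient form -/
theorem stokes_grad : ∫ z, φ z * mh (update u k v) z =
    -(∫ z, md (update (fun l => hess (u l) z) k (gg φ v z))).re := by
  rw [re_int (sm_update hu k hv) hφ.continuous hc fun z hz => by
    rw [image_eq_zero_of_notMem_tsupport hz]; simp]
  simp only [hess_update]
  rw [stokes_c1 hu k hφ hv hc, Complex.neg_re]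

/-- **integration by parts** -/
theorem stokes : ∫ z, φ z * mh (update u k v) z = ∫ z, v z * mh (update u k φ) z := by
  rw [stokes_grad hu k hφ hv hc, re_int (sm_update hu k hφ) hv.continuous hc fun z hz => by
    rw [hess_update, hess_congr (notMem_tsupport_iff_eventuallyEq.1 hz)]
    exact mul_eq_zero_of_right _ ((congrArg (fun X => md (update _ k X)) (hess_zero_fun z)).trans
      (md_update_zero _ k))]
  simp only [hess_update]
  rw [stokes_c2 hu k hφ hv hc, Complex.neg_re]

end stokes2



end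

end Crest.Agent.X261.BT
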