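import Crest.Agent.X261.BT.MxR

/-!
# X261, BT (helper9), part P: closure properties of continuous psh functions

`CP.le_dav` (all discs), `cp_of_discs`, `cp_of_loc`, `CP.congr`, `CP.add`, `CP.mul`, `CP.max`,
`CP.conv` (convex increasing functions), `CP.sq`, `CP.lim`, `CP.comp` (holomorphic maps),
`CP.add_ph` (pluriharmonic terms).
-/

set_option autoImplicit false
set_option linter.unusedSectionVars false

open Set Filter Topology Complex MeasureTheory Function Metric Real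
open scoped ContDiff Matrix ComplexConjugate ComplexOrder

namespace Crest.Agent.X261.BT

open Crest.Agent.R275.Geo Crest.Agent.R275.EDR890
open Crest.Agent.R273.Hess_333 Crest.Agent.R273.HessB_333
open Crest.Agent.R281.Rich_710 (PshL dav le_dav_of_lvE disc_subset dav_congr)
open Crest.Agent.R257.HoB_843 (lvE lvE_comp)

noncomputable section

variable {n : ℕ} {O : Set (Cn n)} {u v : Cn n → ℝ}

/-- the closed disc through `x` in the direction `w` lies in `O` -/
def Di (O : Set (Cn n)) (x w : Cn n) : Prop := ∀ t : ℂ, ‖t‖ ≤ 1 → x + t • w ∈ O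

theorem Di.mem {x w : Cn n} (h : Di O x w) : x ∈ O := by simpa using h 0 (by simp)

theorem Di.cint {x w : Cn n} (h : Di O x w) (hu : ContinuousOn u O) :
    CircleIntegrable (fun t : ℂ => u (x + t • w)) 0 1 :=
  (hu.comp (by fun_prop) fun t ht => h t (by simpa using (mem_sphere_zero_iff_norm.1 ht).le)
    ).circleIntegrable zero_le_one

theorem Di.mono {x w : Cn n} (h : Di O x w) (hu : ContinuousOn u O) (hv : ContinuousOn v O)
    (H : ∀ t : ℂ, ‖t‖ = 1 → u (x + t • w) ≤ v (x + t • w)) : dav u x w ≤ dav v x w :=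
  circleAverage_mono (h.cint hu) (h.cint hv) fun t ht => H t (by simpa using ht)

theorem Di.add {x w : Cn n} (h : Di O x w) (hu : ContinuousOn u O) (hv : ContinuousOn v O) :
    dav (fun z => u z + v z) x w = dav u x w + dav v x w :=
  circleAverage_fun_add (h.cint hu) (h.cint hv)

theorem dav_mul (c : ℝ) (u : Cn n → ℝ) (x w : Cn n) : dav (fun z => c * u z) x w = c * dav u x w :=
  circleAverage_fun_smul (a := c) (f := fun t : ℂ => u (x + t • w))

theorem dav_const (c : ℝ) (x w : Cn n) : dav (fun _ => c) x w = c := circleAverage_const c 0 1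

theorem Di.cpt {x w : Cn n} (h : Di O x w) : ∃ K, IsCompact K ∧ K ⊆ O ∧ Di K x w :=
  ⟨(fun t : ℂ => x + t • w) '' closedBall 0 1, (isCompact_closedBall _ _).image (by fun_prop),
    by rintro _ ⟨t, ht, rfl⟩; exact h t (by simpa using ht),
    fun t ht => ⟨t, by simpa using ht, rfl⟩⟩

theorem Di.le_of_near {x w : Cn n} (h : Di O x w) (hu : ContinuousOn u O) (hv : ContinuousOn v O)
    {ε : ℝ} (H : ∀ t : ℂ, ‖t‖ ≤ 1 → |u (x + t • w) - v (x + t • w)| ≤ ε) (h1 : v x ≤ dav v x w) :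
    u x ≤ dav u x w + 2 * ε := by
  have h2 := h.mono hv (hu.add continuousOn_const) (v := fun z => u z + ε) fun t ht => by
    linarith [(abs_le.1 (H t ht.le)).1]
  rw [h.add hu continuousOn_const, dav_const] at h2
  have h3 := (abs_le.1 (H 0 (by simp))).2
  simp only [zero_smul, add_zero] at h3
  linarith

theorem cp_of_discs (hO : IsOpen O) (hu : ContinuousOn u O)
    (H : ∀ x w, Di O x w → u x ≤ dav u x w) : CP O u := by
  refine ⟨hu, fun z hz => ?_⟩
  obtain ⟨r, hr, hb⟩ := Metric.isOpen_iff.1 hO z hz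
  exact ⟨r / 2, half_pos hr, fun x hx w hw => H x w fun t ht =>
    hb (by simpa [mul_div_cancel₀] using disc_subset hx hw ht)⟩

/-- the sub-mean value inequality on all discs -/
theorem CP.le_dav (h : CP O u) (hO : IsOpen O) {x w : Cn n} (hd : Di O x w) : u x ≤ dav u x w := by
  obtain ⟨K, hK, hKO, hd'⟩ := hd.cpt
  obtain ⟨S, hS⟩ := exists_mo hO hK hKO
  refine le_of_forall_pos_le_add fun ε hε => ?_
  obtain ⟨j, h1, h2⟩ := ((hS.psd u h).and
    (Metric.tendstoUniformlyOn_iff.1 (hS.lim u h.1) (ε / 2) (half_pos hε))).exists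
  have s := hS.sm j u h.1
  have h3 := le_dav_of_lvE (f := S j u) (z := x) (v := w) (c := 0) fun t ht =>
    ⟨s.contDiffAt.of_le (WithTop.coe_le_coe.2 le_top), (psd_iff s.contDiffAt).1 (h1 _ (hd' t ht)) w⟩
  have h4 := hd.le_of_near h.1 s.continuous.continuousOn (ε := ε / 2)
    (fun t ht => (h2 _ (hd' t ht)).le) (by linarith)
  linarith

theorem cp_of_loc (H : ∀ z ∈ O, ∃ V, V ∈ 𝓝 z ∧ CP V u) : CP O u := by
  refine ⟨fun z hz => ?_, fun z hz => ?_⟩
  · obtain ⟨V, h1, h2⟩ := H z hz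
    exact (h2.1.continuousAt h1).continuousWithinAt
  · obtain ⟨V, h1, h2⟩ := H z hz
    exact h2.2 z (mem_of_mem_nhds h1)

theorem CP.congr (h : CP O u) (hO : IsOpen O) (H : EqOn v u O) : CP O v :=
  cp_of_discs hO (h.1.congr H) fun x w hd => by
    rw [H hd.mem, dav_congr (g := u) fun t ht => H (hd t ht.le)]
    exact h.le_dav hO hd

theorem CP.const (O : Set (Cn n)) (c : ℝ) : CP O fun _ => c :=
  ⟨continuousOn_const, fun _ _ => ⟨1, one_pos, fun _ _ _ _ => (dav_const _ _ _).ge⟩⟩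

theorem CP.add (h : CP O u) (h' : CP O v) (hO : IsOpen O) : CP O fun z => u z + v z :=
  cp_of_discs hO (h.1.add h'.1) fun _ _ hd => by
    rw [hd.add h.1 h'.1]
    exact add_le_add (h.le_dav hO hd) (h'.le_dav hO hd)

theorem CP.add_const (h : CP O u) (hO : IsOpen O) (c : ℝ) : CP O fun z => u z + c :=
  h.add (CP.const O c) hO

theorem CP.mul (h : CP O u) {c : ℝ} (hc : 0 ≤ c) : CP O fun z => c * u z :=
  ⟨continuousOn_const.mul h.1, fun z hz => (h.2 z hz).imp fun _ h1 => ⟨h1.1, fun x hx w hw => by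
    rw [dav_mul]
    exact mul_le_mul_of_nonneg_left (h1.2 x hx w hw) hc⟩⟩

theorem CP.sum {ι : Type*} (s : Finset ι) {f : ι → Cn n → ℝ} (h : ∀ i ∈ s, CP O (f i))
    (hO : IsOpen O) : CP O fun z => ∑ i ∈ s, f i z := by
  classical
  induction s using Finset.induction_on with
  | empty => simpa using CP.const O 0
  | insert a s ha ih =>
    simp only [Finset.sum_insert ha]
    exact (h a (Finset.mem_insert_self _ _)).add (ih fun i hi => h i (Finset.mem_insert_of_mem hi)) hO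

theorem CP.max (h : CP O u) (h' : CP O v) (hO : IsOpen O) : CP O fun z => max (u z) (v z) :=
  cp_of_discs hO (h.1.sup h'.1) fun _ _ hd =>
    max_le ((h.le_dav hO hd).trans (hd.mono h.1 (h.1.sup h'.1) fun _ _ => le_max_left _ _))
      ((h'.le_dav hO hd).trans (hd.mono h'.1 (h.1.sup h'.1) fun _ _ => le_max_right _ _))

/-- a continuous function which has a psh minorant touching it at every point is psh -/
theorem cp_of_touch (hO : IsOpen O) (hu : ContinuousOn u O)
    (H : ∀ x ∈ O, ∀ ε, 0 < ε → ∃ v, CP O v ∧ (∀ z ∈ O, v z ≤ u z) ∧ u x ≤ v x + ε) : CP O u :=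
  cp_of_discs hO hu fun x w hd => le_of_forall_pos_le_add fun ε hε => by
    obtain ⟨v, h1, h2, h3⟩ := H x hd.mem ε hε
    linarith [h1.le_dav hO hd, hd.mono h1.1 hu fun t ht => h2 _ (hd t ht.le)]

/-- convex increasing functions -/
theorem CP.conv (h : CP O u) (hO : IsOpen O) {g : ℝ → ℝ} {S : Set ℝ} (hS : ∀ z ∈ O, u z ∈ S)
    (hg : ContinuousOn g S) (H : ∀ t ∈ S, ∃ c, 0 ≤ c ∧ ∀ s ∈ S, g t + c * (s - t) ≤ g s) :
    CP O fun z => g (u z) :=
  cp_of_touch hO (hg.comp h.1 hS) fun x hx ε hε => by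
    obtain ⟨c, hc, h1⟩ := H _ (hS x hx)
    exact ⟨fun z => c * u z + (g (u x) - c * u x), (h.mul hc).add_const hO _,
      fun z hz => by linarith [h1 _ (hS z hz)], by linarith⟩

theorem CP.sq (h : CP O u) (hO : IsOpen O) (h0 : ∀ z ∈ O, 0 ≤ u z) : CP O fun z => u z ^ 2 :=
  h.conv hO (g := fun t => t ^ 2) (S := Ici 0) h0 (by fun_prop) fun t ht =>
    ⟨2 * t, mul_nonneg zero_le_two ht, fun s _ => by nlinarith [sq_nonneg (s - t)]⟩

theorem CP.exp (h : CP O u) (hO : IsOpen O) : CP O fun z => Real.exp (u z) :=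
  h.conv hO (S := univ) (fun _ _ => trivial) Real.continuous_exp.continuousOn fun t _ =>
    ⟨Real.exp t, (Real.exp_pos t).le, fun s _ => by
      have h1 := Real.add_one_le_exp (s - t)
      have h2 : Real.exp s = Real.exp t * Real.exp (s - t) := by rw [← Real.exp_add]; ring_nf
      nlinarith [Real.exp_pos t]⟩

theorem CP.lim {ι : Type*} {l : Filter ι} [l.NeBot] {f : ι → Cn n → ℝ} (hO : IsOpen O)
    (h : ∀ᶠ i in l, CP O (f i)) (H : TendstoLocallyUniformlyOn f u l O) : CP O u := by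
  have hu : ContinuousOn u O := H.continuousOn (h.mono fun _ hi => hi.1).frequently
  refine cp_of_discs hO hu fun x w hd => le_of_forall_pos_le_add fun ε hε => ?_
  obtain ⟨K, hK, hKO, hd'⟩ := hd.cpt
  obtain ⟨i, h1, h2⟩ := (h.and (Metric.tendstoUniformlyOn_iff.1
    ((tendstoLocallyUniformlyOn_iff_forall_isCompact hO).1 H K hKO hK) (ε / 2) (half_pos hε))).exists
  have h3 := hd.le_of_near hu h1.1 (ε := ε / 2) (fun t ht => (h2 _ (hd' t ht)).le) (h1.le_dav hO hd)
  linarith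

theorem cp_of_near (hO : IsOpen O) (H : ∀ ε, 0 < ε → ∃ v, CP O v ∧ ∀ z ∈ O, |u z - v z| ≤ ε) :
    CP O u := by
  choose v h1 h2 using fun j : ℕ => H (1 / ((j : ℝ) + 1)) (by positivity)
  refine CP.lim (l := atTop) hO (Eventually.of_forall h1)
    (Metric.tendstoUniformlyOn_iff.2 fun ε hε => ?_).tendstoLocallyUniformlyOn
  filter_upwards [tendsto_one_div_add_atTop_nhds_zero_nat.eventually (gt_mem_nhds hε)] with j hj z hz
  exact (h2 j z hz).trans_lt hj

theorem psd_comp {m : ℕ} {F : Cn m → Cn n} {z : Cn m} (hF : ContDiffAt ℂ ∞ F z)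
    (hv : ContDiffAt ℝ ∞ v (F z)) (h : (hess v (F z)).PosSemidef) :
    (hess (fun y => v (F y)) z).PosSemidef := by
  have two : (2 : WithTop ℕ∞) ≤ ∞ := WithTop.coe_le_coe.2 le_top
  refine (psd_iff (hv.comp z (hF.restrict_scalars ℝ))).2 fun w => ?_
  rw [lvE_comp (hF.of_le two) (hv.of_le two)]
  exact (psd_iff hv).1 h _

theorem smooth_of_hol {m : ℕ} {F : Cn m → Cn n} {O' : Set (Cn m)} (hO' : IsOpen O')
    (hF : DifferentiableOn ℂ F O') {z : Cn m} (hz : z ∈ O') : ContDiffAt ℂ ∞ F z :=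
  ((R266.SCV.contDiffOn_omega_of_differentiableOn hO' hF).of_le le_top).contDiffAt (hO'.mem_nhds hz)

/-- holomorphic pull-back -/
theorem CP.comp (h : CP O u) (hO : IsOpen O) {m : ℕ} {F : Cn m → Cn n} {O' : Set (Cn m)}
    (hO' : IsOpen O') (hF : DifferentiableOn ℂ F O') (hm : MapsTo F O' O) :
    CP O' fun z => u (F z) := by
  refine cp_of_loc fun z hz => ?_
  obtain ⟨U, hU, h1, h2, h3⟩ := exists_rc isCompact_singleton hO (singleton_subset_iff.2 (hm hz))
  obtain ⟨S, hS⟩ := exists_mo hO h3 h2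
  have hV : IsOpen (O' ∩ F ⁻¹' U) := hF.continuousOn.isOpen_inter_preimage hO' hU
  refine ⟨_, hV.mem_nhds ⟨hz, h1 rfl⟩, cp_of_near hV fun ε hε => ?_⟩
  obtain ⟨j, h4, h5⟩ := ((hS.psd u h).and
    (Metric.tendstoUniformlyOn_iff.1 (hS.lim u h.1) ε hε)).exists
  have s := hS.sm j u h.1
  exact ⟨fun y => S j u (F y), cp_of_smooth hV fun y hy =>
    ⟨s.contDiffAt.comp y ((smooth_of_hol hO' hF hy.1).restrict_scalars ℝ),
      psd_comp (smooth_of_hol hO' hF hy.1) s.contDiffAt (h4 _ (subset_closure hy.2))⟩,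
    fun y hy => (h5 _ (subset_closure hy.2)).le⟩

/-- pluriharmonic on `O` -/
def Ph (O : Set (Cn n)) (h : Cn n → ℝ) : Prop := ∀ z ∈ O, ContDiffAt ℝ ∞ h z ∧ hess h z = 0

theorem Ph.cp {h : Cn n → ℝ} (H : Ph O h) (hO : IsOpen O) : CP O h :=
  cp_of_smooth hO fun z hz => ⟨(H z hz).1, by rw [(H z hz).2]; exact Matrix.PosSemidef.zero⟩

theorem Ph.mul {h : Cn n → ℝ} (H : Ph O h) (c : ℝ) : Ph O fun z => c * h z := fun z hz =>
  ⟨contDiffAt_const.mul (H z hz).1, by rw [hess_const_mul c (H z hz).1, (H z hz).2, smul_zero]⟩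

theorem Ph.mono {h : Cn n → ℝ} (H : Ph O h) {O' : Set (Cn n)} (h1 : O' ⊆ O) : Ph O' h :=
  fun z hz => H z (h1 hz)

theorem Ph.const (O : Set (Cn n)) (c : ℝ) : Ph O fun _ => c := fun z _ =>
  ⟨contDiffAt_const, by
    ext a b
    have e : wd (true, b) (cu fun _ : Cn n => c) = fun _ => 0 := funext fun w => wd_const _ _ _
    rw [hess_apply, e, wd_const, Matrix.zero_apply]⟩



end

end Crest.Agent.X261.BT
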